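import Vale.Agent.P237.Petty.Cor.Grid.N16.MidCov
import Vale.Agent.P237.Petty.Cor.Grid.N16.MidChecks

/-!
# P237: a cell in dimension 16
-/

namespace Vale.Agent.P237.Petty.Cor.Grid.N16.Mid

theorem covers : ∀ e ∈ cell.rows, cell.Covers table e.1 := by
  simp only [cell, List.forall_mem_cons]
  exact ⟨covers0, covers1, covers2, covers3, covers4, covers5, covers6, covers7, covers8, covers9, covers10, covers11, covers12, covers13, covers14, covers15, covers16, covers17, covers18, covers19, covers20, covers21, covers22, covers23, covers24, covers25, covers26, covers27, covers28, covers29, covers30, covers31, covers32, covers33, covers34, covers35, covers36, covers37, covers38, covers39, covers40, covers41, covers42, covers43, covers44, covers45, covers46, covers47, covers48, covers49, covers50, covers51, covers52, List.forall_mem_nil _⟩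

/-- The cell. -/

theorem corCell : CorCell 14 ((1363148 : ℝ) / 16777216) ((8388608 : ℝ) / 16777216) := by
  simpa [cell, par, sR] using Cell.corCell head_ok table_ok pieces_ok rows_ok mean_ok covers

end Vale.Agent.P237.Petty.Cor.Grid.N16.Mid
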