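import Vale.Agent.P237.Petty.Cor.Grid.N16.LowCert

/-!
# P237: a cell in dimension 16, subdivisions
-/

namespace Vale.Agent.P237.Petty.Cor.Grid.N16.Low

def covers0 : cell.Covers table row0.1 :=
  ⟨(.cut .d 0 (.cut .v 16777216 (.cut .v 8388608 (.cut .v 4194304 (.cut .v 2097152 (.void 6 ⟨0, 0, 100000, 0, 0, 0, 0, 0, 0, ⟨0, 0⟩, 0⟩ 0 0) (.pos 7 .mm ⟨0, 0, 0, 0, 3910349, 0, 0, 0, 0, ⟨0, 0⟩, 0⟩ 0 0)) (.pos 5 .mm ⟨0, 0, 0, 0, 0, 62302, 0, 0, 0, ⟨0, 0⟩, 0⟩ 0 0)) (.cut .d (-8388608) (.cut .v 12582912 (.pos 8 .mm ⟨0, 0, 0, 0, 0, 0, 0, 0, 0, ⟨0, 0⟩, 0⟩ 0 0) (.pos 9 .mm ⟨0, 0, 0, 0, 0, 0, 0, 0, 0, ⟨0, 0⟩, 0⟩ 0 0)) (.cut .v 12582912 (.cut .d (-4194304) (.pos 8 .mm ⟨0,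 0, 0, 0, 0, 0, 0, 0, 0, ⟨0, 0⟩, 0⟩ 0 0) (.pos 8 .mm ⟨0, 0, 0, 0, 1221453, 0, 0, 0, 0, ⟨0, 0⟩, 0⟩ 0 0)) (.cut .d (-4194304) (.cut .v 14680064 (.pos 12 .mm ⟨0, 0, 0, 0, 0, 0, 0, 0, 0, ⟨0, 0⟩, 0⟩ 0 0) (.pos 13 .mm ⟨0, 0, 0, 0, 0, 0, 0, 0, 0, ⟨0, 0⟩, 0⟩ 0 0)) (.cut .d (-2097152) (.cut .v 14680064 (.cut .d (-3145728) (.pos 12 .mm ⟨0, 0, 0, 0, 0, 13683, 0, 0, 0, ⟨0, 0⟩, 0⟩ 0 0) (.pos 12 .mm ⟨0, 0, 0, 0, 154335, 0, 0, 0, 0, ⟨0, 0⟩, 0⟩ 0 0)) (.cut .v 15728640 (.pos 16 .mm ⟨0, 0, 0, 0, 0, 20173, 0, 0, 0, ⟨0, 0⟩, 0⟩ 0 0) (.pos 17 .mm ⟨0, 0, 0, 0, 0, 2870, 0, 0, 0, ⟨0, 0⟩, 0⟩ 0 0))) (.cut .v 14680064 (.pos 12 .mm ⟨0, 0, 0, 0, 2380892, 430606, 0, 0, 0, ⟨0, 0⟩, 0⟩ 0 0)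 (.cut .d (-1048576) (.cut .v 15728640 (.cut .d (-1572864) (.pos 16 .mm ⟨0, 0, 0, 0, 0, 19554, 0, 0, 0, ⟨0, 0⟩, 0⟩ 0 0) (.cut .d (-1310720) (.pos 16 .mm ⟨0, 0, 0, 0, 93179, 0, 0, 0, 0, ⟨0, 0⟩, 0⟩ 0 0) (.pos 16 .mm ⟨0, 0, 0, 0, 8933, 18960, 0, 0, 0, ⟨0, 0⟩, 0⟩ 0 0))) (.pos 17 .mm ⟨0, 0, 0, 0, 0, 0, 0, 0, 0, ⟨0, 0⟩, 0⟩ 0 0)) (.cut .v 15728640 (.cut .d (-524288) (.pos 16 .mm ⟨0, 0, 0, 0, 0, 404853, 0, 0, 0, ⟨0, 0⟩, 0⟩ 0 0) (.pos 16 .mm ⟨0, 0, 0, 0, 0, 725549, 0, 0, 0, ⟨0, 0⟩, 0⟩ 0 0)) (.cut .d (-524288) (.cut .v 16252928 (.cut .d (-786432) (.pos 20 .mm ⟨0, 0, 0, 0, 0, 107093, 0, 0, 0, ⟨0, 0⟩, 0⟩ 0 0) (.cut .d (-655360) (.pos 20 .mm ⟨0, 0, 0, 0, 0, 221978, 0, 0,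 0, ⟨0, 0⟩, 0⟩ 0 0) (.pos 20 .mm ⟨0, 0, 0, 0, 0, 334733, 0, 0, 0, ⟨0, 0⟩, 0⟩ 0 0))) (.pos 21 .mm ⟨0, 0, 0, 0, 0, 197784, 0, 0, 0, ⟨0, 0⟩, 0⟩ 0 0)) (.cut .l 796917 (.cut .v 16252928 (.cut .d (-262144) (.pos 20 .mm ⟨0, 0, 0, 0, 0, 0, 0, 0, 0, ⟨0, 0⟩, 0⟩ 0 0) (.pos 20 .mm ⟨0, 0, 0, 0, 0, 0, 0, 0, 0, ⟨0, 0⟩, 0⟩ 0 0)) (.cut .l 513801 (.cut .d (-262144) (.cut .s 851968 (.pos 21 .mm ⟨0, 0, 0, 0, 0, 0, 0, 0, 0, ⟨0, 0⟩, 0⟩ 0 0) (.cut .v 16515072 (.cut .d (-393216) (.pos 24 .mm ⟨0, 0, 0, 0, 0, 0, 0, 0, 0, ⟨0, 0⟩, 0⟩ 0 0) (.pos 24 .mm ⟨0, 0, 0, 0, 0, 0, 0, 0, 0, ⟨0, 0⟩, 0⟩ 0 0)) (.pos 25 .mm ⟨0, 0, 0, 0, 0, 0, 0, 0, 0, ⟨0, 0⟩, 0⟩ 0 0))) (.cut .s 851968 (.pos 21 .mm ⟨0,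 0, 0, 0, 0, 0, 0, 0, 0, ⟨0, 0⟩, 0⟩ 0 0) (.cut .v 16515072 (.pos 24 .mm ⟨0, 0, 0, 0, 0, 0, 0, 0, 0, ⟨0, 0⟩, 0⟩ 0 0) (.cut .d (-131072) (.pos 25 .mm ⟨0, 0, 0, 0, 0, 0, 0, 0, 0, ⟨0, 0⟩, 0⟩ 0 0) (.pos 25 .mm ⟨0, 0, 0, 0, 0, 0, 0, 0, 0, ⟨0, 0⟩, 0⟩ 0 0))))) (.pos 21 .mm ⟨0, 0, 0, 0, 0, 0, 0, 0, 0, ⟨0, 0⟩, 0⟩ 0 0))) (.pos 17 .mm ⟨0, 0, 0, 0, 0, 0, 0, 0, 0, ⟨0, 0⟩, 0⟩ 0 0))))))))))) (.cut .v 25165824 (.cut .v 20971520 (.cut .v 18874368 (.cut .d (-8388608) (.pos 35 .mp ⟨0, 0, 0, 0, 0, 0, 0, 0, 0, ⟨0, 0⟩, 0⟩ 0 0) (.cut .d (-4194304) (.pos 35 .mp ⟨0, 0, 0, 0, 0, 0, 0, 0, 0, ⟨0, 0⟩, 0⟩ 0 0) (.cut .v 17825792 (.pos 37 .mp ⟨288822, 0, 0, 0, 0, 0, 0, 0, 0, ⟨0, 0⟩, 0⟩ 0 0)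 (.pos 38 .mp ⟨2067394, 0, 0, 0, 0, 0, 0, 0, 0, ⟨0, 0⟩, 0⟩ 0 0)))) (.void 36 ⟨100000, 0, 0, 0, 0, 0, 0, 0, 0, ⟨0, 0⟩, 0⟩ 0 0)) (.void 34 ⟨0, 0, 0, 0, 0, 0, 100000, 0, 0, ⟨0, 0⟩, 0⟩ 0 0)) (.void 32 ⟨0, 0, 0, 0, 0, 0, 100000, 0, 0, ⟨0, 0⟩, 0⟩ 0 0))) (.cut .v 16777216 (.cut .v 8388608 (.cut .v 4194304 (.cut .v 2097152 (.void 6 ⟨0, 0, 100000, 0, 0, 0, 0, 0, 0, ⟨0, 0⟩, 0⟩ 0 0) (.pos 7 .pm ⟨0, 0, 0, 0, 1776489, 0, 0, 0, 0, ⟨0, 0⟩, 0⟩ 0 0)) (.pos 5 .pm ⟨0, 0, 0, 0, 1670995, 0, 0, 0, 0, ⟨0, 0⟩, 0⟩ 0 0)) (.cut .v 12582912 (.pos 8 .pm ⟨0, 0, 0, 0, 1634607, 0, 0, 0, 0, ⟨0, 0⟩, 0⟩ 0 0) (.cut .s 851968 (.pos 9 .pm ⟨0, 0, 0, 0, 0, 0, 0, 317665, 0, ⟨(-1), 16634026⟩, 0⟩ 0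 15) (.cut .s 1277952 (.pos 9 .pm ⟨0, 0, 0, 0, 0, 0, 0, 36054, 247673, ⟨24544, 16186112⟩, 15612959⟩ 13 22) (.cut .d 1004029 (.cut .d 502014 (.cut .d 251007 (.cut .d 125503 (.cut .d 62751 (.cut .v 14680064 (.void 12 ⟨0, 0, 0, 0, 100000, 0, 0, 0, 0, ⟨0, 0⟩, 0⟩ 0 0) (.cut .v 15728640 (.void 16 ⟨0, 0, 0, 0, 100000, 0, 0, 0, 0, ⟨0, 0⟩, 0⟩ 0 0) (.cut .v 16252928 (.pos 20 .pm ⟨0, 0, 0, 0, 0, 0, 0, 0, 0, ⟨0, 0⟩, 0⟩ 0 0) (.cut .v 16515072 (.pos 24 .pm ⟨0, 0, 0, 0, 0, 0, 0, 0, 0, ⟨0, 0⟩, 0⟩ 0 0) (.pos 25 .pm ⟨0, 0, 0, 0, 0, 0, 0, 0, 0, ⟨0, 0⟩, 0⟩ 0 0))))) (.pos 9 .pm ⟨0, 0, 0, 0, 0, 0, 0, 0, 2905, ⟨0, 0⟩, 15612959⟩ 0 0)) (.pos 9 .pm ⟨0, 0, 0, 0, 0, 0, 0, 0, 0, ⟨0, 0⟩,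 0⟩ 0 0)) (.pos 9 .pm ⟨0, 0, 0, 0, 0, 0, 0, 0, 0, ⟨0, 0⟩, 0⟩ 0 0)) (.pos 9 .pm ⟨0, 0, 0, 0, 0, 0, 0, 1769613, 0, ⟨64870, 15693728⟩, 0⟩ 20 28)) (.pos 9 .pm ⟨0, 0, 0, 0, 0, 0, 0, 0, 1863997, ⟨0, 0⟩, 15612959⟩ 0 0)))))) (.cut .v 25165824 (.cut .v 20971520 (.cut .v 18874368 (.cut .d 1004029 (.cut .v 17825792 (.cut .d 502014 (.cut .v 17301504 (.cut .l 796917 (.cut .l 513801 (.cut .d 251007 (.cut .v 17039360 (.cut .d 125503 (.pos 41 .pp ⟨0, 0, 0, 0, 0, 0, 0, 0, 0, ⟨0, 0⟩, 0⟩ 0 0) (.pos 41 .pp ⟨0, 0, 0, 0, 0, 0, 0, 0, 0, ⟨0, 0⟩, 0⟩ 0 0)) (.pos 42 .pp ⟨969205, 0, 0, 0, 0, 0, 0, 0, 0, ⟨0, 0⟩, 0⟩ 0 0)) (.cut .v 17039360 (.pos 41 .pp ⟨135991, 0, 0, 0, 0, 0, 0, 205380,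 0, ⟨(-1), 16320493⟩, 0⟩ 0 27) (.cut .s 851968 (.pos 42 .pp ⟨1889071, 0, 0, 0, 0, 0, 0, 0, 0, ⟨0, 0⟩, 0⟩ 0 0) (.pos 42 .pp ⟨929763, 0, 0, 0, 0, 0, 0, 612414, 0, ⟨34175, 15996452⟩, 0⟩ 13 27)))) (.pos 39 .pp ⟨0, 0, 0, 0, 0, 0, 0, 0, 0, ⟨0, 0⟩, 0⟩ 0 0)) (.pos 39 .pp ⟨0, 0, 0, 0, 0, 0, 0, 0, 0, ⟨0, 0⟩, 0⟩ 0 0)) (.pos 40 .pp ⟨1507357, 0, 0, 0, 0, 0, 0, 0, 0, ⟨0, 0⟩, 0⟩ 0 0)) (.cut .v 17301504 (.pos 39 .pp ⟨1137497, 0, 0, 0, 0, 0, 0, 357871, 0, ⟨(-1), 16286838⟩, 0⟩ 0 28) (.cut .s 851968 (.pos 40 .pp ⟨1990394, 0, 0, 0, 0, 0, 0, 0, 0, ⟨0, 0⟩, 0⟩ 0 0) (.pos 40 .pp ⟨1502203, 0, 0, 0, 0, 0, 0, 0, 0, ⟨0, 0⟩, 0⟩ 0 0)))) (.pos 38 .pp ⟨1899680, 0, 0, 0, 0, 0, 0, 0, 0, ⟨0,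 0⟩, 0⟩ 0 0)) (.cut .v 17825792 (.pos 37 .pp ⟨1714702, 0, 0, 0, 0, 0, 0, 0, 0, ⟨0, 0⟩, 0⟩ 0 0) (.cut .l 796917 (.void 38 ⟨81366, 0, 0, 0, 0, 0, 0, 18634, 0, ⟨(-1), 16216226⟩, 0⟩ 0 30) (.cut .d 1506043 (.cut .v 18350080 (.pos 49 .pp ⟨2002596, 0, 0, 0, 0, 0, 0, 0, 0, ⟨0, 0⟩, 0⟩ 0 0) (.pos 50 .pp ⟨3221477, 0, 0, 0, 0, 0, 0, 0, 0, ⟨0, 0⟩, 0⟩ 0 0)) (.cut .v 18350080 (.pos 49 .pp ⟨2988716, 0, 0, 0, 0, 0, 0, 335857, 0, ⟨(-1), 16216226⟩, 0⟩ 0 30) (.cut .s 851968 (.void 50 ⟨89834, 0, 0, 0, 0, 0, 0, 10166, 0, ⟨(-1), 16634026⟩, 0⟩ 0 15) (.pos 50 .pp ⟨3786486, 0, 0, 0, 0, 0, 0, 2060145, 0, ⟨44719, 15834608⟩, 0⟩ 14 30))))))) (.void 36 ⟨81784, 0, 0, 0, 0, 0, 0, 18216, 0,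 ⟨(-1), 16216226⟩, 0⟩ 0 30)) (.void 34 ⟨0, 0, 0, 0, 0, 0, 100000, 0, 0, ⟨0, 0⟩, 0⟩ 0 0)) (.void 32 ⟨0, 0, 0, 0, 0, 0, 100000, 0, 0, ⟨0, 0⟩, 0⟩ 0 0)))),
    by decide +kernel⟩

def covers1 : cell.Covers table row1.1 :=
  ⟨(.cut .d 0 (.cut .v 16777216 (.cut .v 8388608 (.void 2 ⟨0, 0, 0, 0, 50000, 50000, 0, 0, 0, ⟨0, 0⟩, 0⟩ 0 0) (.cut .v 12582912 (.void 8 ⟨0, 0, 0, 0, 50000, 50000, 0, 0, 0, ⟨0, 0⟩, 0⟩ 0 0) (.cut .d (-8388608) (.void 9 ⟨0, 0, 0, 0, 0, 100000, 0, 0, 0, ⟨0, 0⟩, 0⟩ 0 0) (.cut .d (-4194304) (.void 9 ⟨0, 0, 0, 0, 0, 100000, 0, 0, 0, ⟨0, 0⟩, 0⟩ 0 0) (.cut .d (-2097152) (.cut .v 14680064 (.pos 12 .mm ⟨0, 0, 0, 0, 0, 644248, 0, 0, 0, ⟨0, 0⟩, 0⟩ 0 0) (.pos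 13 .mm ⟨0, 0, 0, 0, 0, 708673, 0, 0, 0, ⟨0, 0⟩, 0⟩ 0 0)) (.cut .v 14680064 (.pos 12 .mm ⟨0, 0, 0, 0, 0, 152227, 0, 0, 0, ⟨0, 0⟩, 0⟩ 0 0) (.cut .d (-1048576) (.cut .v 15728640 (.pos 16 .mm ⟨0, 0, 0, 0, 0, 708673, 0, 0, 0, ⟨0, 0⟩, 0⟩ 0 0) (.pos 17 .mm ⟨0, 0, 0, 0, 0, 740885, 0, 0, 0, ⟨0, 0⟩, 0⟩ 0 0)) (.cut .v 15728640 (.cut .d (-524288) (.pos 16 .mm ⟨0, 0, 0, 0, 0, 497236, 0, 0, 0, ⟨0, 0⟩, 0⟩ 0 0) (.pos 16 .mm ⟨0, 0, 0, 0, 0, 162519, 0, 0, 0, ⟨0, 0⟩, 0⟩ 0 0)) (.cut .d (-524288) (.cut .v 16252928 (.cut .v 15990784 (.pos 22 .mm ⟨0, 0, 0, 0, 0, 477237, 0, 0, 0, ⟨0, 0⟩, 0⟩ 0 0) (.pos 23 .mm ⟨0, 0, 0, 0, 0, 434278, 0, 0, 0, ⟨0, 0⟩, 0⟩ 0 0)) (.pos 21 .mm ⟨0, 0, 0,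 0, 0, 529699, 0, 0, 0, ⟨0, 0⟩, 0⟩ 0 0)) (.cut .v 16252928 (.cut .d (-262144) (.pos 20 .mm ⟨0, 0, 0, 0, 0, 47400, 0, 0, 0, ⟨0, 0⟩, 0⟩ 0 0) (.pos 20 .mm ⟨0, 0, 0, 0, 0, 0, 0, 0, 0, ⟨0, 0⟩, 0⟩ 0 0)) (.cut .d (-262144) (.cut .v 16515072 (.cut .d (-393216) (.pos 24 .mm ⟨0, 0, 0, 0, 0, 0, 0, 0, 0, ⟨0, 0⟩, 0⟩ 0 0) (.pos 24 .mm ⟨0, 0, 0, 0, 0, 0, 0, 0, 0, ⟨0, 0⟩, 0⟩ 0 0)) (.pos 25 .mm ⟨0, 0, 0, 0, 0, 0, 0, 0, 0, ⟨0, 0⟩, 0⟩ 0 0)) (.cut .l 796917 (.cut .v 16515072 (.cut .d (-131072) (.pos 24 .mm ⟨0, 0, 0, 0, 0, 0, 0, 0, 0, ⟨0, 0⟩, 0⟩ 0 0) (.pos 24 .mm ⟨0, 0, 0, 0, 0, 0, 0, 0, 0, ⟨0, 0⟩, 0⟩ 0 0)) (.cut .d (-131072) (.pos 25 .mm ⟨0, 0, 0, 0, 0, 0, 0, 0, 0, ⟨0, 0⟩, 0⟩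 0 0) (.pos 25 .mm ⟨0, 0, 0, 0, 0, 0, 0, 0, 0, ⟨0, 0⟩, 0⟩ 0 0))) (.pos 21 .mm ⟨0, 0, 0, 0, 0, 0, 0, 0, 0, ⟨0, 0⟩, 0⟩ 0 0))))))))))))) (.cut .v 25165824 (.cut .v 20971520 (.cut .v 18874368 (.pos 35 .mp ⟨68043, 0, 0, 0, 0, 0, 0, 0, 0, ⟨0, 0⟩, 0⟩ 0 0) (.void 36 ⟨100000, 0, 0, 0, 0, 0, 0, 0, 0, ⟨0, 0⟩, 0⟩ 0 0)) (.void 34 ⟨100000, 0, 0, 0, 0, 0, 0, 0, 0, ⟨0, 0⟩, 0⟩ 0 0)) (.void 32 ⟨0, 0, 0, 0, 0, 0, 100000, 0, 0, ⟨0, 0⟩, 0⟩ 0 0))) (.cut .v 16777216 (.cut .v 8388608 (.void 2 ⟨0, 0, 0, 0, 100000, 0, 0, 0, 0, ⟨0, 0⟩, 0⟩ 0 0) (.cut .v 12582912 (.void 8 ⟨0, 0, 0, 0, 100000, 0, 0, 0, 0, ⟨0, 0⟩, 0⟩ 0 0) (.cut .d 1631210 (.cut .v 14680064 (.pos 12 .pm ⟨0, 0, 0, 0, 0, 0,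 0, 0, 178799, ⟨0, 0⟩, 15100357⟩ 0 0) (.cut .d 815605 (.cut .v 15728640 (.pos 16 .pm ⟨0, 0, 0, 0, 0, 0, 0, 0, 0, ⟨0, 0⟩, 0⟩ 0 0) (.cut .d 407802 (.cut .v 16252928 (.pos 20 .pm ⟨0, 0, 0, 0, 0, 0, 0, 0, 0, ⟨0, 0⟩, 0⟩ 0 0) (.cut .d 203901 (.cut .v 16515072 (.pos 24 .pm ⟨0, 0, 0, 0, 0, 0, 0, 0, 0, ⟨0, 0⟩, 0⟩ 0 0) (.cut .d 101950 (.pos 25 .pm ⟨0, 0, 0, 0, 0, 0, 0, 0, 0, ⟨0, 0⟩, 0⟩ 0 0) (.pos 25 .pm ⟨0, 0, 0, 0, 0, 0, 0, 0, 0, ⟨0, 0⟩, 0⟩ 0 0))) (.pos 21 .pm ⟨0, 0, 0, 0, 0, 0, 0, 0, 0, ⟨0, 0⟩, 0⟩ 0 0))) (.pos 17 .pm ⟨0, 0, 0, 0, 0, 0, 0, 190238, 0, ⟨218083, 14205729⟩, 0⟩ 26 49))) (.pos 13 .pm ⟨0, 0, 0, 0, 0, 0, 0, 190238, 0, ⟨243326, 14013386⟩, 0⟩ 27 51))) (.void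 9 ⟨0, 0, 0, 0, 0, 0, 0, 0, 100000, ⟨0, 0⟩, 15612959⟩ 0 0)))) (.cut .v 25165824 (.cut .v 20971520 (.cut .d 1631210 (.cut .v 18874368 (.cut .d 815605 (.cut .v 17825792 (.cut .d 407802 (.cut .v 17301504 (.cut .l 796917 (.cut .d 203901 (.cut .s 2359296 (.cut .s 2031616 (.cut .d 101950 (.pos 39 .pp ⟨0, 0, 0, 0, 0, 0, 0, 0, 0, ⟨0, 0⟩, 0⟩ 0 0) (.cut .v 17039360 (.pos 41 .pp ⟨0, 0, 0, 0, 0, 0, 0, 0, 0, ⟨0, 0⟩, 0⟩ 0 0) (.pos 42 .pp ⟨0, 0, 0, 0, 0, 0, 0, 0, 0, ⟨0, 0⟩, 0⟩ 0 0))) (.pos 39 .pp ⟨0, 0, 0, 0, 0, 0, 0, 0, 0, ⟨0, 0⟩, 0⟩ 0 0)) (.pos 39 .pp ⟨0, 0, 0, 0, 0, 0, 0, 0, 0, ⟨0, 0⟩, 0⟩ 0 0)) (.cut .v 17039360 (.pos 41 .pp ⟨0, 0, 0, 0, 0, 0, 0, 222966, 0, ⟨211382, 14271709⟩,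 0⟩ 26 48) (.pos 42 .pp ⟨92151, 0, 0, 0, 0, 0, 0, 367509, 0, ⟨211382, 14271709⟩, 0⟩ 26 48))) (.pos 39 .pp ⟨0, 0, 0, 0, 0, 0, 0, 0, 0, ⟨0, 0⟩, 0⟩ 0 0)) (.pos 40 .pp ⟨627008, 0, 0, 0, 0, 0, 0, 0, 0, ⟨0, 0⟩, 0⟩ 0 0)) (.cut .v 17301504 (.cut .s 2359296 (.pos 39 .pp ⟨0, 0, 0, 0, 0, 0, 0, 927263, 0, ⟨148433, 14891520⟩, 0⟩ 26 38) (.pos 39 .pp ⟨0, 0, 0, 0, 0, 0, 0, 194201, 0, ⟨335889, 13590252⟩, 0⟩ 36 49)) (.cut .s 2359296 (.pos 40 .pp ⟨866070, 0, 0, 0, 0, 0, 0, 98810, 0, ⟨148433, 14891520⟩, 0⟩ 26 38) (.pos 40 .pp ⟨0, 0, 0, 0, 0, 0, 0, 262480, 0, ⟨335889, 13590252⟩, 0⟩ 36 49)))) (.pos 38 .pp ⟨941296, 0, 0, 0, 0, 0, 0, 0, 0, ⟨0, 0⟩, 0⟩ 0 0)) (.cut .v 17825792 (.cut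 .d 1223407 (.cut .s 2359296 (.pos 37 .pp ⟨0, 0, 0, 0, 0, 0, 0, 1119358, 0, ⟨162514, 14779605⟩, 0⟩ 27 39) (.pos 37 .pp ⟨0, 0, 0, 0, 0, 0, 0, 293360, 0, ⟨358717, 13453705⟩, 0⟩ 37 50)) (.pos 37 .pp ⟨0, 0, 0, 0, 0, 0, 0, 867828, 0, ⟨243326, 14013386⟩, 0⟩ 27 51)) (.cut .d 1223407 (.cut .s 2359296 (.pos 38 .pp ⟨1376074, 0, 0, 0, 0, 0, 0, 0, 0, ⟨0, 0⟩, 0⟩ 0 0) (.pos 38 .pp ⟨0, 0, 0, 0, 0, 0, 0, 619910, 0, ⟨358717, 13453705⟩, 0⟩ 37 50)) (.cut .s 2359296 (.cut .v 18350080 (.pos 49 .pp ⟨719000, 0, 0, 0, 0, 0, 0, 1021705, 0, ⟨168813, 14719881⟩, 0⟩ 27 40) (.pos 50 .pp ⟨1871850, 0, 0, 0, 0, 0, 0, 153388, 0, ⟨168813, 14719881⟩, 0⟩ 27 40)) (.pos 38 .pp ⟨0, 0, 0, 0, 0, 0,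 0, 714985, 0, ⟨382416, 13315209⟩, 0⟩ 38 51))))) (.pos 36 .pp ⟨2549743, 0, 0, 0, 0, 0, 0, 0, 0, ⟨0, 0⟩, 0⟩ 0 0)) (.cut .d 2446815 (.cut .l 796917 (.void 33 ⟨0, 0, 0, 0, 0, 0, 8141, 80719, 11140, ⟨270224, 13816207⟩, 17739746⟩ 28 53) (.cut .v 18874368 (.cut .v 17825792 (.pos 37 .pp ⟨0, 0, 0, 0, 0, 0, 0, 202128, 0, ⟨270224, 13816207⟩, 0⟩ 28 53) (.cut .v 18350080 (.pos 49 .pp ⟨403163, 0, 0, 0, 0, 0, 0, 1028152, 0, ⟨270224, 13816207⟩, 0⟩ 28 53) (.cut .s 2359296 (.cut .s 2031616 (.void 50 ⟨0, 0, 0, 0, 0, 0, 0, 100000, 0, ⟨151607, 14900704⟩, 0⟩ 28 36) (.pos 50 .pp ⟨0, 0, 0, 0, 0, 0, 0, 35747447, 0, ⟨248767, 14189024⟩, 0⟩ 34 42)) (.pos 50 .pp ⟨0, 0, 0, 0, 0, 0, 0,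 3186260, 0, ⟨418086, 13102006⟩, 0⟩ 39 53)))) (.cut .s 2359296 (.pos 36 .pp ⟨123008645586, 0, 0, 0, 0, 0, 0, 44763514414, 0, ⟨190808, 14542299⟩, 0⟩ 28 42) (.cut .s 2686976 (.pos 36 .pp ⟨1903704, 0, 0, 0, 0, 0, 0, 7316121, 0, ⟨352745, 13530912⟩, 0⟩ 39 47) (.pos 36 .pp ⟨0, 0, 0, 0, 0, 0, 0, 7769710, 0, ⟨491163, 12749027⟩, 0⟩ 44 53))))) (.void 33 ⟨0, 0, 0, 0, 0, 0, 0, 100000, 0, ⟨298790, 13614473⟩, 0⟩ 29 55))) (.void 34 ⟨0, 0, 0, 0, 0, 0, 100000, 0, 0, ⟨0, 0⟩, 0⟩ 0 0)) (.void 32 ⟨0, 0, 0, 0, 0, 0, 100000, 0, 0, ⟨0, 0⟩, 0⟩ 0 0)))),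
    by decide +kernel⟩

def covers2 : cell.Covers table row2.1 :=
  ⟨(.cut .d 0 (.cut .v 16777216 (.cut .v 8388608 (.void 2 ⟨0, 0, 0, 0, 50000, 50000, 0, 0, 0, ⟨0, 0⟩, 0⟩ 0 0) (.cut .v 12582912 (.pos 8 .mm ⟨0, 0, 0, 0, 0, 15663673, 0, 0, 0, ⟨0, 0⟩, 0⟩ 0 0) (.cut .d (-8388608) (.void 9 ⟨0, 0, 0, 0, 0, 100000, 0, 0, 0, ⟨0, 0⟩, 0⟩ 0 0) (.cut .d (-4194304) (.void 9 ⟨0, 0, 0, 0, 0, 100000, 0, 0, 0, ⟨0, 0⟩, 0⟩ 0 0) (.cut .d (-2097152) (.void 9 ⟨0, 0, 0, 0, 0, 100000, 0, 0, 0, ⟨0, 0⟩, 0⟩ 0 0) (.cut .v 14680064 (.pos 12 .mm ⟨0, 0, 0, 0, 0, 156625, 0, 0, 0, ⟨0, 0⟩, 0⟩ 0 0) (.cut .d (-1048576) (.cut .v 15728640 (.pos 16 .mm ⟨0, 0, 0, 0, 0, 164083, 0, 0, 0, ⟨0, 0⟩, 0⟩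 0 0) (.pos 17 .mm ⟨0, 0, 0, 0, 0, 167812, 0, 0, 0, ⟨0, 0⟩, 0⟩ 0 0)) (.cut .v 15728640 (.cut .d (-524288) (.pos 16 .mm ⟨0, 0, 0, 0, 0, 167812, 0, 0, 0, ⟨0, 0⟩, 0⟩ 0 0) (.pos 16 .mm ⟨0, 0, 0, 0, 0, 167812, 0, 0, 0, ⟨0, 0⟩, 0⟩ 0 0)) (.cut .d (-524288) (.cut .v 16252928 (.pos 20 .mm ⟨0, 0, 0, 0, 0, 171541, 0, 0, 0, ⟨0, 0⟩, 0⟩ 0 0) (.pos 21 .mm ⟨0, 0, 0, 0, 0, 173406, 0, 0, 0, ⟨0, 0⟩, 0⟩ 0 0)) (.cut .v 16252928 (.cut .d (-262144) (.pos 20 .mm ⟨0, 0, 0, 0, 0, 171541, 0, 0, 0, ⟨0, 0⟩, 0⟩ 0 0) (.pos 20 .mm ⟨0, 0, 0, 0, 0, 0, 0, 0, 0, ⟨0, 0⟩, 0⟩ 0 0)) (.cut .d (-262144) (.pos 21 .mm ⟨0, 0, 0, 0, 0, 175270, 0, 0, 0, ⟨0, 0⟩, 0⟩ 0 0) (.cut .v 16515072 (.cut .d (-131072)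 (.pos 24 .mm ⟨0, 0, 0, 0, 0, 0, 0, 0, 0, ⟨0, 0⟩, 0⟩ 0 0) (.pos 24 .mm ⟨0, 0, 0, 0, 0, 0, 0, 0, 0, ⟨0, 0⟩, 0⟩ 0 0)) (.pos 25 .mm ⟨0, 0, 0, 0, 0, 0, 0, 0, 0, ⟨0, 0⟩, 0⟩ 0 0))))))))))))) (.cut .v 25165824 (.cut .v 20971520 (.pos 33 .mp ⟨42964, 0, 0, 0, 0, 0, 0, 0, 0, ⟨0, 0⟩, 0⟩ 0 0) (.void 34 ⟨100000, 0, 0, 0, 0, 0, 0, 0, 0, ⟨0, 0⟩, 0⟩ 0 0)) (.void 32 ⟨0, 0, 0, 0, 0, 0, 100000, 0, 0, ⟨0, 0⟩, 0⟩ 0 0))) (.cut .v 16777216 (.cut .v 8388608 (.void 2 ⟨0, 0, 0, 0, 100000, 0, 0, 0, 0, ⟨0, 0⟩, 0⟩ 0 0) (.cut .v 12582912 (.void 8 ⟨0, 0, 0, 0, 0, 0, 0, 0, 100000, ⟨0, 0⟩, 13128881⟩ 0 0) (.cut .d 2222492 (.cut .v 14680064 (.pos 12 .pm ⟨0, 0, 0, 0, 0, 0, 0, 0, 0, ⟨0, 0⟩, 0⟩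 0 0) (.cut .d 1111246 (.cut .v 15728640 (.pos 16 .pm ⟨0, 0, 0, 0, 0, 0, 0, 0, 0, ⟨0, 0⟩, 0⟩ 0 0) (.cut .d 555623 (.cut .v 16252928 (.pos 20 .pm ⟨0, 0, 0, 0, 0, 0, 0, 0, 0, ⟨0, 0⟩, 0⟩ 0 0) (.cut .d 277811 (.cut .v 16515072 (.cut .s 3407872 (.pos 24 .pm ⟨0, 0, 0, 0, 0, 0, 0, 0, 0, ⟨0, 0⟩, 0⟩ 0 0) (.pos 24 .pm ⟨0, 0, 0, 0, 0, 0, 0, 0, 0, ⟨0, 0⟩, 0⟩ 0 0)) (.cut .d 138905 (.pos 25 .pm ⟨0, 0, 0, 0, 0, 0, 0, 0, 0, ⟨0, 0⟩, 0⟩ 0 0) (.pos 25 .pm ⟨0, 0, 0, 0, 0, 0, 0, 0, 0, ⟨0, 0⟩, 0⟩ 0 0))) (.pos 21 .pm ⟨0, 0, 0, 0, 0, 0, 0, 0, 0, ⟨0, 0⟩, 0⟩ 0 0))) (.pos 17 .pm ⟨0, 0, 0, 0, 0, 0, 0, 151514, 0, ⟨663612, 11837678⟩, 0⟩ 47 62))) (.pos 13 .pm ⟨0, 0, 0, 0, 0, 0, 0, 198401,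 0, ⟨761108, 11368704⟩, 0⟩ 49 66))) (.void 9 ⟨0, 0, 0, 0, 0, 0, 0, 0, 100000, ⟨0, 0⟩, 15612959⟩ 0 0)))) (.cut .v 25165824 (.cut .v 20971520 (.cut .d 2222492 (.cut .v 18874368 (.cut .d 1111246 (.cut .v 17825792 (.cut .d 555623 (.cut .v 17301504 (.cut .d 277811 (.pos 39 .pp ⟨0, 0, 0, 0, 0, 0, 0, 0, 0, ⟨0, 0⟩, 0⟩ 0 0) (.cut .d 416717 (.pos 39 .pp ⟨0, 0, 0, 0, 0, 0, 0, 121092, 0, ⟨617336, 12068973⟩, 0⟩ 46 60) (.pos 39 .pp ⟨0, 0, 0, 0, 0, 0, 0, 117333, 0, ⟨634928, 11993915⟩, 0⟩ 47 60))) (.pos 40 .pp ⟨0, 0, 0, 0, 0, 0, 0, 172602, 0, ⟨617336, 12068973⟩, 0⟩ 46 60)) (.cut .v 17301504 (.pos 39 .pp ⟨0, 0, 0, 0, 0, 0, 0, 129453, 0, ⟨663612, 11837678⟩, 0⟩ 47 62) (.pos 40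 .pp ⟨0, 0, 0, 0, 0, 0, 0, 160454, 0, ⟨663612, 11837678⟩, 0⟩ 47 62))) (.pos 38 .pp ⟨171525, 0, 0, 0, 0, 0, 0, 81869, 0, ⟨645341, 11913120⟩, 0⟩ 46 62)) (.cut .v 17825792 (.pos 37 .pp ⟨0, 0, 0, 0, 0, 0, 0, 133457, 0, ⟨761108, 11368704⟩, 0⟩ 49 66) (.cut .d 1666869 (.pos 38 .pp ⟨0, 0, 0, 0, 0, 0, 0, 212804, 0, ⟨730714, 11527492⟩, 0⟩ 49 64) (.pos 38 .pp ⟨0, 0, 0, 0, 0, 0, 0, 1359762, 0, ⟨781056, 11291328⟩, 0⟩ 50 66)))) (.cut .d 1111246 (.pos 36 .pp ⟨4619300, 0, 0, 0, 0, 0, 0, 0, 0, ⟨0, 0⟩, 0⟩ 0 0) (.cut .d 1666869 (.pos 36 .pp ⟨0, 0, 0, 0, 0, 0, 0, 220989, 0, ⟨730714, 11527492⟩, 0⟩ 49 64) (.cut .s 3407872 (.pos 36 .pp ⟨0, 0, 0, 0, 0, 0, 0, 5640008, 0, ⟨673071, 11844209⟩,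 0⟩ 50 59) (.pos 36 .pp ⟨0, 0, 0, 0, 0, 0, 0, 4093085, 0, ⟨923108, 10740337⟩, 0⟩ 57 66))))) (.void 33 ⟨0, 0, 0, 0, 0, 0, 0, 100000, 0, ⟨951846, 10492474⟩, 0⟩ 52 74)) (.void 34 ⟨0, 0, 0, 0, 0, 0, 100000, 0, 0, ⟨0, 0⟩, 0⟩ 0 0)) (.void 32 ⟨0, 0, 0, 0, 0, 0, 100000, 0, 0, ⟨0, 0⟩, 0⟩ 0 0)))),
    by decide +kernel⟩

def covers3 : cell.Covers table row3.1 :=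
  ⟨(.cut .d 0 (.cut .v 16777216 (.cut .v 8388608 (.void 2 ⟨0, 0, 0, 0, 50000, 50000, 0, 0, 0, ⟨0, 0⟩, 0⟩ 0 0) (.cut .v 12582912 (.pos 8 .mm ⟨0, 0, 0, 0, 0, 10901068, 0, 0, 0, ⟨0, 0⟩, 0⟩ 0 0) (.cut .d (-8388608) (.void 9 ⟨0, 0, 0, 0, 0, 100000, 0, 0, 0, ⟨0, 0⟩, 0⟩ 0 0) (.cut .v 14680064 (.pos 12 .mm ⟨0, 0, 0, 0, 0, 6446166, 0, 0, 0, ⟨0, 0⟩, 0⟩ 0 0) (.cut .d (-4194304) (.void 13 ⟨0, 0, 0, 0, 0, 100000, 0, 0, 0, ⟨0, 0⟩, 0⟩ 0 0) (.cut .d (-2097152) (.void 13 ⟨0, 0, 0, 0, 0, 100000, 0, 0, 0, ⟨0, 0⟩, 0⟩ 0 0) (.cut .d (-1048576) (.void 13 ⟨0, 0, 0, 0, 0, 100000, 0, 0, 0, ⟨0, 0⟩, 0⟩ 0 0) (.cut .v 15728640 (.cut .d (-524288) (.pos 16 .mm ⟨0, 0, 0, 0, 0, 302187, 0,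 0, 0, ⟨0, 0⟩, 0⟩ 0 0) (.pos 16 .mm ⟨0, 0, 0, 0, 0, 364634, 0, 0, 0, ⟨0, 0⟩, 0⟩ 0 0)) (.cut .d (-524288) (.pos 17 .mm ⟨0, 0, 0, 0, 0, 242399, 0, 0, 0, ⟨0, 0⟩, 0⟩ 0 0) (.cut .v 16252928 (.cut .d (-262144) (.pos 20 .mm ⟨0, 0, 0, 0, 0, 285123, 0, 0, 0, ⟨0, 0⟩, 0⟩ 0 0) (.pos 20 .mm ⟨0, 0, 0, 0, 0, 0, 0, 0, 0, ⟨0, 0⟩, 0⟩ 0 0)) (.cut .v 16515072 (.pos 24 .mm ⟨0, 0, 0, 0, 0, 0, 0, 0, 0, ⟨0, 0⟩, 0⟩ 0 0) (.pos 25 .mm ⟨0, 0, 0, 0, 0, 0, 0, 0, 0, ⟨0, 0⟩, 0⟩ 0 0)))))))))))) (.cut .v 25165824 (.cut .v 20971520 (.pos 33 .mp ⟨0, 0, 0, 0, 0, 0, 0, 0, 0, ⟨0, 0⟩, 0⟩ 0 0) (.void 34 ⟨100000, 0, 0, 0, 0, 0, 0, 0, 0, ⟨0, 0⟩, 0⟩ 0 0)) (.void 32 ⟨100000, 0, 0, 0, 0, 0, 0, 0, 0, ⟨0,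 0⟩, 0⟩ 0 0))) (.cut .v 16777216 (.cut .v 8388608 (.void 2 ⟨0, 0, 0, 0, 100000, 0, 0, 0, 0, ⟨0, 0⟩, 0⟩ 0 0) (.cut .v 12582912 (.pos 8 .pm ⟨0, 0, 0, 0, 0, 0, 0, 0, 864614, ⟨0, 0⟩, 13128881⟩ 0 0) (.cut .d 2969802 (.cut .d 1484901 (.cut .v 14680064 (.pos 12 .pm ⟨0, 0, 0, 0, 0, 0, 0, 0, 0, ⟨0, 0⟩, 0⟩ 0 0) (.cut .d 742450 (.cut .v 15728640 (.pos 16 .pm ⟨0, 0, 0, 0, 0, 0, 0, 0, 0, ⟨0, 0⟩, 0⟩ 0 0) (.cut .v 16252928 (.pos 20 .pm ⟨0, 0, 0, 0, 0, 0, 0, 0, 0, ⟨0, 0⟩, 0⟩ 0 0) (.cut .d 371225 (.cut .l 796917 (.cut .l 513801 (.cut .d 185612 (.cut .v 16515072 (.cut .l 372243 (.cut .s 4161536 (.cut .d 92806 (.pos 24 .pm ⟨0, 0, 0, 0, 0, 0, 0, 0, 0, ⟨0, 0⟩, 0⟩ 0 0) (.pos 24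 .pm ⟨0, 0, 0, 0, 0, 0, 0, 0, 0, ⟨0, 0⟩, 0⟩ 0 0)) (.cut .d 92806 (.pos 24 .pm ⟨0, 0, 0, 0, 0, 0, 0, 0, 0, ⟨0, 0⟩, 0⟩ 0 0) (.pos 24 .pm ⟨0, 0, 0, 0, 0, 0, 0, 0, 0, ⟨0, 0⟩, 0⟩ 0 0))) (.pos 24 .pm ⟨0, 0, 0, 0, 0, 0, 0, 0, 0, ⟨0, 0⟩, 0⟩ 0 0)) (.cut .s 4161536 (.pos 25 .pm ⟨0, 0, 0, 0, 0, 0, 0, 0, 0, ⟨0, 0⟩, 0⟩ 0 0) (.pos 25 .pm ⟨0, 0, 0, 0, 0, 0, 0, 0, 0, ⟨0, 0⟩, 0⟩ 0 0))) (.cut .v 16515072 (.cut .s 4161536 (.pos 24 .pm ⟨0, 0, 0, 0, 0, 0, 0, 0, 0, ⟨0, 0⟩, 0⟩ 0 0) (.pos 24 .pm ⟨0, 0, 0, 0, 0, 0, 0, 0, 0, ⟨0, 0⟩, 0⟩ 0 0)) (.cut .l 372243 (.cut .s 4161536 (.cut .v 16646144 (.pos 28 .pm ⟨0, 0, 0, 0, 0, 0, 0, 0, 0, ⟨0, 0⟩, 0⟩ 0 0) (.pos 29 .pm ⟨0, 0, 0, 0, 0, 0, 0,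 0, 0, ⟨0, 0⟩, 0⟩ 0 0)) (.cut .d 278418 (.pos 25 .pm ⟨0, 0, 0, 0, 0, 0, 0, 0, 0, ⟨0, 0⟩, 0⟩ 0 0) (.pos 25 .pm ⟨0, 0, 0, 0, 0, 0, 0, 0, 0, ⟨0, 0⟩, 0⟩ 0 0))) (.pos 25 .pm ⟨0, 0, 0, 0, 0, 0, 0, 0, 0, ⟨0, 0⟩, 0⟩ 0 0)))) (.cut .d 185612 (.pos 21 .pm ⟨0, 0, 0, 0, 0, 0, 0, 0, 0, ⟨0, 0⟩, 0⟩ 0 0) (.pos 21 .pm ⟨0, 0, 0, 0, 0, 0, 0, 0, 0, ⟨0, 0⟩, 0⟩ 0 0))) (.pos 21 .pm ⟨0, 0, 0, 0, 0, 0, 0, 0, 0, ⟨0, 0⟩, 0⟩ 0 0)) (.cut .s 4161536 (.pos 21 .pm ⟨0, 0, 0, 0, 0, 0, 0, 259888, 0, ⟨982921, 10499776⟩, 0⟩ 59 67) (.pos 21 .pm ⟨0, 0, 0, 0, 0, 0, 0, 71170, 0, ⟨1210014, 9610296⟩, 0⟩ 64 73))))) (.pos 13 .pm ⟨0, 0, 0, 0, 0, 0, 0, 421450, 0, ⟨1174660, 9691056⟩, 0⟩ 60 76))) (.pos 9 .pm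 ⟨0, 0, 0, 0, 0, 0, 0, 528068, 0, ⟨1365325, 8966332⟩, 0⟩ 63 82)) (.void 9 ⟨0, 0, 0, 0, 0, 0, 0, 0, 100000, ⟨0, 0⟩, 15612959⟩ 0 0)))) (.cut .v 25165824 (.cut .d 2969802 (.cut .v 20971520 (.cut .d 1484901 (.cut .v 18874368 (.cut .d 742450 (.cut .v 17825792 (.cut .v 17301504 (.cut .d 371225 (.cut .s 4161536 (.pos 39 .pp ⟨0, 0, 0, 0, 0, 0, 0, 0, 0, ⟨0, 0⟩, 0⟩ 0 0) (.pos 39 .pp ⟨0, 0, 0, 0, 0, 0, 0, 10087, 0, ⟨1147021, 9853408⟩, 0⟩ 63 71)) (.cut .s 4161536 (.cut .d 556837 (.pos 39 .pp ⟨0, 0, 0, 0, 0, 0, 0, 235271, 0, ⟨964322, 10580480⟩, 0⟩ 59 66) (.pos 39 .pp ⟨0, 0, 0, 0, 0, 0, 0, 246717, 0, ⟨982921, 10499776⟩, 0⟩ 59 67)) (.pos 39 .pp ⟨0, 0, 0, 0, 0, 0, 0, 586693,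 0, ⟨1210014, 9610296⟩, 0⟩ 64 73))) (.pos 40 .pp ⟨0, 0, 0, 0, 0, 0, 0, 244475, 0, ⟨1071870, 10094745⟩, 0⟩ 58 73)) (.pos 38 .pp ⟨0, 0, 0, 0, 0, 0, 0, 210759, 0, ⟨1071870, 10094745⟩, 0⟩ 58 73)) (.cut .v 17825792 (.cut .v 17301504 (.pos 39 .pp ⟨0, 0, 0, 0, 0, 0, 0, 321800, 0, ⟨1174660, 9691056⟩, 0⟩ 60 76) (.pos 40 .pp ⟨0, 0, 0, 0, 0, 0, 0, 295238, 0, ⟨1174660, 9691056⟩, 0⟩ 60 76)) (.pos 38 .pp ⟨0, 0, 0, 0, 0, 0, 0, 210759, 0, ⟨1174660, 9691056⟩, 0⟩ 60 76))) (.pos 36 .pp ⟨0, 0, 0, 0, 0, 0, 0, 223156, 0, ⟨1126824, 9852188⟩, 0⟩ 58 76)) (.cut .l 796917 (.void 33 ⟨0, 0, 0, 0, 0, 0, 0, 100000, 0, ⟨1365325, 8966332⟩, 0⟩ 63 82) (.cut .v 18874368 (.cut .d 2227351 (.pos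 35 .pp ⟨0, 0, 0, 0, 0, 0, 0, 214891, 0, ⟨1306163, 9206736⟩, 0⟩ 63 79) (.pos 35 .pp ⟨0, 0, 0, 0, 0, 0, 0, 3242072, 0, ⟨1417070, 8804788⟩, 0⟩ 65 82)) (.cut .d 2227351 (.pos 36 .pp ⟨0, 0, 0, 0, 0, 0, 0, 1597914, 0, ⟨1306163, 9206736⟩, 0⟩ 63 79) (.pos 36 .pp ⟨0, 0, 0, 0, 0, 0, 0, 4817959, 0, ⟨1417070, 8804788⟩, 0⟩ 65 82))))) (.pos 34 .pp ⟨2577991, 0, 0, 0, 0, 0, 0, 9765180, 0, ⟨1236177, 9369525⟩, 0⟩ 58 82)) (.void 31 ⟨0, 0, 0, 0, 0, 0, 0, 100000, 0, ⟨1742519, 7629420⟩, 0⟩ 68 94)) (.void 32 ⟨0, 0, 0, 0, 0, 0, 100000, 0, 0, ⟨0, 0⟩, 0⟩ 0 0)))),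
    by decide +kernel⟩

def covers4 : cell.Covers table row4.1 :=
  ⟨(.cut .d 0 (.cut .v 16777216 (.cut .v 8388608 (.void 2 ⟨0, 0, 0, 0, 50000, 50000, 0, 0, 0, ⟨0, 0⟩, 0⟩ 0 0) (.cut .v 12582912 (.pos 8 .mm ⟨0, 0, 0, 0, 0, 8014077, 0, 0, 0, ⟨0, 0⟩, 0⟩ 0 0) (.cut .v 14680064 (.pos 12 .mm ⟨0, 0, 0, 0, 0, 5726776, 0, 0, 0, ⟨0, 0⟩, 0⟩ 0 0) (.cut .d (-8388608) (.void 13 ⟨0, 0, 0, 0, 0, 100000, 0, 0, 0, ⟨0, 0⟩, 0⟩ 0 0) (.cut .d (-4194304) (.void 13 ⟨0, 0, 0, 0, 0, 100000, 0, 0, 0, ⟨0, 0⟩, 0⟩ 0 0) (.cut .d (-2097152) (.void 13 ⟨0, 0, 0, 0, 0, 100000, 0, 0, 0, ⟨0, 0⟩, 0⟩ 0 0) (.cut .d (-1048576) (.void 13 ⟨0, 0, 0, 0, 0, 100000, 0, 0, 0, ⟨0, 0⟩, 0⟩ 0 0) (.cut .v 15728640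 (.cut .d (-524288) (.pos 16 .mm ⟨0, 0, 0, 0, 0, 1024724, 0, 0, 0, ⟨0, 0⟩, 0⟩ 0 0) (.pos 16 .mm ⟨0, 0, 0, 0, 0, 1024724, 0, 0, 0, ⟨0, 0⟩, 0⟩ 0 0)) (.cut .d (-524288) (.pos 17 .mm ⟨0, 0, 0, 0, 0, 1047496, 0, 0, 0, ⟨0, 0⟩, 0⟩ 0 0) (.cut .v 16252928 (.cut .d (-262144) (.pos 20 .mm ⟨0, 0, 0, 0, 0, 1047496, 0, 0, 0, ⟨0, 0⟩, 0⟩ 0 0) (.cut .d (-131072) (.pos 20 .mm ⟨0, 0, 0, 0, 0, 1054780, 0, 0, 0, ⟨0, 0⟩, 0⟩ 0 0) (.pos 20 .mm ⟨0, 0, 0, 0, 0, 177011, 0, 0, 0, ⟨0, 0⟩, 0⟩ 0 0))) (.cut .d (-262144) (.pos 21 .mm ⟨0, 0, 0, 0, 0, 1058882, 0, 0, 0, ⟨0, 0⟩, 0⟩ 0 0) (.cut .d (-131072) (.pos 21 .mm ⟨0, 0, 0, 0, 0, 1070268, 0, 0, 0, ⟨0, 0⟩, 0⟩ 0 0) (.cut .v 16515072 (.pos 24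 .mm ⟨0, 0, 0, 0, 0, 118696, 0, 0, 0, ⟨0, 0⟩, 0⟩ 0 0) (.pos 25 .mm ⟨0, 0, 0, 0, 0, 0, 0, 0, 0, ⟨0, 0⟩, 0⟩ 0 0)))))))))))))) (.cut .v 25165824 (.cut .v 20971520 (.pos 33 .mp ⟨0, 0, 0, 0, 0, 201488, 0, 0, 0, ⟨0, 0⟩, 0⟩ 0 0) (.void 34 ⟨100000, 0, 0, 0, 0, 0, 0, 0, 0, ⟨0, 0⟩, 0⟩ 0 0)) (.void 32 ⟨100000, 0, 0, 0, 0, 0, 0, 0, 0, ⟨0, 0⟩, 0⟩ 0 0))) (.cut .v 16777216 (.cut .v 8388608 (.void 2 ⟨0, 0, 0, 0, 100000, 0, 0, 0, 0, ⟨0, 0⟩, 0⟩ 0 0) (.cut .v 12582912 (.pos 8 .pm ⟨0, 0, 0, 0, 0, 0, 0, 0, 0, ⟨0, 0⟩, 0⟩ 0 0) (.cut .d 3946729 (.cut .d 1973364 (.cut .v 14680064 (.pos 12 .pm ⟨0, 0, 0, 0, 0, 0, 0, 0, 0, ⟨0, 0⟩, 0⟩ 0 0) (.cut .d 986682 (.cut .v 15728640 (.pos 16 .pm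 ⟨0, 0, 0, 0, 0, 0, 0, 0, 0, ⟨0, 0⟩, 0⟩ 0 0) (.cut .d 493341 (.cut .v 16252928 (.pos 20 .pm ⟨0, 0, 0, 0, 0, 0, 0, 0, 0, ⟨0, 0⟩, 0⟩ 0 0) (.cut .d 246670 (.cut .v 16515072 (.pos 24 .pm ⟨0, 0, 0, 0, 0, 0, 0, 0, 0, ⟨0, 0⟩, 0⟩ 0 0) (.pos 25 .pm ⟨0, 0, 0, 0, 0, 0, 0, 0, 0, ⟨0, 0⟩, 0⟩ 0 0)) (.pos 21 .pm ⟨0, 0, 0, 0, 0, 0, 0, 0, 0, ⟨0, 0⟩, 0⟩ 0 0))) (.pos 17 .pm ⟨0, 0, 0, 0, 0, 0, 0, 377625, 0, ⟨1637597, 8084571⟩, 0⟩ 71 85))) (.pos 13 .pm ⟨0, 0, 0, 0, 0, 0, 0, 641085, 0, ⟨1800978, 7537874⟩, 0⟩ 73 90))) (.pos 9 .pm ⟨0, 0, 0, 0, 0, 0, 0, 624738, 0, ⟨2111572, 6558301⟩, 0⟩ 77 99)) (.void 9 ⟨0, 0, 0, 0, 0, 0, 0, 0, 100000, ⟨0, 0⟩, 15612959⟩ 0 0)))) (.cut .v 25165824 (.cut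 .d 3946729 (.cut .v 20971520 (.cut .d 1973364 (.cut .v 18874368 (.cut .d 986682 (.cut .v 17825792 (.cut .d 493341 (.pos 37 .pp ⟨0, 0, 0, 0, 0, 0, 0, 0, 0, ⟨0, 0⟩, 0⟩ 0 0) (.pos 37 .pp ⟨0, 0, 0, 0, 0, 0, 0, 691278, 0, ⟨1637597, 8084571⟩, 0⟩ 71 85)) (.pos 38 .pp ⟨0, 0, 0, 0, 0, 0, 0, 877220, 0, ⟨1584375, 8244864⟩, 0⟩ 69 85)) (.cut .v 17825792 (.pos 37 .pp ⟨0, 0, 0, 0, 0, 0, 0, 717432, 0, ⟨1800978, 7537874⟩, 0⟩ 73 90) (.pos 38 .pp ⟨0, 0, 0, 0, 0, 0, 0, 957573, 0, ⟨1800978, 7537874⟩, 0⟩ 73 90))) (.pos 36 .pp ⟨487001, 0, 0, 0, 0, 0, 0, 837643, 0, ⟨1689349, 7855396⟩, 0⟩ 69 90)) (.cut .v 18874368 (.pos 35 .pp ⟨0, 0, 0, 0, 0, 0, 0, 996758, 0, ⟨2111572, 6558301⟩, 0⟩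 77 99) (.pos 36 .pp ⟨0, 0, 0, 0, 0, 0, 0, 3439319, 0, ⟨2111572, 6558301⟩, 0⟩ 77 99))) (.pos 34 .pp ⟨0, 0, 0, 0, 0, 0, 0, 2283980, 0, ⟨1871942, 7177949⟩, 0⟩ 69 99)) (.void 31 ⟨0, 0, 0, 0, 0, 0, 0, 100000, 0, ⟨2750545, 4732633⟩, 0⟩ 85 118)) (.void 32 ⟨0, 0, 0, 0, 0, 0, 100000, 0, 0, ⟨0, 0⟩, 0⟩ 0 0)))),
    by decide +kernel⟩

def covers5 : cell.Covers table row5.1 :=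
  ⟨(.cut .d 0 (.cut .v 16777216 (.cut .d (-8388608) (.void 1 ⟨0, 0, 0, 0, 0, 100000, 0, 0, 0, ⟨0, 0⟩, 0⟩ 0 0) (.cut .d (-4194304) (.void 1 ⟨0, 0, 0, 0, 0, 100000, 0, 0, 0, ⟨0, 0⟩, 0⟩ 0 0) (.cut .d (-2097152) (.void 1 ⟨0, 0, 0, 0, 0, 100000, 0, 0, 0, ⟨0, 0⟩, 0⟩ 0 0) (.cut .d (-1048576) (.void 1 ⟨0, 0, 0, 0, 0, 100000, 0, 0, 0, ⟨0, 0⟩, 0⟩ 0 0) (.cut .v 8388608 (.cut .v 4194304 (.void 4 ⟨0, 0, 50000, 0, 50000, 0, 0, 0, 0, ⟨0, 0⟩, 0⟩ 0 0) (.void 5 ⟨0, 0, 0, 0, 0, 54321, 0, 0, 45679, ⟨0, 0⟩, 9975792⟩ 0 0)) (.cut .v 12582912 (.pos 8 .mm ⟨0, 0, 0, 0, 0, 5075972, 0, 0, 0, ⟨0, 0⟩, 0⟩ 0 0) (.cut .v 14680064 (.pos 12 .mm ⟨0, 0, 0, 0, 0, 3566932, 0, 0, 0, ⟨0, 0⟩, 0⟩ 0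 0) (.cut .v 15728640 (.cut .d (-524288) (.pos 16 .mm ⟨0, 0, 0, 0, 0, 3872844, 0, 0, 0, ⟨0, 0⟩, 0⟩ 0 0) (.cut .s 5636096 (.pos 16 .mm ⟨0, 0, 0, 0, 0, 1657540, 0, 0, 0, ⟨0, 0⟩, 0⟩ 0 0) (.pos 16 .mm ⟨0, 0, 0, 0, 0, 3361966, 0, 0, 0, ⟨0, 0⟩, 0⟩ 0 0))) (.cut .d (-524288) (.cut .v 16252928 (.cut .s 5636096 (.pos 20 .mm ⟨0, 0, 0, 0, 0, 2225256, 0, 0, 0, ⟨0, 0⟩, 0⟩ 0 0) (.void 20 ⟨0, 0, 0, 0, 0, 100000, 0, 0, 0, ⟨0, 0⟩, 0⟩ 0 0)) (.pos 21 .mm ⟨0, 0, 0, 0, 0, 4315052, 0, 0, 0, ⟨0, 0⟩, 0⟩ 0 0)) (.cut .s 5636096 (.cut .v 16252928 (.cut .s 5439488 (.cut .d (-262144) (.cut .s 5341184 (.pos 20 .mm ⟨0, 0, 0, 0, 0, 1138707, 0, 0, 0, ⟨0, 0⟩, 0⟩ 0 0) (.pos 20 .mm ⟨0, 0, 0, 0,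 0, 1424797, 0, 0, 0, ⟨0, 0⟩, 0⟩ 0 0)) (.cut .s 5341184 (.pos 20 .mm ⟨0, 0, 0, 0, 0, 1082281, 0, 0, 0, ⟨0, 0⟩, 0⟩ 0 0) (.cut .s 5390336 (.pos 20 .mm ⟨0, 0, 0, 0, 0, 1329550, 0, 0, 0, ⟨0, 0⟩, 0⟩ 0 0) (.pos 20 .mm ⟨0, 0, 0, 0, 0, 1474974, 0, 0, 0, ⟨0, 0⟩, 0⟩ 0 0)))) (.cut .d (-262144) (.cut .s 5537792 (.pos 20 .mm ⟨0, 0, 0, 0, 0, 1754038, 0, 0, 0, ⟨0, 0⟩, 0⟩ 0 0) (.cut .s 5586944 (.pos 20 .mm ⟨0, 0, 0, 0, 0, 2021464, 0, 0, 0, ⟨0, 0⟩, 0⟩ 0 0) (.pos 20 .mm ⟨0, 0, 0, 0, 0, 2218295, 0, 0, 0, ⟨0, 0⟩, 0⟩ 0 0))) (.cut .d (-131072) (.cut .s 5537792 (.pos 20 .mm ⟨0, 0, 0, 0, 0, 1681051, 0, 0, 0, ⟨0, 0⟩, 0⟩ 0 0) (.cut .s 5586944 (.pos 20 .mm ⟨0, 0, 0, 0, 0, 1989328, 0,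 0, 0, ⟨0, 0⟩, 0⟩ 0 0) (.pos 20 .mm ⟨0, 0, 0, 0, 0, 2181377, 0, 0, 0, ⟨0, 0⟩, 0⟩ 0 0))) (.pos 20 .mm ⟨0, 0, 0, 0, 0, 1662694, 0, 0, 0, ⟨0, 0⟩, 0⟩ 0 0)))) (.cut .s 5439488 (.cut .d (-262144) (.pos 21 .mm ⟨0, 0, 0, 0, 0, 1279830, 0, 0, 0, ⟨0, 0⟩, 0⟩ 0 0) (.cut .v 16515072 (.cut .l 796917 (.cut .l 513801 (.cut .d (-131072) (.pos 24 .mm ⟨0, 0, 0, 0, 0, 1349243, 0, 0, 0, ⟨0, 0⟩, 0⟩ 0 0) (.cut .s 5341184 (.pos 24 .mm ⟨0, 0, 0, 0, 0, 1003642, 0, 0, 0, ⟨0, 0⟩, 0⟩ 0 0) (.pos 24 .mm ⟨0, 0, 0, 0, 0, 1301556, 0, 0, 0, ⟨0, 0⟩, 0⟩ 0 0))) (.pos 24 .mm ⟨0, 0, 0, 0, 0, 907471, 0, 0, 0, ⟨0, 0⟩, 0⟩ 0 0)) (.pos 24 .mm ⟨0, 0, 0, 0, 0, 0, 0, 0, 0, ⟨0, 0⟩, 0⟩ 0 0)) (.pos 25 .mm ⟨0,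 0, 0, 0, 0, 1084702, 0, 0, 0, ⟨0, 0⟩, 0⟩ 0 0))) (.cut .d (-262144) (.cut .s 5537792 (.pos 21 .mm ⟨0, 0, 0, 0, 0, 1759534, 0, 0, 0, ⟨0, 0⟩, 0⟩ 0 0) (.pos 21 .mm ⟨0, 0, 0, 0, 0, 2140258, 0, 0, 0, ⟨0, 0⟩, 0⟩ 0 0)) (.cut .v 16515072 (.cut .l 796917 (.cut .l 513801 (.cut .d (-131072) (.cut .s 5537792 (.pos 24 .mm ⟨0, 0, 0, 0, 0, 1789472, 0, 0, 0, ⟨0, 0⟩, 0⟩ 0 0) (.pos 24 .mm ⟨0, 0, 0, 0, 0, 2161564, 0, 0, 0, ⟨0, 0⟩, 0⟩ 0 0)) (.cut .s 5537792 (.pos 24 .mm ⟨0, 0, 0, 0, 0, 1634748, 0, 0, 0, ⟨0, 0⟩, 0⟩ 0 0) (.cut .s 5586944 (.pos 24 .mm ⟨0, 0, 0, 0, 0, 1899519, 0, 0, 0, ⟨0, 0⟩, 0⟩ 0 0) (.pos 24 .mm ⟨0, 0, 0, 0, 0, 2115983, 0, 0, 0, ⟨0, 0⟩, 0⟩ 0 0)))) (.pos 24 .mm ⟨0,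 0, 0, 0, 0, 1622463, 0, 0, 0, ⟨0, 0⟩, 0⟩ 0 0)) (.pos 24 .mm ⟨0, 0, 0, 0, 0, 0, 0, 0, 0, ⟨0, 0⟩, 0⟩ 0 0)) (.pos 25 .mm ⟨0, 0, 0, 0, 0, 1680997, 0, 0, 0, ⟨0, 0⟩, 0⟩ 0 0))))) (.cut .s 5832704 (.cut .v 16252928 (.cut .s 5734400 (.cut .v 15990784 (.pos 22 .mm ⟨0, 0, 0, 0, 0, 2439350, 0, 0, 0, ⟨0, 0⟩, 0⟩ 0 0) (.cut .d (-262144) (.pos 23 .mm ⟨0, 0, 0, 0, 0, 2539380, 0, 0, 0, ⟨0, 0⟩, 0⟩ 0 0) (.cut .s 5685248 (.pos 23 .mm ⟨0, 0, 0, 0, 0, 2358672, 0, 0, 0, ⟨0, 0⟩, 0⟩ 0 0) (.pos 23 .mm ⟨0, 0, 0, 0, 0, 2568223, 0, 0, 0, ⟨0, 0⟩, 0⟩ 0 0)))) (.cut .v 15990784 (.pos 22 .mm ⟨0, 0, 0, 0, 0, 2911870, 0, 0, 0, ⟨0, 0⟩, 0⟩ 0 0) (.cut .d (-262144) (.cut .s 5783552 (.pos 23 .mm ⟨0,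 0, 0, 0, 0, 2873131, 0, 0, 0, ⟨0, 0⟩, 0⟩ 0 0) (.pos 23 .mm ⟨0, 0, 0, 0, 0, 3110846, 0, 0, 0, ⟨0, 0⟩, 0⟩ 0 0)) (.cut .s 5783552 (.pos 23 .mm ⟨0, 0, 0, 0, 0, 2796167, 0, 0, 0, ⟨0, 0⟩, 0⟩ 0 0) (.pos 23 .mm ⟨0, 0, 0, 0, 0, 3039945, 0, 0, 0, ⟨0, 0⟩, 0⟩ 0 0))))) (.cut .d (-262144) (.cut .l 796917 (.pos 21 .mm ⟨0, 0, 0, 0, 0, 3247147, 0, 0, 0, ⟨0, 0⟩, 0⟩ 0 0) (.cut .s 5734400 (.pos 21 .mm ⟨0, 0, 0, 0, 0, 2392349, 0, 0, 0, ⟨0, 0⟩, 0⟩ 0 0) (.pos 21 .mm ⟨0, 0, 0, 0, 0, 2842266, 0, 0, 0, ⟨0, 0⟩, 0⟩ 0 0))) (.cut .l 796917 (.cut .s 5734400 (.cut .v 16515072 (.cut .l 513801 (.cut .d (-131072) (.cut .s 5685248 (.pos 24 .mm ⟨0, 0, 0, 0, 0, 2448873, 0, 0, 0, ⟨0, 0⟩, 0⟩ 0 0)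 (.pos 24 .mm ⟨0, 0, 0, 0, 0, 2667690, 0, 0, 0, ⟨0, 0⟩, 0⟩ 0 0)) (.cut .s 5685248 (.pos 24 .mm ⟨0, 0, 0, 0, 0, 2333987, 0, 0, 0, ⟨0, 0⟩, 0⟩ 0 0) (.pos 24 .mm ⟨0, 0, 0, 0, 0, 2548370, 0, 0, 0, ⟨0, 0⟩, 0⟩ 0 0))) (.pos 24 .mm ⟨0, 0, 0, 0, 0, 2249772, 0, 0, 0, ⟨0, 0⟩, 0⟩ 0 0)) (.pos 25 .mm ⟨0, 0, 0, 0, 0, 2401725, 0, 0, 0, ⟨0, 0⟩, 0⟩ 0 0)) (.cut .v 16515072 (.cut .s 5783552 (.cut .d (-131072) (.pos 24 .mm ⟨0, 0, 0, 0, 0, 2861597, 0, 0, 0, ⟨0, 0⟩, 0⟩ 0 0) (.pos 24 .mm ⟨0, 0, 0, 0, 0, 2769040, 0, 0, 0, ⟨0, 0⟩, 0⟩ 0 0)) (.cut .d (-131072) (.pos 24 .mm ⟨0, 0, 0, 0, 0, 3106111, 0, 0, 0, ⟨0, 0⟩, 0⟩ 0 0) (.pos 24 .mm ⟨0, 0, 0, 0, 0, 3037300, 0, 0, 0, ⟨0, 0⟩, 0⟩ 0 0)))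 (.cut .s 5783552 (.pos 25 .mm ⟨0, 0, 0, 0, 0, 2808417, 0, 0, 0, ⟨0, 0⟩, 0⟩ 0 0) (.pos 25 .mm ⟨0, 0, 0, 0, 0, 3060744, 0, 0, 0, ⟨0, 0⟩, 0⟩ 0 0)))) (.pos 21 .mm ⟨0, 0, 0, 0, 0, 0, 0, 0, 0, ⟨0, 0⟩, 0⟩ 0 0)))) (.cut .v 16252928 (.cut .s 5931008 (.cut .v 15990784 (.pos 22 .mm ⟨0, 0, 0, 0, 0, 3441174, 0, 0, 0, ⟨0, 0⟩, 0⟩ 0 0) (.cut .d (-262144) (.cut .s 5881856 (.pos 23 .mm ⟨0, 0, 0, 0, 0, 3366410, 0, 0, 0, ⟨0, 0⟩, 0⟩ 0 0) (.pos 23 .mm ⟨0, 0, 0, 0, 0, 3637647, 0, 0, 0, ⟨0, 0⟩, 0⟩ 0 0)) (.cut .s 5881856 (.pos 23 .mm ⟨0, 0, 0, 0, 0, 3295634, 0, 0, 0, ⟨0, 0⟩, 0⟩ 0 0) (.pos 23 .mm ⟨0, 0, 0, 0, 0, 3563332, 0, 0, 0, ⟨0, 0⟩, 0⟩ 0 0)))) (.cut .v 15990784 (.pos 22 .mm ⟨0,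 0, 0, 0, 0, 4017424, 0, 0, 0, ⟨0, 0⟩, 0⟩ 0 0) (.cut .v 16121856 (.pos 55 .mm ⟨0, 0, 0, 0, 0, 4004279, 0, 0, 0, ⟨0, 0⟩, 0⟩ 0 0) (.cut .d (-262144) (.cut .s 5980160 (.pos 56 .mm ⟨0, 0, 0, 0, 0, 3920987, 0, 0, 0, ⟨0, 0⟩, 0⟩ 0 0) (.pos 56 .mm ⟨0, 0, 0, 0, 0, 4216523, 0, 0, 0, ⟨0, 0⟩, 0⟩ 0 0)) (.cut .s 5980160 (.pos 56 .mm ⟨0, 0, 0, 0, 0, 3843136, 0, 0, 0, ⟨0, 0⟩, 0⟩ 0 0) (.pos 56 .mm ⟨0, 0, 0, 0, 0, 4135140, 0, 0, 0, ⟨0, 0⟩, 0⟩ 0 0)))))) (.cut .s 5931008 (.cut .d (-262144) (.cut .l 796917 (.pos 21 .mm ⟨0, 0, 0, 0, 0, 3805900, 0, 0, 0, ⟨0, 0⟩, 0⟩ 0 0) (.pos 21 .mm ⟨0, 0, 0, 0, 0, 3375662, 0, 0, 0, ⟨0, 0⟩, 0⟩ 0 0)) (.cut .l 796917 (.cut .v 16515072 (.cut .s 5881856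 (.cut .d (-131072) (.pos 24 .mm ⟨0, 0, 0, 0, 0, 3363595, 0, 0, 0, ⟨0, 0⟩, 0⟩ 0 0) (.pos 24 .mm ⟨0, 0, 0, 0, 0, 3292773, 0, 0, 0, ⟨0, 0⟩, 0⟩ 0 0)) (.cut .d (-131072) (.pos 24 .mm ⟨0, 0, 0, 0, 0, 3634665, 0, 0, 0, ⟨0, 0⟩, 0⟩ 0 0) (.pos 24 .mm ⟨0, 0, 0, 0, 0, 3560310, 0, 0, 0, ⟨0, 0⟩, 0⟩ 0 0))) (.cut .s 5881856 (.pos 25 .mm ⟨0, 0, 0, 0, 0, 3319855, 0, 0, 0, ⟨0, 0⟩, 0⟩ 0 0) (.pos 25 .mm ⟨0, 0, 0, 0, 0, 3590839, 0, 0, 0, ⟨0, 0⟩, 0⟩ 0 0))) (.pos 21 .mm ⟨0, 0, 0, 0, 0, 0, 0, 0, 0, ⟨0, 0⟩, 0⟩ 0 0))) (.cut .d (-262144) (.cut .d (-393216) (.pos 21 .mm ⟨0, 0, 0, 0, 0, 4323583, 0, 0, 0, ⟨0, 0⟩, 0⟩ 0 0) (.cut .v 16515072 (.cut .s 5980160 (.pos 24 .mm ⟨0, 0, 0, 0, 0, 3932865,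 0, 0, 0, ⟨0, 0⟩, 0⟩ 0 0) (.pos 24 .mm ⟨0, 0, 0, 0, 0, 4233113, 0, 0, 0, ⟨0, 0⟩, 0⟩ 0 0)) (.pos 25 .mm ⟨0, 0, 0, 0, 0, 4148833, 0, 0, 0, ⟨0, 0⟩, 0⟩ 0 0))) (.cut .l 796917 (.cut .v 16515072 (.cut .s 5980160 (.cut .d (-131072) (.pos 24 .mm ⟨0, 0, 0, 0, 0, 3917894, 0, 0, 0, ⟨0, 0⟩, 0⟩ 0 0) (.pos 24 .mm ⟨0, 0, 0, 0, 0, 3840010, 0, 0, 0, ⟨0, 0⟩, 0⟩ 0 0)) (.cut .s 6004736 (.pos 24 .mm ⟨0, 0, 0, 0, 0, 4135522, 0, 0, 0, ⟨0, 0⟩, 0⟩ 0 0) (.pos 24 .mm ⟨0, 0, 0, 0, 0, 4283180, 0, 0, 0, ⟨0, 0⟩, 0⟩ 0 0))) (.cut .s 5980160 (.pos 25 .mm ⟨0, 0, 0, 0, 0, 3873712, 0, 0, 0, ⟨0, 0⟩, 0⟩ 0 0) (.pos 25 .mm ⟨0, 0, 0, 0, 0, 4168489, 0, 0, 0, ⟨0, 0⟩, 0⟩ 0 0))) (.pos 21 .mm ⟨0, 0, 0,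 0, 0, 3536902, 0, 0, 0, ⟨0, 0⟩, 0⟩ 0 0)))))))))))))))) (.cut .v 25165824 (.cut .v 20971520 (.cut .d (-8388608) (.void 33 ⟨0, 0, 0, 0, 0, 100000, 0, 0, 0, ⟨0, 0⟩, 0⟩ 0 0) (.cut .d (-4194304) (.void 33 ⟨0, 0, 0, 0, 0, 100000, 0, 0, 0, ⟨0, 0⟩, 0⟩ 0 0) (.cut .d (-2097152) (.void 33 ⟨0, 0, 0, 0, 0, 100000, 0, 0, 0, ⟨0, 0⟩, 0⟩ 0 0) (.cut .d (-1048576) (.void 33 ⟨0, 0, 0, 0, 0, 100000, 0, 0, 0, ⟨0, 0⟩, 0⟩ 0 0) (.cut .s 5636096 (.pos 33 .mp ⟨0, 0, 0, 0, 0, 1441422, 0, 0, 0, ⟨0, 0⟩, 0⟩ 0 0) (.cut .s 5832704 (.pos 33 .mp ⟨124038, 0, 0, 0, 0, 2548942, 0, 0, 0, ⟨0, 0⟩, 0⟩ 0 0) (.cut .s 5931008 (.pos 33 .mp ⟨537348, 0, 0, 0, 0, 2980616, 0, 0, 0, ⟨0, 0⟩, 0⟩ 0 0) (.cut .s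 5980160 (.pos 33 .mp ⟨783779, 0, 0, 0, 0, 3201692, 0, 0, 0, ⟨0, 0⟩, 0⟩ 0 0) (.pos 33 .mp ⟨897931, 0, 0, 0, 0, 3417317, 0, 0, 0, ⟨0, 0⟩, 0⟩ 0 0))))))))) (.void 34 ⟨100000, 0, 0, 0, 0, 0, 0, 0, 0, ⟨0, 0⟩, 0⟩ 0 0)) (.void 32 ⟨100000, 0, 0, 0, 0, 0, 0, 0, 0, ⟨0, 0⟩, 0⟩ 0 0))) (.cut .v 16777216 (.cut .d 5526241 (.cut .v 8388608 (.cut .v 4194304 (.void 4 ⟨0, 0, 39215, 0, 60785, 0, 0, 0, 0, ⟨0, 0⟩, 0⟩ 0 0) (.void 5 ⟨0, 0, 0, 0, 0, 0, 0, 0, 100000, ⟨0, 0⟩, 9975792⟩ 0 0)) (.cut .v 12582912 (.pos 8 .pm ⟨0, 0, 0, 0, 0, 0, 0, 0, 0, ⟨0, 0⟩, 0⟩ 0 0) (.cut .v 14680064 (.pos 12 .pm ⟨0, 0, 0, 0, 0, 0, 0, 0, 0, ⟨0, 0⟩, 0⟩ 0 0) (.cut .v 15728640 (.pos 16 .pm ⟨0, 0, 0, 0, 0,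 0, 0, 0, 0, ⟨0, 0⟩, 0⟩ 0 0) (.cut .v 16252928 (.pos 20 .pm ⟨0, 0, 0, 0, 0, 0, 0, 0, 0, ⟨0, 0⟩, 0⟩ 0 0) (.pos 21 .pm ⟨0, 0, 0, 0, 0, 0, 0, 0, 0, ⟨0, 0⟩, 0⟩ 0 0)))))) (.void 1 ⟨0, 0, 0, 0, 0, 0, 0, 100000, 0, ⟨3941632, 2004485⟩, 0⟩ 106 153)) (.cut .d 5526241 (.cut .v 25165824 (.cut .v 20971520 (.cut .d 2763120 (.cut .v 18874368 (.cut .d 1381560 (.pos 35 .pp ⟨0, 0, 0, 0, 0, 0, 0, 585715, 0, ⟨2221768, 6259737⟩, 0⟩ 80 100) (.pos 35 .pp ⟨0, 0, 0, 0, 0, 0, 0, 585715, 0, ⟨2575170, 5280000⟩, 0⟩ 86 108)) (.pos 36 .pp ⟨0, 0, 0, 0, 0, 0, 0, 632572, 0, ⟨2392981, 5711853⟩, 0⟩ 80 108)) (.pos 33 .pp ⟨0, 0, 0, 0, 0, 0, 0, 609144, 0, ⟨3093829, 3930077⟩, 0⟩ 93 123)) (.cut .d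 2763120 (.pos 34 .pp ⟨0, 0, 0, 0, 0, 0, 0, 702858, 0, ⟨2392981, 5711853⟩, 0⟩ 80 108) (.pos 34 .pp ⟨0, 0, 0, 0, 0, 0, 0, 15089772, 0, ⟨3093829, 3930077⟩, 0⟩ 93 123))) (.pos 32 .pp ⟨0, 0, 0, 0, 0, 0, 17879438, 13144414, 0, ⟨2681800, 4787634⟩, 0⟩ 80 123)) (.void 30 ⟨0, 0, 0, 0, 0, 0, 0, 100000, 0, ⟨3941632, 2004485⟩, 0⟩ 106 153)))),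
    by decide +kernel⟩

def covers6 : cell.Covers table row6.1 :=
  ⟨(.cut .d 0 (.cut .v 16777216 (.cut .d (-8388608) (.void 1 ⟨0, 0, 0, 0, 0, 100000, 0, 0, 0, ⟨0, 0⟩, 0⟩ 0 0) (.cut .d (-4194304) (.void 1 ⟨0, 0, 0, 0, 0, 100000, 0, 0, 0, ⟨0, 0⟩, 0⟩ 0 0) (.cut .d (-2097152) (.void 1 ⟨0, 0, 0, 0, 0, 100000, 0, 0, 0, ⟨0, 0⟩, 0⟩ 0 0) (.cut .d (-1048576) (.void 1 ⟨0, 0, 0, 0, 0, 100000, 0, 0, 0, ⟨0, 0⟩, 0⟩ 0 0) (.cut .d (-524288) (.void 1 ⟨0, 0, 0, 0, 0, 100000, 0, 0, 0, ⟨0, 0⟩, 0⟩ 0 0) (.cut .v 8388608 (.cut .v 4194304 (.void 4 ⟨0, 0, 100000, 0, 0, 0, 0, 0, 0, ⟨0, 0⟩, 0⟩ 0 0) (.pos 5 .mm ⟨0, 0, 0, 0, 0, 9296200, 0, 0, 0, ⟨0, 0⟩, 0⟩ 0 0)) (.cut .v 12582912 (.pos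 8 .mm ⟨0, 0, 0, 0, 0, 6643122, 0, 0, 0, ⟨0, 0⟩, 0⟩ 0 0) (.cut .v 14680064 (.pos 12 .mm ⟨0, 0, 0, 0, 0, 6916314, 0, 0, 0, ⟨0, 0⟩, 0⟩ 0 0) (.cut .s 6422528 (.cut .v 15728640 (.pos 16 .mm ⟨0, 0, 0, 0, 0, 5743725, 0, 0, 0, ⟨0, 0⟩, 0⟩ 0 0) (.cut .s 6225920 (.cut .s 6127616 (.cut .v 16252928 (.cut .s 6078464 (.cut .s 6053888 (.pos 20 .mm ⟨0, 0, 0, 0, 0, 4397082, 0, 0, 0, ⟨0, 0⟩, 0⟩ 0 0) (.pos 20 .mm ⟨0, 0, 0, 0, 0, 4566357, 0, 0, 0, ⟨0, 0⟩, 0⟩ 0 0)) (.pos 20 .mm ⟨0, 0, 0, 0, 0, 4799134, 0, 0, 0, ⟨0, 0⟩, 0⟩ 0 0)) (.cut .s 6078464 (.cut .d (-262144) (.cut .v 16515072 (.pos 24 .mm ⟨0, 0, 0, 0, 0, 4520278, 0, 0, 0, ⟨0, 0⟩, 0⟩ 0 0) (.pos 25 .mm ⟨0, 0, 0, 0, 0, 4561578,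 0, 0, 0, ⟨0, 0⟩, 0⟩ 0 0)) (.cut .v 16515072 (.cut .s 6053888 (.pos 24 .mm ⟨0, 0, 0, 0, 0, 4400265, 0, 0, 0, ⟨0, 0⟩, 0⟩ 0 0) (.pos 24 .mm ⟨0, 0, 0, 0, 0, 4569226, 0, 0, 0, ⟨0, 0⟩, 0⟩ 0 0)) (.pos 25 .mm ⟨0, 0, 0, 0, 0, 4439472, 0, 0, 0, ⟨0, 0⟩, 0⟩ 0 0))) (.cut .d (-262144) (.cut .s 6103040 (.pos 21 .mm ⟨0, 0, 0, 0, 0, 4805534, 0, 0, 0, ⟨0, 0⟩, 0⟩ 0 0) (.pos 21 .mm ⟨0, 0, 0, 0, 0, 4986199, 0, 0, 0, ⟨0, 0⟩, 0⟩ 0 0)) (.cut .v 16515072 (.pos 24 .mm ⟨0, 0, 0, 0, 0, 4783898, 0, 0, 0, ⟨0, 0⟩, 0⟩ 0 0) (.pos 25 .mm ⟨0, 0, 0, 0, 0, 4787170, 0, 0, 0, ⟨0, 0⟩, 0⟩ 0 0))))) (.cut .v 16252928 (.cut .s 6176768 (.pos 20 .mm ⟨0, 0, 0, 0, 0, 5166644, 0, 0, 0, ⟨0, 0⟩, 0⟩ 0 0) (.pos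 20 .mm ⟨0, 0, 0, 0, 0, 5552793, 0, 0, 0, ⟨0, 0⟩, 0⟩ 0 0)) (.cut .s 6176768 (.cut .d (-262144) (.pos 21 .mm ⟨0, 0, 0, 0, 0, 5255098, 0, 0, 0, ⟨0, 0⟩, 0⟩ 0 0) (.cut .s 6152192 (.pos 21 .mm ⟨0, 0, 0, 0, 0, 5094372, 0, 0, 0, ⟨0, 0⟩, 0⟩ 0 0) (.pos 21 .mm ⟨0, 0, 0, 0, 0, 5282402, 0, 0, 0, ⟨0, 0⟩, 0⟩ 0 0))) (.cut .s 6201344 (.pos 21 .mm ⟨0, 0, 0, 0, 0, 5535483, 0, 0, 0, ⟨0, 0⟩, 0⟩ 0 0) (.pos 21 .mm ⟨0, 0, 0, 0, 0, 5733203, 0, 0, 0, ⟨0, 0⟩, 0⟩ 0 0))))) (.cut .s 6324224 (.cut .v 16252928 (.pos 20 .mm ⟨0, 0, 0, 0, 0, 6192156, 0, 0, 0, ⟨0, 0⟩, 0⟩ 0 0) (.cut .s 6275072 (.cut .s 6250496 (.pos 21 .mm ⟨0, 0, 0, 0, 0, 5937274, 0, 0, 0, ⟨0, 0⟩, 0⟩ 0 0) (.pos 21 .mm ⟨0, 0,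 0, 0, 0, 6146439, 0, 0, 0, ⟨0, 0⟩, 0⟩ 0 0)) (.cut .s 6299648 (.pos 21 .mm ⟨0, 0, 0, 0, 0, 6360701, 0, 0, 0, ⟨0, 0⟩, 0⟩ 0 0) (.pos 21 .mm ⟨0, 0, 0, 0, 0, 6580064, 0, 0, 0, ⟨0, 0⟩, 0⟩ 0 0)))) (.cut .v 16252928 (.pos 20 .mm ⟨0, 0, 0, 0, 0, 7090893, 0, 0, 0, ⟨0, 0⟩, 0⟩ 0 0) (.cut .d (-262144) (.pos 21 .mm ⟨0, 0, 0, 0, 0, 7346342, 0, 0, 0, ⟨0, 0⟩, 0⟩ 0 0) (.cut .s 6373376 (.pos 21 .mm ⟨0, 0, 0, 0, 0, 6835375, 0, 0, 0, ⟨0, 0⟩, 0⟩ 0 0) (.pos 21 .mm ⟨0, 0, 0, 0, 0, 7309071, 0, 0, 0, ⟨0, 0⟩, 0⟩ 0 0))))))) (.cut .v 15728640 (.pos 16 .mm ⟨0, 0, 0, 0, 0, 9420052, 0, 0, 0, ⟨0, 0⟩, 0⟩ 0 0) (.cut .s 6619136 (.cut .s 6520832 (.cut .v 16252928 (.pos 20 .mm ⟨0, 0, 0, 0, 0,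 8069998, 0, 0, 0, ⟨0, 0⟩, 0⟩ 0 0) (.cut .d (-262144) (.pos 21 .mm ⟨0, 0, 0, 0, 0, 8385846, 0, 0, 0, ⟨0, 0⟩, 0⟩ 0 0) (.cut .s 6471680 (.pos 21 .mm ⟨0, 0, 0, 0, 0, 7803392, 0, 0, 0, ⟨0, 0⟩, 0⟩ 0 0) (.pos 21 .mm ⟨0, 0, 0, 0, 0, 8324734, 0, 0, 0, ⟨0, 0⟩, 0⟩ 0 0)))) (.cut .v 16252928 (.pos 20 .mm ⟨0, 0, 0, 0, 0, 9128437, 0, 0, 0, ⟨0, 0⟩, 0⟩ 0 0) (.cut .d (-262144) (.pos 21 .mm ⟨0, 0, 0, 0, 0, 9568552, 0, 0, 0, ⟨0, 0⟩, 0⟩ 0 0) (.cut .s 6569984 (.pos 21 .mm ⟨0, 0, 0, 0, 0, 8884291, 0, 0, 0, ⟨0, 0⟩, 0⟩ 0 0) (.pos 21 .mm ⟨0, 0, 0, 0, 0, 9465291, 0, 0, 0, ⟨0, 0⟩, 0⟩ 0 0))))) (.cut .s 6717440 (.cut .d (-262144) (.pos 17 .mm ⟨0, 0, 0, 0, 0, 10848252, 0, 0, 0, ⟨0, 0⟩,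 0⟩ 0 0) (.cut .s 6668288 (.pos 17 .mm ⟨0, 0, 0, 0, 0, 10063036, 0, 0, 0, ⟨0, 0⟩, 0⟩ 0 0) (.cut .s 6692864 (.pos 17 .mm ⟨0, 0, 0, 0, 0, 10523644, 0, 0, 0, ⟨0, 0⟩, 0⟩ 0 0) (.pos 17 .mm ⟨0, 0, 0, 0, 0, 10834824, 0, 0, 0, ⟨0, 0⟩, 0⟩ 0 0)))) (.cut .d (-262144) (.pos 17 .mm ⟨0, 0, 0, 0, 0, 12173866, 0, 0, 0, ⟨0, 0⟩, 0⟩ 0 0) (.cut .v 16252928 (.pos 20 .mm ⟨0, 0, 0, 0, 0, 11178458, 0, 0, 0, ⟨0, 0⟩, 0⟩ 0 0) (.cut .v 16515072 (.pos 24 .mm ⟨0, 0, 0, 0, 0, 11356643, 0, 0, 0, ⟨0, 0⟩, 0⟩ 0 0) (.cut .l 796917 (.cut .s 6766592 (.pos 25 .mm ⟨0, 0, 0, 0, 0, 11332163, 0, 0, 0, ⟨0, 0⟩, 0⟩ 0 0) (.cut .s 6791168 (.pos 25 .mm ⟨0, 0, 0, 0, 0, 11794333, 0, 0, 0, ⟨0, 0⟩, 0⟩ 0 0) (.pos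 25 .mm ⟨0, 0, 0, 0, 0, 12122670, 0, 0, 0, ⟨0, 0⟩, 0⟩ 0 0))) (.pos 25 .mm ⟨0, 0, 0, 0, 0, 11175322, 0, 0, 0, ⟨0, 0⟩, 0⟩ 0 0))))))))))))))))) (.cut .v 33554432 (.cut .v 25165824 (.cut .d (-8388608) (.void 31 ⟨0, 0, 0, 0, 0, 100000, 0, 0, 0, ⟨0, 0⟩, 0⟩ 0 0) (.cut .v 20971520 (.cut .d (-4194304) (.void 33 ⟨0, 0, 0, 0, 0, 100000, 0, 0, 0, ⟨0, 0⟩, 0⟩ 0 0) (.cut .d (-2097152) (.void 33 ⟨0, 0, 0, 0, 0, 100000, 0, 0, 0, ⟨0, 0⟩, 0⟩ 0 0) (.cut .d (-1048576) (.void 33 ⟨0, 0, 0, 0, 0, 100000, 0, 0, 0, ⟨0, 0⟩, 0⟩ 0 0) (.cut .d (-524288) (.void 33 ⟨0, 0, 0, 0, 0, 100000, 0, 0, 0, ⟨0, 0⟩, 0⟩ 0 0) (.cut .v 18874368 (.cut .v 17825792 (.cut .s 6422528 (.cut .v 17301504 (.cut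 .s 6225920 (.cut .s 6127616 (.pos 39 .mp ⟨0, 0, 0, 0, 0, 4579810, 0, 0, 0, ⟨0, 0⟩, 0⟩ 0 0) (.cut .s 6176768 (.pos 39 .mp ⟨0, 0, 0, 0, 0, 5179817, 0, 0, 0, ⟨0, 0⟩, 0⟩ 0 0) (.pos 39 .mp ⟨0, 0, 0, 0, 0, 5585736, 0, 0, 0, ⟨0, 0⟩, 0⟩ 0 0))) (.cut .s 6324224 (.cut .s 6275072 (.pos 39 .mp ⟨0, 0, 0, 0, 0, 6001652, 0, 0, 0, ⟨0, 0⟩, 0⟩ 0 0) (.pos 39 .mp ⟨0, 0, 0, 0, 0, 6437092, 0, 0, 0, ⟨0, 0⟩, 0⟩ 0 0)) (.cut .s 6373376 (.pos 39 .mp ⟨0, 0, 0, 0, 0, 6893184, 0, 0, 0, ⟨0, 0⟩, 0⟩ 0 0) (.pos 39 .mp ⟨0, 0, 0, 0, 0, 7369947, 0, 0, 0, ⟨0, 0⟩, 0⟩ 0 0)))) (.pos 40 .mp ⟨7373199, 0, 0, 0, 0, 0, 0, 0, 0, ⟨0, 0⟩, 0⟩ 0 0)) (.cut .v 17301504 (.cut .s 6619136 (.cut .s 6520832 (.cut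 .s 6471680 (.pos 39 .mp ⟨0, 0, 0, 0, 0, 7867400, 0, 0, 0, ⟨0, 0⟩, 0⟩ 0 0) (.pos 39 .mp ⟨0, 0, 0, 0, 0, 8396159, 0, 0, 0, ⟨0, 0⟩, 0⟩ 0 0)) (.cut .d (-262144) (.pos 39 .mp ⟨0, 0, 0, 0, 0, 9692577, 0, 0, 0, ⟨0, 0⟩, 0⟩ 0 0) (.cut .s 6569984 (.pos 39 .mp ⟨0, 0, 0, 0, 0, 8945208, 0, 0, 0, ⟨0, 0⟩, 0⟩ 0 0) (.cut .s 6594560 (.pos 39 .mp ⟨425725, 0, 0, 0, 0, 8991687, 0, 0, 0, ⟨0, 0⟩, 0⟩ 0 0) (.pos 39 .mp ⟨429728, 0, 0, 0, 0, 9288015, 0, 0, 0, ⟨0, 0⟩, 0⟩ 0 0))))) (.cut .s 6717440 (.cut .s 6668288 (.cut .s 6643712 (.pos 39 .mp ⟨397594, 0, 0, 0, 0, 9633740, 0, 0, 0, ⟨0, 0⟩, 0⟩ 0 0) (.cut .s 6656000 (.pos 39 .mp ⟨742721, 0, 0, 0, 0, 9533124, 0, 0, 0, ⟨0, 0⟩, 0⟩ 0 0) (.pos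 39 .mp ⟨743186, 0, 0, 0, 0, 9691190, 0, 0, 0, ⟨0, 0⟩, 0⟩ 0 0))) (.cut .d (-262144) (.pos 39 .mp ⟨0, 0, 0, 0, 0, 11156423, 0, 0, 0, ⟨0, 0⟩, 0⟩ 0 0) (.cut .v 17039360 (.cut .s 6692864 (.pos 41 .mp ⟨361071, 0, 0, 0, 0, 10257609, 0, 0, 0, ⟨0, 0⟩, 0⟩ 0 0) (.pos 41 .mp ⟨329758, 0, 0, 0, 0, 10610945, 0, 0, 0, ⟨0, 0⟩, 0⟩ 0 0)) (.pos 42 .mp ⟨10757189, 0, 0, 0, 0, 0, 0, 0, 0, ⟨0, 0⟩, 0⟩ 0 0)))) (.cut .d (-262144) (.cut .s 6766592 (.pos 39 .mp ⟨0, 0, 0, 0, 0, 11838010, 0, 0, 0, ⟨0, 0⟩, 0⟩ 0 0) (.cut .s 6791168 (.pos 39 .mp ⟨0, 0, 0, 0, 0, 12289897, 0, 0, 0, ⟨0, 0⟩, 0⟩ 0 0) (.pos 39 .mp ⟨0, 0, 0, 0, 0, 12660028, 0, 0, 0, ⟨0, 0⟩, 0⟩ 0 0))) (.cut .v 17039360 (.cut .s 6766592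 (.cut .l 796917 (.cut .d (-131072) (.pos 41 .mp ⟨383514, 0, 0, 0, 0, 11280410, 0, 0, 0, ⟨0, 0⟩, 0⟩ 0 0) (.cut .s 6742016 (.pos 41 .mp ⟨668747, 0, 0, 0, 0, 10568780, 0, 0, 0, ⟨0, 0⟩, 0⟩ 0 0) (.pos 41 .mp ⟨814244, 0, 0, 0, 0, 10751731, 0, 0, 0, ⟨0, 0⟩, 0⟩ 0 0))) (.pos 41 .mp ⟨0, 0, 0, 0, 0, 11105097, 0, 0, 0, ⟨0, 0⟩, 0⟩ 0 0)) (.cut .l 796917 (.cut .d (-131072) (.cut .s 6791168 (.pos 41 .mp ⟨796888, 0, 0, 0, 0, 11285037, 0, 0, 0, ⟨0, 0⟩, 0⟩ 0 0) (.pos 41 .mp ⟨850200, 0, 0, 0, 0, 11580684, 0, 0, 0, ⟨0, 0⟩, 0⟩ 0 0)) (.cut .s 6791168 (.pos 41 .mp ⟨962121, 0, 0, 0, 0, 10937035, 0, 0, 0, ⟨0, 0⟩, 0⟩ 0 0) (.cut .s 6803456 (.pos 41 .mp ⟨1143154, 0, 0, 0, 0, 11047098,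 0, 0, 0, ⟨0, 0⟩, 0⟩ 0 0) (.pos 41 .mp ⟨1164216, 0, 0, 0, 0, 11193088, 0, 0, 0, ⟨0, 0⟩, 0⟩ 0 0)))) (.pos 41 .mp ⟨218490, 0, 0, 0, 0, 11587936, 0, 0, 0, ⟨0, 0⟩, 0⟩ 0 0))) (.pos 42 .mp ⟨11801165, 0, 0, 0, 0, 0, 0, 0, 0, ⟨0, 0⟩, 0⟩ 0 0))))) (.pos 40 .mp ⟨12383702, 0, 0, 0, 0, 0, 0, 0, 0, ⟨0, 0⟩, 0⟩ 0 0))) (.pos 38 .mp ⟨12028637, 0, 0, 0, 0, 0, 0, 0, 0, ⟨0, 0⟩, 0⟩ 0 0)) (.void 36 ⟨100000, 0, 0, 0, 0, 0, 0, 0, 0, ⟨0, 0⟩, 0⟩ 0 0)))))) (.void 34 ⟨100000, 0, 0, 0, 0, 0, 0, 0, 0, ⟨0, 0⟩, 0⟩ 0 0))) (.void 32 ⟨100000, 0, 0, 0, 0, 0, 0, 0, 0, ⟨0, 0⟩, 0⟩ 0 0)) (.void 63 ⟨100000, 0, 0, 0, 0, 0, 0, 0, 0, ⟨0, 0⟩, 0⟩ 0 0))) (.cut .v 16777216 (.cut .v 8388608 (.cut .v 4194304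 (.void 4 ⟨0, 0, 50000, 0, 50000, 0, 0, 0, 0, ⟨0, 0⟩, 0⟩ 0 0) (.pos 5 .pm ⟨0, 0, 0, 0, 0, 0, 0, 0, 2725627, ⟨0, 0⟩, 9975792⟩ 0 0)) (.cut .v 12582912 (.pos 8 .pm ⟨0, 0, 0, 0, 0, 0, 0, 0, 0, ⟨0, 0⟩, 0⟩ 0 0) (.cut .v 14680064 (.pos 12 .pm ⟨0, 0, 0, 0, 0, 0, 0, 0, 0, ⟨0, 0⟩, 0⟩ 0 0) (.pos 13 .pm ⟨0, 0, 0, 0, 0, 0, 0, 0, 0, ⟨0, 0⟩, 0⟩ 0 0)))) (.cut .v 33554432 (.cut .d 9470090 (.cut .v 25165824 (.cut .v 20971520 (.pos 33 .pp ⟨3371900, 0, 0, 0, 0, 0, 0, 0, 0, ⟨0, 0⟩, 0⟩ 0 0) (.pos 34 .pp ⟨703148, 0, 0, 0, 0, 0, 645820, 0, 0, ⟨0, 0⟩, 0⟩ 0 0)) (.pos 32 .pp ⟨0, 0, 0, 0, 0, 0, 16291525, 0, 0, ⟨0, 0⟩, 0⟩ 0 0)) (.pos 30 .pp ⟨0, 0, 0, 0, 0, 0, 0, 695399379, 0, ⟨4986667,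 217896⟩, 0⟩ 143 251)) (.cut .d 9470090 (.pos 63 .pp ⟨3779915, 0, 0, 0, 0, 0, 101510449, 0, 0, ⟨0, 0⟩, 0⟩ 0 0) (.pos 63 .pp ⟨0, 0, 0, 0, 0, 0, 136105467, 1312913876, 0, ⟨4986667, 217896⟩, 0⟩ 143 251))))),
    by decide +kernel⟩

def covers7 : cell.Covers table row7.1 :=
  ⟨(.cut .d 0 (.cut .v 16777216 (.cut .d (-8388608) (.void 1 ⟨0, 0, 0, 0, 0, 100000, 0, 0, 0, ⟨0, 0⟩, 0⟩ 0 0) (.cut .d (-4194304) (.void 1 ⟨0, 0, 0, 0, 0, 100000, 0, 0, 0, ⟨0, 0⟩, 0⟩ 0 0) (.cut .d (-2097152) (.void 1 ⟨0, 0, 0, 0, 0, 100000, 0, 0, 0, ⟨0, 0⟩, 0⟩ 0 0) (.cut .d (-1048576) (.void 1 ⟨0, 0, 0, 0, 0, 100000, 0, 0, 0, ⟨0, 0⟩, 0⟩ 0 0) (.cut .d (-524288) (.void 1 ⟨0, 0, 0, 0, 0, 100000,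 0, 0, 0, ⟨0, 0⟩, 0⟩ 0 0) (.cut .v 8388608 (.cut .v 4194304 (.void 4 ⟨0, 0, 100000, 0, 0, 0, 0, 0, 0, ⟨0, 0⟩, 0⟩ 0 0) (.pos 5 .mm ⟨0, 0, 0, 0, 0, 13049719, 0, 0, 0, ⟨0, 0⟩, 0⟩ 0 0)) (.cut .v 12582912 (.pos 8 .mm ⟨0, 0, 0, 0, 0, 12875028, 0, 0, 0, ⟨0, 0⟩, 0⟩ 0 0) (.cut .v 14680064 (.pos 12 .mm ⟨0, 0, 0, 0, 0, 15528081, 0, 0, 0, ⟨0, 0⟩, 0⟩ 0 0) (.cut .s 7176192 (.cut .v 15728640 (.pos 16 .mm ⟨0, 0, 0, 0, 0, 14274694, 0, 0, 0, ⟨0, 0⟩, 0⟩ 0 0) (.cut .s 6995968 (.cut .v 16252928 (.pos 20 .mm ⟨0, 0, 0, 0, 0, 13408096, 0, 0, 0, ⟨0, 0⟩, 0⟩ 0 0) (.cut .s 6905856 (.cut .d (-262144) (.pos 21 .mm ⟨0, 0, 0, 0, 0, 13497167, 0, 0, 0, ⟨0, 0⟩, 0⟩ 0 0) (.cut .s 6860800 (.cut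 .s 6838272 (.pos 21 .mm ⟨0, 0, 0, 0, 0, 12434867, 0, 0, 0, ⟨0, 0⟩, 0⟩ 0 0) (.pos 21 .mm ⟨0, 0, 0, 0, 0, 12747005, 0, 0, 0, ⟨0, 0⟩, 0⟩ 0 0)) (.pos 21 .mm ⟨0, 0, 0, 0, 0, 13277627, 0, 0, 0, ⟨0, 0⟩, 0⟩ 0 0))) (.cut .d (-262144) (.pos 21 .mm ⟨0, 0, 0, 0, 0, 15001616, 0, 0, 0, ⟨0, 0⟩, 0⟩ 0 0) (.cut .s 6950912 (.pos 21 .mm ⟨0, 0, 0, 0, 0, 13983933, 0, 0, 0, ⟨0, 0⟩, 0⟩ 0 0) (.pos 21 .mm ⟨0, 0, 0, 0, 0, 14692349, 0, 0, 0, ⟨0, 0⟩, 0⟩ 0 0))))) (.cut .d (-262144) (.pos 17 .mm ⟨0, 0, 0, 0, 0, 18032467, 0, 0, 0, ⟨0, 0⟩, 0⟩ 0 0) (.cut .v 16252928 (.pos 20 .mm ⟨0, 0, 0, 0, 0, 15655894, 0, 0, 0, ⟨0, 0⟩, 0⟩ 0 0) (.cut .v 16515072 (.pos 24 .mm ⟨0, 0, 0, 0, 0, 16016932, 0, 0,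 0, ⟨0, 0⟩, 0⟩ 0 0) (.cut .l 796917 (.cut .s 7086080 (.cut .s 7041024 (.pos 25 .mm ⟨0, 0, 0, 0, 0, 15420690, 0, 0, 0, ⟨0, 0⟩, 0⟩ 0 0) (.pos 25 .mm ⟨0, 0, 0, 0, 0, 16176050, 0, 0, 0, ⟨0, 0⟩, 0⟩ 0 0)) (.cut .s 7131136 (.pos 25 .mm ⟨0, 0, 0, 0, 0, 16957919, 0, 0, 0, ⟨0, 0⟩, 0⟩ 0 0) (.pos 25 .mm ⟨0, 0, 0, 0, 0, 17765799, 0, 0, 0, ⟨0, 0⟩, 0⟩ 0 0))) (.pos 25 .mm ⟨0, 0, 0, 0, 0, 15528664, 0, 0, 0, ⟨0, 0⟩, 0⟩ 0 0))))))) (.cut .v 15728640 (.pos 16 .mm ⟨0, 0, 0, 0, 0, 20684252, 0, 0, 0, ⟨0, 0⟩, 0⟩ 0 0) (.cut .d (-262144) (.cut .s 7356416 (.pos 17 .mm ⟨0, 0, 0, 0, 0, 21830492, 0, 0, 0, ⟨0, 0⟩, 0⟩ 0 0) (.pos 17 .mm ⟨0, 0, 0, 0, 0, 26181127, 0, 0, 0, ⟨0, 0⟩, 0⟩ 0 0)) (.cut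 .v 16252928 (.pos 20 .mm ⟨0, 0, 0, 0, 0, 20160410, 0, 0, 0, ⟨0, 0⟩, 0⟩ 0 0) (.cut .s 7356416 (.cut .v 16515072 (.pos 24 .mm ⟨0, 0, 0, 0, 0, 19405384, 0, 0, 0, ⟨0, 0⟩, 0⟩ 0 0) (.cut .l 796917 (.cut .d (-131072) (.pos 25 .mm ⟨0, 0, 0, 0, 0, 21262162, 0, 0, 0, ⟨0, 0⟩, 0⟩ 0 0) (.cut .s 7266304 (.pos 25 .mm ⟨0, 0, 0, 0, 0, 18821023, 0, 0, 0, ⟨0, 0⟩, 0⟩ 0 0) (.pos 25 .mm ⟨0, 0, 0, 0, 0, 20569189, 0, 0, 0, ⟨0, 0⟩, 0⟩ 0 0))) (.pos 25 .mm ⟨0, 0, 0, 0, 0, 18815760, 0, 0, 0, ⟨0, 0⟩, 0⟩ 0 0))) (.cut .s 7446528 (.pos 21 .mm ⟨0, 0, 0, 0, 0, 22940992, 0, 0, 0, ⟨0, 0⟩, 0⟩ 0 0) (.pos 21 .mm ⟨0, 0, 0, 0, 0, 24910045, 0, 0, 0, ⟨0, 0⟩, 0⟩ 0 0))))))))))))))) (.cut .v 33554432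 (.cut .v 25165824 (.cut .d (-8388608) (.void 31 ⟨0, 0, 0, 0, 0, 100000, 0, 0, 0, ⟨0, 0⟩, 0⟩ 0 0) (.cut .d (-4194304) (.void 31 ⟨0, 0, 0, 0, 0, 100000, 0, 0, 0, ⟨0, 0⟩, 0⟩ 0 0) (.cut .d (-2097152) (.void 31 ⟨0, 0, 0, 0, 0, 100000, 0, 0, 0, ⟨0, 0⟩, 0⟩ 0 0) (.cut .d (-1048576) (.void 31 ⟨0, 0, 0, 0, 0, 100000, 0, 0, 0, ⟨0, 0⟩, 0⟩ 0 0) (.cut .d (-524288) (.void 31 ⟨0, 0, 0, 0, 0, 100000, 0, 0, 0, ⟨0, 0⟩, 0⟩ 0 0) (.cut .v 20971520 (.cut .v 18874368 (.cut .v 17825792 (.cut .s 7176192 (.cut .v 17301504 (.cut .d (-262144) (.cut .d (-393216) (.void 39 ⟨0, 0, 0, 0, 0, 100000, 0, 0, 0, ⟨0, 0⟩, 0⟩ 0 0) (.cut .l 796917 (.void 39 ⟨0, 0, 0, 0, 0, 100000, 0, 0, 0, ⟨0, 0⟩,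 0⟩ 0 0) (.cut .s 6995968 (.cut .s 6905856 (.cut .s 6860800 (.pos 39 .mp ⟨0, 0, 0, 0, 0, 13034474, 0, 0, 0, ⟨0, 0⟩, 0⟩ 0 0) (.pos 39 .mp ⟨255202, 0, 0, 0, 0, 13530707, 0, 0, 0, ⟨0, 0⟩, 0⟩ 0 0)) (.cut .s 6950912 (.pos 39 .mp ⟨520519, 0, 0, 0, 0, 14044084, 0, 0, 0, ⟨0, 0⟩, 0⟩ 0 0) (.pos 39 .mp ⟨791245, 0, 0, 0, 0, 14579753, 0, 0, 0, ⟨0, 0⟩, 0⟩ 0 0))) (.cut .d (-327680) (.pos 39 .mp ⟨1122814, 0, 0, 0, 0, 18443772, 0, 0, 0, ⟨0, 0⟩, 0⟩ 0 0) (.cut .l 1080033 (.pos 39 .mp ⟨1214535, 0, 0, 0, 0, 20504692, 0, 0, 0, ⟨0, 0⟩, 0⟩ 0 0) (.cut .s 7086080 (.cut .s 7041024 (.pos 39 .mp ⟨965781, 0, 0, 0, 0, 15048868, 0, 0, 0, ⟨0, 0⟩, 0⟩ 0 0) (.pos 39 .mp ⟨1297262, 0, 0, 0, 0,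 15574278, 0, 0, 0, ⟨0, 0⟩, 0⟩ 0 0)) (.cut .s 7131136 (.pos 39 .mp ⟨1639173, 0, 0, 0, 0, 16115273, 0, 0, 0, ⟨0, 0⟩, 0⟩ 0 0) (.pos 39 .mp ⟨1991620, 0, 0, 0, 0, 16671606, 0, 0, 0, ⟨0, 0⟩, 0⟩ 0 0)))))))) (.cut .s 6995968 (.cut .s 6905856 (.cut .v 17039360 (.cut .s 6860800 (.cut .l 796917 (.cut .d (-131072) (.cut .s 6838272 (.pos 41 .mp ⟨891003, 0, 0, 0, 0, 11869577, 0, 0, 0, ⟨0, 0⟩, 0⟩ 0 0) (.pos 41 .mp ⟨1030481, 0, 0, 0, 0, 12078429, 0, 0, 0, ⟨0, 0⟩, 0⟩ 0 0)) (.cut .d (-65536) (.cut .v 16908288 (.cut .s 6838272 (.pos 43 .mp ⟨971459, 0, 0, 0, 0, 11651604, 0, 0, 0, ⟨0, 0⟩, 0⟩ 0 0) (.pos 43 .mp ⟨1087649, 0, 0, 0, 0, 11878618, 0, 0, 0, ⟨0, 0⟩, 0⟩ 0 0)) (.pos 44 .mp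 ⟨12238231, 0, 0, 0, 0, 0, 0, 0, 0, ⟨0, 0⟩, 0⟩ 0 0)) (.pos 41 .mp ⟨1979160, 0, 0, 0, 0, 10443298, 0, 0, 0, ⟨0, 0⟩, 0⟩ 0 0))) (.pos 41 .mp ⟨528078, 0, 0, 0, 0, 11955225, 0, 0, 0, ⟨0, 0⟩, 0⟩ 0 0)) (.cut .l 796917 (.cut .d (-131072) (.cut .s 6883328 (.pos 41 .mp ⟨963679, 0, 0, 0, 0, 12546977, 0, 0, 0, ⟨0, 0⟩, 0⟩ 0 0) (.pos 41 .mp ⟨1096991, 0, 0, 0, 0, 12777446, 0, 0, 0, ⟨0, 0⟩, 0⟩ 0 0)) (.cut .d (-65536) (.cut .v 16908288 (.cut .s 6883328 (.pos 43 .mp ⟨1205764, 0, 0, 0, 0, 12110223, 0, 0, 0, ⟨0, 0⟩, 0⟩ 0 0) (.pos 43 .mp ⟨1325813, 0, 0, 0, 0, 12346421, 0, 0, 0, ⟨0, 0⟩, 0⟩ 0 0)) (.pos 44 .mp ⟨12876793, 0, 0, 0, 0, 0, 0, 0, 0, ⟨0, 0⟩, 0⟩ 0 0)) (.pos 41 .mp ⟨2240305,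 0, 0, 0, 0, 10869897, 0, 0, 0, ⟨0, 0⟩, 0⟩ 0 0))) (.pos 41 .mp ⟨849636, 0, 0, 0, 0, 12335760, 0, 0, 0, ⟨0, 0⟩, 0⟩ 0 0))) (.pos 42 .mp ⟨12939836, 0, 0, 0, 0, 0, 0, 0, 0, ⟨0, 0⟩, 0⟩ 0 0)) (.cut .v 17039360 (.cut .s 6950912 (.cut .l 796917 (.cut .d (-131072) (.cut .s 6928384 (.pos 41 .mp ⟨1239332, 0, 0, 0, 0, 13003664, 0, 0, 0, ⟨0, 0⟩, 0⟩ 0 0) (.pos 41 .mp ⟨1396195, 0, 0, 0, 0, 13218845, 0, 0, 0, ⟨0, 0⟩, 0⟩ 0 0)) (.cut .d (-65536) (.cut .v 16908288 (.cut .s 6928384 (.pos 43 .mp ⟨1447806, 0, 0, 0, 0, 12587212, 0, 0, 0, ⟨0, 0⟩, 0⟩ 0 0) (.pos 43 .mp ⟨1571752, 0, 0, 0, 0, 12832596, 0, 0, 0, ⟨0, 0⟩, 0⟩ 0 0)) (.pos 44 .mp ⟨13536031, 0, 0, 0, 0, 0, 0, 0, 0, ⟨0, 0⟩, 0⟩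 0 0)) (.pos 41 .mp ⟨2509943, 0, 0, 0, 0, 11312843, 0, 0, 0, ⟨0, 0⟩, 0⟩ 0 0))) (.cut .s 6928384 (.pos 41 .mp ⟨1014461, 0, 0, 0, 0, 12794599, 0, 0, 0, ⟨0, 0⟩, 0⟩ 0 0) (.pos 41 .mp ⟨1182001, 0, 0, 0, 0, 12996999, 0, 0, 0, ⟨0, 0⟩, 0⟩ 0 0))) (.cut .l 796917 (.cut .d (-131072) (.cut .s 6973440 (.pos 41 .mp ⟨1555528, 0, 0, 0, 0, 13437851, 0, 0, 0, ⟨0, 0⟩, 0⟩ 0 0) (.pos 41 .mp ⟨1717342, 0, 0, 0, 0, 13660717, 0, 0, 0, ⟨0, 0⟩, 0⟩ 0 0)) (.cut .d (-65536) (.cut .v 16908288 (.cut .s 6973440 (.pos 43 .mp ⟨1697660, 0, 0, 0, 0, 13082575, 0, 0, 0, ⟨0, 0⟩, 0⟩ 0 0) (.pos 43 .mp ⟨1825540, 0, 0, 0, 0, 13337146, 0, 0, 0, ⟨0, 0⟩, 0⟩ 0 0)) (.pos 44 .mp ⟨14216139, 0, 0, 0, 0, 0, 0,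 0, 0, ⟨0, 0⟩, 0⟩ 0 0)) (.pos 41 .mp ⟨2788155, 0, 0, 0, 0, 11772428, 0, 0, 0, ⟨0, 0⟩, 0⟩ 0 0))) (.cut .s 6973440 (.pos 41 .mp ⟨1352269, 0, 0, 0, 0, 13202284, 0, 0, 0, ⟨0, 0⟩, 0⟩ 0 0) (.pos 41 .mp ⟨1525279, 0, 0, 0, 0, 13411393, 0, 0, 0, ⟨0, 0⟩, 0⟩ 0 0)))) (.pos 42 .mp ⟨14307495, 0, 0, 0, 0, 0, 0, 0, 0, ⟨0, 0⟩, 0⟩ 0 0))) (.cut .s 7086080 (.cut .v 17039360 (.cut .s 7041024 (.cut .l 796917 (.cut .d (-131072) (.cut .s 7018496 (.pos 41 .mp ⟨1881651, 0, 0, 0, 0, 13887477, 0, 0, 0, ⟨0, 0⟩, 0⟩ 0 0) (.pos 41 .mp ⟨2032251, 0, 0, 0, 0, 14141017, 0, 0, 0, ⟨0, 0⟩, 0⟩ 0 0)) (.cut .d (-65536) (.cut .v 16908288 (.cut .s 7018496 (.pos 43 .mp ⟨1955402, 0, 0, 0, 0, 13596310,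 0, 0, 0, ⟨0, 0⟩, 0⟩ 0 0) (.pos 43 .mp ⟨2087255, 0, 0, 0, 0, 13860066, 0, 0, 0, ⟨0, 0⟩, 0⟩ 0 0)) (.pos 44 .mp ⟨4795534, 0, 0, 0, 0, 10926500, 0, 0, 0, ⟨0, 0⟩, 0⟩ 0 0)) (.pos 41 .mp ⟨3075025, 0, 0, 0, 0, 12237357, 0, 0, 0, ⟨0, 0⟩, 0⟩ 0 0))) (.cut .s 7018496 (.pos 41 .mp ⟨1701043, 0, 0, 0, 0, 13624226, 0, 0, 0, ⟨0, 0⟩, 0⟩ 0 0) (.pos 41 .mp ⟨1879576, 0, 0, 0, 0, 13840683, 0, 0, 0, ⟨0, 0⟩, 0⟩ 0 0))) (.cut .l 796917 (.cut .d (-131072) (.cut .s 7063552 (.pos 41 .mp ⟨2181815, 0, 0, 0, 0, 14403642, 0, 0, 0, ⟨0, 0⟩, 0⟩ 0 0) (.pos 41 .mp ⟨2334188, 0, 0, 0, 0, 14669997, 0, 0, 0, ⟨0, 0⟩, 0⟩ 0 0)) (.cut .d (-65536) (.cut .v 16908288 (.cut .s 7063552 (.pos 43 .mp ⟨2221109,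 0, 0, 0, 0, 14128412, 0, 0, 0, ⟨0, 0⟩, 0⟩ 0 0) (.pos 43 .mp ⟨2356974, 0, 0, 0, 0, 14401347, 0, 0, 0, ⟨0, 0⟩, 0⟩ 0 0)) (.pos 44 .mp ⟨5266568, 0, 0, 0, 0, 11247694, 0, 0, 0, ⟨0, 0⟩, 0⟩ 0 0)) (.pos 41 .mp ⟨3370640, 0, 0, 0, 0, 12718842, 0, 0, 0, ⟨0, 0⟩, 0⟩ 0 0))) (.cut .s 7063552 (.pos 41 .mp ⟨2060891, 0, 0, 0, 0, 14060665, 0, 0, 0, ⟨0, 0⟩, 0⟩ 0 0) (.pos 41 .mp ⟨2245001, 0, 0, 0, 0, 14284074, 0, 0, 0, ⟨0, 0⟩, 0⟩ 0 0)))) (.cut .s 7041024 (.pos 42 .mp ⟨15193255, 0, 0, 0, 0, 0, 0, 0, 0, ⟨0, 0⟩, 0⟩ 0 0) (.pos 42 .mp ⟨15926883, 0, 0, 0, 0, 0, 0, 0, 0, ⟨0, 0⟩, 0⟩ 0 0))) (.cut .s 7131136 (.cut .v 17039360 (.cut .d (-131072) (.cut .l 796917 (.cut .s 7108608 (.pos 41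 .mp ⟨2489607, 0, 0, 0, 0, 14939794, 0, 0, 0, ⟨0, 0⟩, 0⟩ 0 0) (.pos 41 .mp ⟨2648310, 0, 0, 0, 0, 15212745, 0, 0, 0, ⟨0, 0⟩, 0⟩ 0 0)) (.pos 41 .mp ⟨1850321, 0, 0, 0, 0, 15474532, 0, 0, 0, ⟨0, 0⟩, 0⟩ 0 0)) (.cut .d (-65536) (.cut .l 796917 (.cut .v 16908288 (.cut .s 7108608 (.pos 43 .mp ⟨2494860, 0, 0, 0, 0, 14678869, 0, 0, 0, ⟨0, 0⟩, 0⟩ 0 0) (.pos 43 .mp ⟨2634778, 0, 0, 0, 0, 14960974, 0, 0, 0, ⟨0, 0⟩, 0⟩ 0 0)) (.pos 44 .mp ⟨5752740, 0, 0, 0, 0, 11578270, 0, 0, 0, ⟨0, 0⟩, 0⟩ 0 0)) (.pos 41 .mp ⟨0, 0, 0, 0, 0, 0, 0, 0, 0, ⟨0, 0⟩, 0⟩ 0 0)) (.pos 41 .mp ⟨3675087, 0, 0, 0, 0, 13215079, 0, 0, 0, ⟨0, 0⟩, 0⟩ 0 0))) (.pos 42 .mp ⟨16682222, 0, 0, 0, 0, 0, 0, 0, 0, ⟨0,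 0⟩, 0⟩ 0 0)) (.cut .v 17039360 (.cut .d (-131072) (.cut .l 796917 (.cut .s 7153664 (.pos 41 .mp ⟨2810533, 0, 0, 0, 0, 15488561, 0, 0, 0, ⟨0, 0⟩, 0⟩ 0 0) (.pos 41 .mp ⟨2976512, 0, 0, 0, 0, 15766953, 0, 0, 0, ⟨0, 0⟩, 0⟩ 0 0)) (.pos 41 .mp ⟨2137628, 0, 0, 0, 0, 16060966, 0, 0, 0, ⟨0, 0⟩, 0⟩ 0 0)) (.cut .l 796917 (.cut .v 16908288 (.cut .d (-65536) (.cut .s 7153664 (.pos 43 .mp ⟨2776737, 0, 0, 0, 0, 15247661, 0, 0, 0, ⟨0, 0⟩, 0⟩ 0 0) (.pos 43 .mp ⟨2921927, 0, 0, 0, 0, 15537598, 0, 0, 0, ⟨0, 0⟩, 0⟩ 0 0)) (.pos 43 .mp ⟨3670074, 0, 0, 0, 0, 14044398, 0, 0, 0, ⟨0, 0⟩, 0⟩ 0 0)) (.pos 44 .mp ⟨6459622, 0, 0, 0, 0, 11693671, 0, 0, 0, ⟨0, 0⟩, 0⟩ 0 0)) (.pos 41 .mp ⟨0,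 0, 0, 0, 0, 0, 0, 0, 0, ⟨0, 0⟩, 0⟩ 0 0))) (.pos 42 .mp ⟨6943325, 0, 0, 0, 0, 11501165, 0, 0, 0, ⟨0, 0⟩, 0⟩ 0 0)))))) (.pos 40 .mp ⟨18413851, 0, 0, 0, 0, 0, 0, 0, 0, ⟨0, 0⟩, 0⟩ 0 0)) (.cut .v 17301504 (.cut .d (-262144) (.cut .d (-393216) (.void 39 ⟨0, 0, 0, 0, 0, 100000, 0, 0, 0, ⟨0, 0⟩, 0⟩ 0 0) (.cut .d (-327680) (.void 39 ⟨0, 0, 0, 0, 0, 100000, 0, 0, 0, ⟨0, 0⟩, 0⟩ 0 0) (.cut .l 796917 (.void 39 ⟨0, 0, 0, 0, 0, 100000, 0, 0, 0, ⟨0, 0⟩, 0⟩ 0 0) (.cut .l 1080033 (.void 39 ⟨0, 0, 0, 0, 0, 100000, 0, 0, 0, ⟨0, 0⟩, 0⟩ 0 0) (.cut .s 7356416 (.cut .s 7266304 (.cut .s 7221248 (.pos 39 .mp ⟨2357993, 0, 0, 0, 0, 17238764, 0, 0, 0, ⟨0, 0⟩, 0⟩ 0 0) (.pos 39 .mp ⟨2811451,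 0, 0, 0, 0, 17721423, 0, 0, 0, ⟨0, 0⟩, 0⟩ 0 0)) (.pos 39 .mp ⟨3113251, 0, 0, 0, 0, 19281238, 0, 0, 0, ⟨0, 0⟩, 0⟩ 0 0)) (.cut .s 7446528 (.pos 39 .mp ⟨3915701, 0, 0, 0, 0, 20642145, 0, 0, 0, ⟨0, 0⟩, 0⟩ 0 0) (.pos 39 .mp ⟨4763000, 0, 0, 0, 0, 22056939, 0, 0, 0, ⟨0, 0⟩, 0⟩ 0 0))))))) (.cut .s 7356416 (.cut .s 7266304 (.cut .v 17039360 (.cut .s 7221248 (.cut .d (-131072) (.cut .l 796917 (.cut .s 7198720 (.pos 41 .mp ⟨3146482, 0, 0, 0, 0, 16047629, 0, 0, 0, ⟨0, 0⟩, 0⟩ 0 0) (.pos 41 .mp ⟨3320674, 0, 0, 0, 0, 16330298, 0, 0, 0, ⟨0, 0⟩, 0⟩ 0 0)) (.pos 41 .mp ⟨2433419, 0, 0, 0, 0, 16665129, 0, 0, 0, ⟨0, 0⟩, 0⟩ 0 0)) (.cut .l 796917 (.cut .v 16908288 (.cut .d (-65536)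 (.cut .s 7198720 (.pos 43 .mp ⟨3099834, 0, 0, 0, 0, 15797505, 0, 0, 0, ⟨0, 0⟩, 0⟩ 0 0) (.pos 43 .mp ⟨3282778, 0, 0, 0, 0, 16058497, 0, 0, 0, ⟨0, 0⟩, 0⟩ 0 0)) (.pos 43 .mp ⟨3996496, 0, 0, 0, 0, 14551808, 0, 0, 0, ⟨0, 0⟩, 0⟩ 0 0)) (.pos 44 .mp ⟨7011573, 0, 0, 0, 0, 12003988, 0, 0, 0, ⟨0, 0⟩, 0⟩ 0 0)) (.pos 41 .mp ⟨0, 0, 0, 0, 0, 0, 0, 0, 0, ⟨0, 0⟩, 0⟩ 0 0))) (.cut .d (-131072) (.cut .l 796917 (.cut .s 7243776 (.pos 41 .mp ⟨3499322, 0, 0, 0, 0, 16614668, 0, 0, 0, ⟨0, 0⟩, 0⟩ 0 0) (.pos 41 .mp ⟨3682656, 0, 0, 0, 0, 16900445, 0, 0, 0, ⟨0, 0⟩, 0⟩ 0 0)) (.pos 41 .mp ⟨2737779, 0, 0, 0, 0, 17286809, 0, 0, 0, ⟨0, 0⟩, 0⟩ 0 0)) (.cut .l 796917 (.cut .v 16908288 (.cut .d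 (-65536) (.cut .s 7243776 (.pos 43 .mp ⟨3471082, 0, 0, 0, 0, 16320197, 0, 0, 0, ⟨0, 0⟩, 0⟩ 0 0) (.pos 43 .mp ⟨3665069, 0, 0, 0, 0, 16582225, 0, 0, 0, ⟨0, 0⟩, 0⟩ 0 0)) (.pos 43 .mp ⟨4332098, 0, 0, 0, 0, 15072587, 0, 0, 0, ⟨0, 0⟩, 0⟩ 0 0)) (.pos 44 .mp ⟨7592518, 0, 0, 0, 0, 12309045, 0, 0, 0, ⟨0, 0⟩, 0⟩ 0 0)) (.pos 41 .mp ⟨0, 0, 0, 0, 0, 0, 0, 0, 0, ⟨0, 0⟩, 0⟩ 0 0)))) (.cut .s 7221248 (.pos 42 .mp ⟨7460161, 0, 0, 0, 0, 11862176, 0, 0, 0, ⟨0, 0⟩, 0⟩ 0 0) (.pos 42 .mp ⟨8005036, 0, 0, 0, 0, 12219699, 0, 0, 0, ⟨0, 0⟩, 0⟩ 0 0))) (.cut .v 17039360 (.cut .s 7311360 (.cut .d (-131072) (.cut .l 796917 (.pos 41 .mp ⟨3707986, 0, 0, 0, 0, 17774808, 0, 0, 0, ⟨0, 0⟩, 0⟩ 0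 0) (.pos 41 .mp ⟨3050798, 0, 0, 0, 0, 17925789, 0, 0, 0, ⟨0, 0⟩, 0⟩ 0 0)) (.cut .l 796917 (.cut .v 16908288 (.cut .d (-65536) (.cut .s 7288832 (.pos 43 .mp ⟨3865060, 0, 0, 0, 0, 16844200, 0, 0, 0, ⟨0, 0⟩, 0⟩ 0 0) (.pos 43 .mp ⟨4071377, 0, 0, 0, 0, 17105740, 0, 0, 0, ⟨0, 0⟩, 0⟩ 0 0)) (.pos 43 .mp ⟨4676975, 0, 0, 0, 0, 15606050, 0, 0, 0, ⟨0, 0⟩, 0⟩ 0 0)) (.pos 44 .mp ⟨8206884, 0, 0, 0, 0, 12604082, 0, 0, 0, ⟨0, 0⟩, 0⟩ 0 0)) (.pos 41 .mp ⟨0, 0, 0, 0, 0, 0, 0, 0, 0, ⟨0, 0⟩, 0⟩ 0 0))) (.cut .d (-131072) (.cut .l 796917 (.pos 41 .mp ⟨4079718, 0, 0, 0, 0, 18387775, 0, 0, 0, ⟨0, 0⟩, 0⟩ 0 0) (.pos 41 .mp ⟨3372567, 0, 0, 0, 0, 18581842, 0, 0, 0, ⟨0, 0⟩, 0⟩ 0 0)) (.cut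 .l 796917 (.cut .v 16908288 (.cut .d (-65536) (.cut .s 7333888 (.pos 43 .mp ⟨4280444, 0, 0, 0, 0, 17369844, 0, 0, 0, ⟨0, 0⟩, 0⟩ 0 0) (.pos 43 .mp ⟨4489745, 0, 0, 0, 0, 17638628, 0, 0, 0, ⟨0, 0⟩, 0⟩ 0 0)) (.pos 43 .mp ⟨5031227, 0, 0, 0, 0, 16151516, 0, 0, 0, ⟨0, 0⟩, 0⟩ 0 0)) (.pos 44 .mp ⟨8859128, 0, 0, 0, 0, 12884232, 0, 0, 0, ⟨0, 0⟩, 0⟩ 0 0)) (.pos 41 .mp ⟨0, 0, 0, 0, 0, 0, 0, 0, 0, ⟨0, 0⟩, 0⟩ 0 0)))) (.cut .s 7311360 (.pos 42 .mp ⟨8582374, 0, 0, 0, 0, 12569002, 0, 0, 0, ⟨0, 0⟩, 0⟩ 0 0) (.pos 42 .mp ⟨9196624, 0, 0, 0, 0, 12905248, 0, 0, 0, ⟨0, 0⟩, 0⟩ 0 0)))) (.cut .s 7446528 (.cut .v 17039360 (.cut .s 7401472 (.cut .d (-131072) (.cut .s 7378944 (.pos 41 .mp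 ⟨4147988, 0, 0, 0, 0, 18800577, 0, 0, 0, ⟨0, 0⟩, 0⟩ 0 0) (.pos 41 .mp ⟨4361364, 0, 0, 0, 0, 19092509, 0, 0, 0, ⟨0, 0⟩, 0⟩ 0 0)) (.cut .l 796917 (.cut .v 16908288 (.cut .d (-65536) (.cut .s 7378944 (.pos 43 .mp ⟨4705412, 0, 0, 0, 0, 17906674, 0, 0, 0, ⟨0, 0⟩, 0⟩ 0 0) (.pos 43 .mp ⟨4927706, 0, 0, 0, 0, 18173646, 0, 0, 0, ⟨0, 0⟩, 0⟩ 0 0)) (.pos 43 .mp ⟨5394955, 0, 0, 0, 0, 16708314, 0, 0, 0, ⟨0, 0⟩, 0⟩ 0 0)) (.pos 44 .mp ⟨9553730, 0, 0, 0, 0, 13144520, 0, 0, 0, ⟨0, 0⟩, 0⟩ 0 0)) (.pos 41 .mp ⟨0, 0, 0, 0, 0, 0, 0, 0, 0, ⟨0, 0⟩, 0⟩ 0 0))) (.cut .d (-131072) (.cut .s 7424000 (.pos 41 .mp ⟨4582034, 0, 0, 0, 0, 19382900, 0, 0, 0, ⟨0, 0⟩, 0⟩ 0 0) (.pos 41 .mp ⟨4800636,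 0, 0, 0, 0, 19679849, 0, 0, 0, ⟨0, 0⟩, 0⟩ 0 0)) (.cut .l 796917 (.cut .v 16908288 (.cut .d (-65536) (.cut .s 7424000 (.pos 43 .mp ⟨5156890, 0, 0, 0, 0, 18439207, 0, 0, 0, ⟨0, 0⟩, 0⟩ 0 0) (.pos 43 .mp ⟨5393225, 0, 0, 0, 0, 18703019, 0, 0, 0, ⟨0, 0⟩, 0⟩ 0 0)) (.pos 43 .mp ⟨5768262, 0, 0, 0, 0, 17275777, 0, 0, 0, ⟨0, 0⟩, 0⟩ 0 0)) (.pos 44 .mp ⟨10295205, 0, 0, 0, 0, 13379859, 0, 0, 0, ⟨0, 0⟩, 0⟩ 0 0)) (.pos 41 .mp ⟨0, 0, 0, 0, 0, 0, 0, 0, 0, ⟨0, 0⟩, 0⟩ 0 0)))) (.pos 42 .mp ⟨13341432, 0, 0, 0, 0, 10187557, 0, 0, 0, ⟨0, 0⟩, 0⟩ 0 0)) (.cut .v 17039360 (.cut .s 7491584 (.cut .d (-131072) (.cut .s 7469056 (.pos 41 .mp ⟨5026545, 0, 0, 0, 0, 19975069, 0, 0, 0, ⟨0, 0⟩,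 0⟩ 0 0) (.pos 41 .mp ⟨5260023, 0, 0, 0, 0, 20268219, 0, 0, 0, ⟨0, 0⟩, 0⟩ 0 0)) (.cut .d (-65536) (.cut .s 7469056 (.pos 41 .mp ⟨6170643, 0, 0, 0, 0, 18299552, 0, 0, 0, ⟨0, 0⟩, 0⟩ 0 0) (.pos 41 .mp ⟨6384009, 0, 0, 0, 0, 18608092, 0, 0, 0, ⟨0, 0⟩, 0⟩ 0 0)) (.pos 41 .mp ⟨6439859, 0, 0, 0, 0, 17556778, 0, 0, 0, ⟨0, 0⟩, 0⟩ 0 0))) (.cut .d (-131072) (.cut .s 7514112 (.pos 41 .mp ⟨5501330, 0, 0, 0, 0, 20558954, 0, 0, 0, ⟨0, 0⟩, 0⟩ 0 0) (.pos 41 .mp ⟨5750728, 0, 0, 0, 0, 20846931, 0, 0, 0, ⟨0, 0⟩, 0⟩ 0 0)) (.cut .d (-65536) (.cut .s 7514112 (.pos 41 .mp ⟨6600112, 0, 0, 0, 0, 18920742, 0, 0, 0, ⟨0, 0⟩, 0⟩ 0 0) (.pos 41 .mp ⟨6818969, 0, 0, 0, 0, 19237507, 0, 0, 0, ⟨0,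 0⟩, 0⟩ 0 0)) (.pos 41 .mp ⟨6828091, 0, 0, 0, 0, 18147440, 0, 0, 0, ⟨0, 0⟩, 0⟩ 0 0)))) (.pos 42 .mp ⟨15050611, 0, 0, 0, 0, 10487320, 0, 0, 0, ⟨0, 0⟩, 0⟩ 0 0))))) (.pos 40 .mp ⟨25922726, 0, 0, 0, 0, 0, 0, 0, 0, ⟨0, 0⟩, 0⟩ 0 0))) (.pos 38 .mp ⟨25490806, 0, 0, 0, 0, 0, 0, 0, 0, ⟨0, 0⟩, 0⟩ 0 0)) (.void 36 ⟨100000, 0, 0, 0, 0, 0, 0, 0, 0, ⟨0, 0⟩, 0⟩ 0 0)) (.void 34 ⟨100000, 0, 0, 0, 0, 0, 0, 0, 0, ⟨0, 0⟩, 0⟩ 0 0))))))) (.void 32 ⟨100000, 0, 0, 0, 0, 0, 0, 0, 0, ⟨0, 0⟩, 0⟩ 0 0)) (.void 63 ⟨100000, 0, 0, 0, 0, 0, 0, 0, 0, ⟨0, 0⟩, 0⟩ 0 0))) (.cut .v 16777216 (.cut .v 8388608 (.cut .v 4194304 (.void 4 ⟨0, 0, 50000, 0, 50000, 0, 0, 0, 0, ⟨0, 0⟩, 0⟩ 0 0) (.pos 5 .pm ⟨0,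 0, 0, 0, 0, 0, 0, 0, 0, ⟨0, 0⟩, 0⟩ 0 0)) (.cut .d 12260274 (.pos 3 .pm ⟨0, 0, 0, 0, 0, 0, 0, 0, 0, ⟨0, 0⟩, 0⟩ 0 0) (.void 3 ⟨0, 0, 0, 0, 0, 0, 0, 0, 100000, ⟨0, 0⟩, 14107901⟩ 0 0))) (.cut .v 33554432 (.cut .d 12260274 (.cut .v 25165824 (.cut .v 20971520 (.pos 33 .pp ⟨7732224, 0, 0, 0, 0, 0, 0, 0, 0, ⟨0, 0⟩, 0⟩ 0 0) (.pos 34 .pp ⟨7763905, 0, 0, 0, 0, 0, 740267, 0, 0, ⟨0, 0⟩, 0⟩ 0 0)) (.pos 32 .pp ⟨6881847, 0, 0, 0, 0, 0, 1818600, 0, 0, ⟨0, 0⟩, 0⟩ 0 0)) (.cut .d 18390411 (.pos 30 .pp ⟨0, 9631706, 0, 0, 0, 0, 0, 673724, 4209658, ⟨5159373, 16793⟩, 19951585⟩ 180 293) (.void 30 ⟨0, 85187, 0, 0, 0, 0, 0, 0, 14813, ⟨0, 0⟩, 19951585⟩ 0 0))) (.cut .v 50331648 (.cut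 .l 796917 (.void 64 ⟨0, 0, 0, 0, 0, 0, 100000, 0, 0, ⟨0, 0⟩, 0⟩ 0 0) (.cut .d 12260274 (.cut .d 6130137 (.pos 64 .pp ⟨27491460, 0, 0, 0, 0, 0, 19957539, 0, 0, ⟨0, 0⟩, 0⟩ 0 0) (.pos 64 .pp ⟨0, 0, 0, 0, 0, 0, 19222900, 264115305, 0, ⟨4930288, 313753⟩, 0⟩ 142 207)) (.cut .d 18390411 (.pos 64 .pp ⟨0, 19483838, 0, 0, 0, 0, 44083644, 160701542, 0, ⟨5159373, 16793⟩, 0⟩ 180 293) (.void 64 ⟨0, 86374, 0, 0, 0, 0, 0, 0, 13626, ⟨0, 0⟩, 26257762⟩ 0 0)))) (.void 65 ⟨0, 0, 0, 0, 0, 0, 100000, 0, 0, ⟨0, 0⟩, 0⟩ 0 0))))),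
    by decide +kernel⟩

def covers8 : cell.Covers table row8.1 :=
  ⟨(.cut .d 0 (.cut .v 16777216 (.cut .d (-8388608) (.void 1 ⟨0, 0, 0, 0, 0, 100000, 0, 0, 0, ⟨0, 0⟩, 0⟩ 0 0) (.cut .d (-4194304) (.void 1 ⟨0, 0, 0, 0, 0, 100000, 0, 0, 0, ⟨0, 0⟩, 0⟩ 0 0) (.cut .d (-2097152) (.void 1 ⟨0, 0, 0, 0, 0, 100000, 0, 0, 0, ⟨0, 0⟩, 0⟩ 0 0) (.cut .d (-1048576) (.void 1 ⟨0, 0, 0, 0, 0, 100000, 0, 0, 0, ⟨0, 0⟩, 0⟩ 0 0) (.cut .d (-524288) (.void 1 ⟨0, 0, 0, 0, 0, 100000, 0, 0, 0, ⟨0, 0⟩, 0⟩ 0 0) (.cut .v 8388608 (.cut .v 4194304 (.void 4 ⟨0, 0, 100000, 0, 0, 0, 0, 0, 0, ⟨0, 0⟩, 0⟩ 0 0) (.pos 5 .mm ⟨0, 0, 0, 0, 0, 18098824, 0, 0, 0, ⟨0, 0⟩, 0⟩ 0 0)) (.cut .d (-262144) (.pos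 3 .mm ⟨0, 0, 0, 0, 0, 40653084, 0, 0, 0, ⟨0, 0⟩, 0⟩ 0 0) (.cut .v 12582912 (.pos 8 .mm ⟨0, 0, 0, 0, 0, 19066445, 0, 0, 0, ⟨0, 0⟩, 0⟩ 0 0) (.cut .v 14680064 (.pos 12 .mm ⟨0, 0, 0, 0, 0, 24851035, 0, 0, 0, ⟨0, 0⟩, 0⟩ 0 0) (.cut .v 15728640 (.pos 16 .mm ⟨0, 0, 0, 0, 0, 28457876, 0, 0, 0, ⟨0, 0⟩, 0⟩ 0 0) (.cut .s 7798784 (.cut .v 16252928 (.pos 20 .mm ⟨0, 0, 0, 0, 0, 27697783, 0, 0, 0, ⟨0, 0⟩, 0⟩ 0 0) (.cut .v 16515072 (.pos 24 .mm ⟨0, 0, 0, 0, 0, 28458933, 0, 0, 0, ⟨0, 0⟩, 0⟩ 0 0) (.cut .s 7667712 (.cut .s 7602176 (.pos 25 .mm ⟨0, 0, 0, 0, 0, 26546830, 0, 0, 0, ⟨0, 0⟩, 0⟩ 0 0) (.pos 25 .mm ⟨0, 0, 0, 0, 0, 28143765, 0, 0, 0, ⟨0, 0⟩, 0⟩ 0 0)) (.cut .s 7733248 (.pos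 25 .mm ⟨0, 0, 0, 0, 0, 29819033, 0, 0, 0, ⟨0, 0⟩, 0⟩ 0 0) (.pos 25 .mm ⟨0, 0, 0, 0, 0, 31570666, 0, 0, 0, ⟨0, 0⟩, 0⟩ 0 0))))) (.cut .v 16252928 (.pos 20 .mm ⟨0, 0, 0, 0, 0, 34701885, 0, 0, 0, ⟨0, 0⟩, 0⟩ 0 0) (.cut .v 16515072 (.pos 24 .mm ⟨0, 0, 0, 0, 0, 35649970, 0, 0, 0, ⟨0, 0⟩, 0⟩ 0 0) (.cut .s 7929856 (.cut .s 7864320 (.pos 25 .mm ⟨0, 0, 0, 0, 0, 33396762, 0, 0, 0, ⟨0, 0⟩, 0⟩ 0 0) (.pos 25 .mm ⟨0, 0, 0, 0, 0, 35295480, 0, 0, 0, ⟨0, 0⟩, 0⟩ 0 0)) (.cut .s 7995392 (.pos 25 .mm ⟨0, 0, 0, 0, 0, 37265041, 0, 0, 0, ⟨0, 0⟩, 0⟩ 0 0) (.pos 25 .mm ⟨0, 0, 0, 0, 0, 39303722, 0, 0, 0, ⟨0, 0⟩, 0⟩ 0 0)))))))))))))))) (.cut .v 33554432 (.cut .v 25165824 (.cut .d (-8388608)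 (.void 31 ⟨0, 0, 0, 0, 0, 100000, 0, 0, 0, ⟨0, 0⟩, 0⟩ 0 0) (.cut .v 20971520 (.cut .d (-4194304) (.void 33 ⟨0, 0, 0, 0, 0, 100000, 0, 0, 0, ⟨0, 0⟩, 0⟩ 0 0) (.cut .d (-2097152) (.void 33 ⟨0, 0, 0, 0, 0, 100000, 0, 0, 0, ⟨0, 0⟩, 0⟩ 0 0) (.cut .d (-1048576) (.void 33 ⟨0, 0, 0, 0, 0, 100000, 0, 0, 0, ⟨0, 0⟩, 0⟩ 0 0) (.cut .d (-524288) (.void 33 ⟨0, 0, 0, 0, 0, 100000, 0, 0, 0, ⟨0, 0⟩, 0⟩ 0 0) (.cut .v 18874368 (.cut .v 17825792 (.cut .d (-262144) (.cut .s 7798784 (.cut .s 7667712 (.pos 37 .mp ⟨6965033, 0, 0, 0, 0, 24601865, 0, 0, 0, ⟨0, 0⟩, 0⟩ 0 0) (.pos 37 .mp ⟨8329779, 0, 0, 0, 0, 27339793, 0, 0, 0, ⟨0, 0⟩, 0⟩ 0 0)) (.pos 37 .mp ⟨9806063, 0, 0, 0, 0, 43157709,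 0, 0, 0, ⟨0, 0⟩, 0⟩ 0 0)) (.cut .v 17301504 (.cut .s 7798784 (.cut .s 7667712 (.cut .v 17039360 (.cut .s 7602176 (.cut .d (-131072) (.cut .s 7569408 (.pos 41 .mp ⟨5817574, 0, 0, 0, 0, 21526925, 0, 0, 0, ⟨0, 0⟩, 0⟩ 0 0) (.pos 41 .mp ⟨5990169, 0, 0, 0, 0, 22153433, 0, 0, 0, ⟨0, 0⟩, 0⟩ 0 0)) (.cut .l 796917 (.cut .v 16908288 (.cut .l 513801 (.cut .d (-65536) (.pos 43 .mp ⟨6132025, 0, 0, 0, 0, 21459259, 0, 0, 0, ⟨0, 0⟩, 0⟩ 0 0) (.cut .s 7569408 (.pos 43 .mp ⟨6835592, 0, 0, 0, 0, 19140266, 0, 0, 0, ⟨0, 0⟩, 0⟩ 0 0) (.pos 43 .mp ⟨7134783, 0, 0, 0, 0, 19593452, 0, 0, 0, ⟨0, 0⟩, 0⟩ 0 0))) (.pos 43 .mp ⟨5627477, 0, 0, 0, 0, 20687737, 0, 0, 0, ⟨0, 0⟩, 0⟩ 0 0)) (.pos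 44 .mp ⟨14739717, 0, 0, 0, 0, 12169031, 0, 0, 0, ⟨0, 0⟩, 0⟩ 0 0)) (.pos 41 .mp ⟨0, 0, 0, 0, 0, 0, 0, 0, 0, ⟨0, 0⟩, 0⟩ 0 0))) (.cut .d (-131072) (.cut .s 7634944 (.pos 41 .mp ⟨6169723, 0, 0, 0, 0, 22793026, 0, 0, 0, ⟨0, 0⟩, 0⟩ 0 0) (.pos 41 .mp ⟨6339591, 0, 0, 0, 0, 23460393, 0, 0, 0, ⟨0, 0⟩, 0⟩ 0 0)) (.cut .l 796917 (.cut .v 16908288 (.cut .l 513801 (.cut .d (-65536) (.pos 43 .mp ⟨6685810, 0, 0, 0, 0, 22500060, 0, 0, 0, ⟨0, 0⟩, 0⟩ 0 0) (.cut .s 7634944 (.pos 43 .mp ⟨7439613, 0, 0, 0, 0, 20058968, 0, 0, 0, ⟨0, 0⟩, 0⟩ 0 0) (.pos 43 .mp ⟨7750130, 0, 0, 0, 0, 20536453, 0, 0, 0, ⟨0, 0⟩, 0⟩ 0 0))) (.pos 43 .mp ⟨6146106, 0, 0, 0, 0, 21742756, 0, 0, 0, ⟨0, 0⟩, 0⟩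 0 0)) (.pos 44 .mp ⟨15504939, 0, 0, 0, 0, 12895735, 0, 0, 0, ⟨0, 0⟩, 0⟩ 0 0)) (.pos 41 .mp ⟨0, 0, 0, 0, 0, 0, 0, 0, 0, ⟨0, 0⟩, 0⟩ 0 0)))) (.pos 42 .mp ⟨21390727, 0, 0, 0, 0, 6694905, 0, 0, 0, ⟨0, 0⟩, 0⟩ 0 0)) (.cut .v 17039360 (.cut .s 7733248 (.cut .d (-131072) (.cut .l 796917 (.pos 41 .mp ⟨7206932, 0, 0, 0, 0, 24508636, 0, 0, 0, ⟨0, 0⟩, 0⟩ 0 0) (.cut .s 7700480 (.pos 41 .mp ⟨5868319, 0, 0, 0, 0, 24611750, 0, 0, 0, ⟨0, 0⟩, 0⟩ 0 0) (.pos 41 .mp ⟨6180156, 0, 0, 0, 0, 25162143, 0, 0, 0, ⟨0, 0⟩, 0⟩ 0 0))) (.cut .l 796917 (.cut .v 16908288 (.cut .l 513801 (.cut .d (-65536) (.cut .s 7700480 (.pos 43 .mp ⟨7702507, 0, 0, 0, 0, 22415556, 0, 0, 0, ⟨0, 0⟩, 0⟩ 0 0) (.pos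 43 .mp ⟨7972517, 0, 0, 0, 0, 22997619, 0, 0, 0, ⟨0, 0⟩, 0⟩ 0 0)) (.cut .d (-32768) (.cut .s 7700480 (.pos 43 .mp ⟨7679643, 0, 0, 0, 0, 21973689, 0, 0, 0, ⟨0, 0⟩, 0⟩ 0 0) (.pos 43 .mp ⟨7999311, 0, 0, 0, 0, 22488754, 0, 0, 0, ⟨0, 0⟩, 0⟩ 0 0)) (.pos 43 .mp ⟨7834582, 0, 0, 0, 0, 0, 0, 0, 0, ⟨0, 0⟩, 0⟩ 0 0))) (.pos 43 .mp ⟨6683282, 0, 0, 0, 0, 22851142, 0, 0, 0, ⟨0, 0⟩, 0⟩ 0 0)) (.pos 44 .mp ⟨16318605, 0, 0, 0, 0, 13646600, 0, 0, 0, ⟨0, 0⟩, 0⟩ 0 0)) (.pos 41 .mp ⟨0, 0, 0, 0, 0, 0, 0, 0, 0, ⟨0, 0⟩, 0⟩ 0 0))) (.cut .d (-131072) (.cut .v 16908288 (.pos 43 .mp ⟨0, 0, 0, 0, 0, 33618686, 0, 0, 0, ⟨0, 0⟩, 0⟩ 0 0) (.cut .l 796917 (.pos 44 .mp ⟨8068130, 0, 0, 0, 0, 25351846,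 0, 0, 0, ⟨0, 0⟩, 0⟩ 0 0) (.cut .s 7766016 (.pos 44 .mp ⟨6717861, 0, 0, 0, 0, 25492569, 0, 0, 0, ⟨0, 0⟩, 0⟩ 0 0) (.pos 44 .mp ⟨7037174, 0, 0, 0, 0, 26073569, 0, 0, 0, ⟨0, 0⟩, 0⟩ 0 0)))) (.cut .l 796917 (.cut .v 16908288 (.cut .d (-65536) (.cut .s 7766016 (.pos 43 .mp ⟨7741159, 0, 0, 0, 0, 24058170, 0, 0, 0, ⟨0, 0⟩, 0⟩ 0 0) (.pos 43 .mp ⟨7997514, 0, 0, 0, 0, 24688658, 0, 0, 0, ⟨0, 0⟩, 0⟩ 0 0)) (.cut .d (-32768) (.cut .s 7766016 (.pos 43 .mp ⟨8364344, 0, 0, 0, 0, 22942740, 0, 0, 0, ⟨0, 0⟩, 0⟩ 0 0) (.pos 43 .mp ⟨8729567, 0, 0, 0, 0, 23417607, 0, 0, 0, ⟨0, 0⟩, 0⟩ 0 0)) (.pos 43 .mp ⟨8471307, 0, 0, 0, 0, 0, 0, 0, 0, ⟨0, 0⟩, 0⟩ 0 0))) (.pos 44 .mp ⟨17199745, 0, 0,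 0, 0, 14400985, 0, 0, 0, ⟨0, 0⟩, 0⟩ 0 0)) (.pos 41 .mp ⟨8190963, 0, 0, 0, 0, 0, 0, 0, 0, ⟨0, 0⟩, 0⟩ 0 0)))) (.cut .s 7733248 (.pos 42 .mp ⟨16701757, 0, 0, 0, 0, 13837265, 0, 0, 0, ⟨0, 0⟩, 0⟩ 0 0) (.pos 42 .mp ⟨17424977, 0, 0, 0, 0, 14791670, 0, 0, 0, ⟨0, 0⟩, 0⟩ 0 0)))) (.cut .s 7929856 (.cut .v 17039360 (.cut .d (-131072) (.cut .l 796917 (.cut .s 7864320 (.pos 41 .mp ⟨8549055, 0, 0, 0, 0, 26773300, 0, 0, 0, ⟨0, 0⟩, 0⟩ 0 0) (.pos 41 .mp ⟨9257171, 0, 0, 0, 0, 27998447, 0, 0, 0, ⟨0, 0⟩, 0⟩ 0 0)) (.cut .v 16908288 (.pos 43 .mp ⟨0, 0, 0, 0, 0, 35250276, 0, 0, 0, ⟨0, 0⟩, 0⟩ 0 0) (.cut .s 7864320 (.cut .s 7831552 (.pos 44 .mp ⟨7362162, 0, 0, 0, 0, 26668034, 0, 0,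 0, ⟨0, 0⟩, 0⟩ 0 0) (.pos 44 .mp ⟨7692872, 0, 0, 0, 0, 27275840, 0, 0, 0, ⟨0, 0⟩, 0⟩ 0 0)) (.cut .s 7897088 (.pos 44 .mp ⟨8029355, 0, 0, 0, 0, 27896861, 0, 0, 0, ⟨0, 0⟩, 0⟩ 0 0) (.pos 44 .mp ⟨8371661, 0, 0, 0, 0, 28530968, 0, 0, 0, ⟨0, 0⟩, 0⟩ 0 0))))) (.cut .l 796917 (.cut .s 7864320 (.cut .v 16908288 (.cut .d (-65536) (.cut .s 7831552 (.pos 43 .mp ⟨8268121, 0, 0, 0, 0, 25322595, 0, 0, 0, ⟨0, 0⟩, 0⟩ 0 0) (.pos 43 .mp ⟨8554108, 0, 0, 0, 0, 25958530, 0, 0, 0, ⟨0, 0⟩, 0⟩ 0 0)) (.cut .d (-32768) (.cut .s 7831552 (.pos 43 .mp ⟨9094046, 0, 0, 0, 0, 23914764, 0, 0, 0, ⟨0, 0⟩, 0⟩ 0 0) (.pos 43 .mp ⟨9456815, 0, 0, 0, 0, 24435673, 0, 0, 0, ⟨0, 0⟩, 0⟩ 0 0)) (.pos 43 .mp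 ⟨9129445, 0, 0, 0, 0, 0, 0, 0, 0, ⟨0, 0⟩, 0⟩ 0 0))) (.pos 44 .mp ⟨18167560, 0, 0, 0, 0, 15137562, 0, 0, 0, ⟨0, 0⟩, 0⟩ 0 0)) (.cut .v 16908288 (.cut .d (-65536) (.cut .s 7897088 (.pos 43 .mp ⟨8856600, 0, 0, 0, 0, 26595003, 0, 0, 0, ⟨0, 0⟩, 0⟩ 0 0) (.pos 43 .mp ⟨9176719, 0, 0, 0, 0, 27230539, 0, 0, 0, ⟨0, 0⟩, 0⟩ 0 0)) (.cut .d (-32768) (.cut .s 7897088 (.pos 43 .mp ⟨9816877, 0, 0, 0, 0, 24981850, 0, 0, 0, ⟨0, 0⟩, 0⟩ 0 0) (.pos 43 .mp ⟨10173204, 0, 0, 0, 0, 25554867, 0, 0, 0, ⟨0, 0⟩, 0⟩ 0 0)) (.pos 43 .mp ⟨9809353, 0, 0, 0, 0, 0, 0, 0, 0, ⟨0, 0⟩, 0⟩ 0 0))) (.cut .s 7897088 (.pos 44 .mp ⟨15880219, 0, 0, 0, 0, 18973131, 0, 0, 0, ⟨0, 0⟩, 0⟩ 0 0) (.pos 44 .mp ⟨16366555,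 0, 0, 0, 0, 19403034, 0, 0, 0, ⟨0, 0⟩, 0⟩ 0 0)))) (.pos 41 .mp ⟨9675976, 0, 0, 0, 0, 0, 0, 0, 0, ⟨0, 0⟩, 0⟩ 0 0))) (.cut .s 7864320 (.pos 42 .mp ⟨18230506, 0, 0, 0, 0, 15736503, 0, 0, 0, ⟨0, 0⟩, 0⟩ 0 0) (.pos 42 .mp ⟨19152278, 0, 0, 0, 0, 16634724, 0, 0, 0, ⟨0, 0⟩, 0⟩ 0 0))) (.cut .v 17039360 (.cut .d (-131072) (.cut .l 796917 (.pos 41 .mp ⟨9990563, 0, 0, 0, 0, 31302486, 0, 0, 0, ⟨0, 0⟩, 0⟩ 0 0) (.cut .v 16908288 (.pos 43 .mp ⟨0, 0, 0, 0, 0, 39368818, 0, 0, 0, ⟨0, 0⟩, 0⟩ 0 0) (.cut .s 7995392 (.cut .s 7962624 (.pos 44 .mp ⟨8719842, 0, 0, 0, 0, 29178030, 0, 0, 0, ⟨0, 0⟩, 0⟩ 0 0) (.pos 44 .mp ⟨9073950, 0, 0, 0, 0, 29837912, 0, 0, 0, ⟨0, 0⟩, 0⟩ 0 0)) (.cut .s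 8028160 (.pos 44 .mp ⟨9434038, 0, 0, 0, 0, 30510477, 0, 0, 0, ⟨0, 0⟩, 0⟩ 0 0) (.pos 44 .mp ⟨9800160, 0, 0, 0, 0, 31195586, 0, 0, 0, ⟨0, 0⟩, 0⟩ 0 0))))) (.cut .l 796917 (.cut .s 7995392 (.cut .v 16908288 (.cut .d (-65536) (.cut .s 7962624 (.pos 43 .mp ⟨9515586, 0, 0, 0, 0, 27863655, 0, 0, 0, ⟨0, 0⟩, 0⟩ 0 0) (.pos 43 .mp ⟨9874319, 0, 0, 0, 0, 28492854, 0, 0, 0, ⟨0, 0⟩, 0⟩ 0 0)) (.cut .d (-32768) (.cut .s 7962624 (.pos 43 .mp ⟨10524737, 0, 0, 0, 0, 26156353, 0, 0, 0, ⟨0, 0⟩, 0⟩ 0 0) (.pos 43 .mp ⟨10870381, 0, 0, 0, 0, 26787996, 0, 0, 0, ⟨0, 0⟩, 0⟩ 0 0)) (.pos 43 .mp ⟨10511398, 0, 0, 0, 0, 0, 0, 0, 0, ⟨0, 0⟩, 0⟩ 0 0))) (.pos 44 .mp ⟨20440994, 0, 0, 0, 0, 16468405,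 0, 0, 0, ⟨0, 0⟩, 0⟩ 0 0)) (.cut .v 16908288 (.cut .d (-65536) (.cut .s 8028160 (.pos 43 .mp ⟨10254033, 0, 0, 0, 0, 29116629, 0, 0, 0, ⟨0, 0⟩, 0⟩ 0 0) (.pos 43 .mp ⟨10655844, 0, 0, 0, 0, 29733458, 0, 0, 0, ⟨0, 0⟩, 0⟩ 0 0)) (.cut .d (-32768) (.cut .s 8028160 (.pos 43 .mp ⟨11209007, 0, 0, 0, 0, 27451546, 0, 0, 0, ⟨0, 0⟩, 0⟩ 0 0) (.pos 43 .mp ⟨11539450, 0, 0, 0, 0, 28148814, 0, 0, 0, ⟨0, 0⟩, 0⟩ 0 0)) (.pos 43 .mp ⟨11235959, 0, 0, 0, 0, 0, 0, 0, 0, ⟨0, 0⟩, 0⟩ 0 0))) (.pos 44 .mp ⟨21786037, 0, 0, 0, 0, 17016363, 0, 0, 0, ⟨0, 0⟩, 0⟩ 0 0))) (.pos 41 .mp ⟨11266308, 0, 0, 0, 0, 0, 0, 0, 0, ⟨0, 0⟩, 0⟩ 0 0))) (.cut .s 7995392 (.pos 42 .mp ⟨20210314, 0, 0, 0, 0, 17462983,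 0, 0, 0, ⟨0, 0⟩, 0⟩ 0 0) (.pos 42 .mp ⟨21424964, 0, 0, 0, 0, 18197047, 0, 0, 0, ⟨0, 0⟩, 0⟩ 0 0))))) (.pos 40 .mp ⟨34439045, 0, 0, 0, 0, 0, 0, 0, 0, ⟨0, 0⟩, 0⟩ 0 0))) (.pos 38 .mp ⟨41728113, 0, 0, 0, 0, 0, 0, 0, 0, ⟨0, 0⟩, 0⟩ 0 0)) (.void 36 ⟨100000, 0, 0, 0, 0, 0, 0, 0, 0, ⟨0, 0⟩, 0⟩ 0 0)))))) (.void 34 ⟨100000, 0, 0, 0, 0, 0, 0, 0, 0, ⟨0, 0⟩, 0⟩ 0 0))) (.void 32 ⟨100000, 0, 0, 0, 0, 0, 0, 0, 0, ⟨0, 0⟩, 0⟩ 0 0)) (.void 63 ⟨100000, 0, 0, 0, 0, 0, 0, 0, 0, ⟨0, 0⟩, 0⟩ 0 0))) (.cut .v 16777216 (.cut .v 8388608 (.cut .v 4194304 (.void 4 ⟨0, 0, 50000, 0, 50000, 0, 0, 0, 0, ⟨0, 0⟩, 0⟩ 0 0) (.pos 5 .pm ⟨0, 0, 0, 0, 0, 0, 0, 0, 0, ⟨0, 0⟩, 0⟩ 0 0)) (.cut .d 10285164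 (.pos 3 .pm ⟨0, 0, 0, 0, 0, 0, 0, 0, 0, ⟨0, 0⟩, 0⟩ 0 0) (.pos 3 .pm ⟨0, 0, 0, 0, 0, 0, 0, 0, 21171010, ⟨0, 0⟩, 14107901⟩ 0 0))) (.cut .v 33554432 (.cut .d 10285164 (.cut .v 25165824 (.cut .v 20971520 (.cut .v 18874368 (.pos 35 .pp ⟨8858358, 0, 0, 0, 0, 0, 0, 0, 0, ⟨0, 0⟩, 0⟩ 0 0) (.pos 36 .pp ⟨11333946, 0, 0, 0, 0, 0, 0, 0, 0, ⟨0, 0⟩, 0⟩ 0 0)) (.pos 34 .pp ⟨12948615, 0, 0, 0, 0, 0, 0, 0, 0, ⟨0, 0⟩, 0⟩ 0 0)) (.pos 32 .pp ⟨18264906, 0, 0, 0, 0, 0, 2471045, 0, 0, ⟨0, 0⟩, 0⟩ 0 0)) (.cut .d 15427746 (.pos 30 .pp ⟨0, 15192977, 0, 0, 0, 0, 0, 15936094, 0, ⟨5164118, 11994⟩, 0⟩ 185 281) (.pos 30 .pp ⟨0, 105686639, 0, 0, 0, 0, 0, 0, 23969390, ⟨0, 0⟩, 19951585⟩ 0 0)))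 (.cut .d 10285164 (.cut .d 5142582 (.cut .d 2571291 (.pos 63 .pp ⟨223242480, 0, 0, 0, 0, 0, 0, 0, 0, ⟨0, 0⟩, 0⟩ 0 0) (.pos 63 .pp ⟨35654043, 0, 0, 0, 0, 0, 8820523, 0, 0, ⟨0, 0⟩, 0⟩ 0 0)) (.pos 63 .pp ⟨0, 0, 0, 0, 0, 0, 2956790, 0, 0, ⟨0, 0⟩, 0⟩ 0 0)) (.pos 63 .pp ⟨0, 38825018, 0, 0, 0, 0, 2956790, 0, 0, ⟨0, 0⟩, 0⟩ 0 0))))),
    by decide +kernel⟩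

def covers9 : cell.Covers table row9.1 :=
  ⟨(.cut .d 0 (.cut .v 16777216 (.cut .d (-8388608) (.void 1 ⟨0, 0, 0, 0, 0, 100000, 0, 0, 0, ⟨0, 0⟩, 0⟩ 0 0) (.cut .d (-4194304) (.void 1 ⟨0, 0, 0, 0, 0, 100000, 0, 0, 0, ⟨0, 0⟩, 0⟩ 0 0) (.cut .d (-2097152) (.void 1 ⟨0, 0, 0, 0, 0, 100000, 0, 0, 0, ⟨0, 0⟩, 0⟩ 0 0) (.cut .d (-1048576) (.void 1 ⟨0, 0, 0, 0, 0, 100000, 0, 0, 0, ⟨0, 0⟩, 0⟩ 0 0) (.cut .d (-524288) (.void 1 ⟨0, 0, 0, 0, 0, 100000, 0, 0, 0, ⟨0, 0⟩, 0⟩ 0 0) (.cut .d (-262144) (.void 1 ⟨0, 0, 0, 0, 0, 100000, 0, 0, 0, ⟨0, 0⟩, 0⟩ 0 0) (.cut .v 8388608 (.cut .v 4194304 (.void 4 ⟨0, 0, 100000, 0, 0, 0, 0, 0, 0, ⟨0, 0⟩, 0⟩ 0 0) (.pos 5 .mm ⟨0, 0, 0, 0, 0, 24484875,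 0, 0, 0, ⟨0, 0⟩, 0⟩ 0 0)) (.cut .v 12582912 (.pos 8 .mm ⟨0, 0, 0, 0, 0, 29948405, 0, 0, 0, ⟨0, 0⟩, 0⟩ 0 0) (.cut .v 14680064 (.pos 12 .mm ⟨0, 0, 0, 0, 0, 39140964, 0, 0, 0, ⟨0, 0⟩, 0⟩ 0 0) (.cut .v 15728640 (.pos 16 .mm ⟨0, 0, 0, 0, 0, 44545996, 0, 0, 0, ⟨0, 0⟩, 0⟩ 0 0) (.cut .s 8323072 (.cut .v 16252928 (.pos 20 .mm ⟨0, 0, 0, 0, 0, 43161675, 0, 0, 0, ⟨0, 0⟩, 0⟩ 0 0) (.cut .v 16515072 (.pos 24 .mm ⟨0, 0, 0, 0, 0, 44325495, 0, 0, 0, ⟨0, 0⟩, 0⟩ 0 0) (.cut .s 8192000 (.cut .s 8126464 (.pos 25 .mm ⟨0, 0, 0, 0, 0, 41453288, 0, 0, 0, ⟨0, 0⟩, 0⟩ 0 0) (.pos 25 .mm ⟨0, 0, 0, 0, 0, 43673934, 0, 0, 0, ⟨0, 0⟩, 0⟩ 0 0)) (.cut .s 8257536 (.pos 25 .mm ⟨0, 0, 0, 0, 0, 45995546,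 0, 0, 0, ⟨0, 0⟩, 0⟩ 0 0) (.pos 25 .mm ⟨0, 0, 0, 0, 0, 48415747, 0, 0, 0, ⟨0, 0⟩, 0⟩ 0 0))))) (.cut .d (-131072) (.pos 17 .mm ⟨0, 0, 0, 0, 0, 58750517, 0, 0, 0, ⟨0, 0⟩, 0⟩ 0 0) (.cut .s 8454144 (.pos 17 .mm ⟨0, 0, 0, 0, 0, 51924451, 0, 0, 0, ⟨0, 0⟩, 0⟩ 0 0) (.pos 17 .mm ⟨0, 0, 0, 0, 0, 57286055, 0, 0, 0, ⟨0, 0⟩, 0⟩ 0 0)))))))))))))) (.cut .v 67108864 (.cut .v 33554432 (.cut .v 25165824 (.cut .d (-8388608) (.void 31 ⟨0, 0, 0, 0, 0, 100000, 0, 0, 0, ⟨0, 0⟩, 0⟩ 0 0) (.cut .v 20971520 (.cut .d (-4194304) (.void 33 ⟨0, 0, 0, 0, 0, 100000, 0, 0, 0, ⟨0, 0⟩, 0⟩ 0 0) (.cut .d (-2097152) (.void 33 ⟨0, 0, 0, 0, 0, 100000, 0, 0, 0, ⟨0, 0⟩, 0⟩ 0 0) (.cut .d (-1048576) (.void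 33 ⟨0, 0, 0, 0, 0, 100000, 0, 0, 0, ⟨0, 0⟩, 0⟩ 0 0) (.cut .d (-524288) (.void 33 ⟨0, 0, 0, 0, 0, 100000, 0, 0, 0, ⟨0, 0⟩, 0⟩ 0 0) (.cut .d (-262144) (.void 33 ⟨0, 0, 0, 0, 0, 100000, 0, 0, 0, ⟨0, 0⟩, 0⟩ 0 0) (.cut .v 18874368 (.cut .v 17825792 (.cut .v 17301504 (.cut .s 8323072 (.cut .s 8192000 (.cut .v 17039360 (.cut .d (-131072) (.cut .l 796917 (.pos 41 .mp ⟨11535853, 0, 0, 0, 0, 34410438, 0, 0, 0, ⟨0, 0⟩, 0⟩ 0 0) (.cut .v 16908288 (.pos 43 .mp ⟨0, 0, 0, 0, 0, 44047845, 0, 0, 0, ⟨0, 0⟩, 0⟩ 0 0) (.cut .s 8126464 (.cut .s 8093696 (.pos 44 .mp ⟨10173310, 0, 0, 0, 0, 31941100, 0, 0, 0, ⟨0, 0⟩, 0⟩ 0 0) (.pos 44 .mp ⟨10556746, 0, 0, 0, 0, 32625136, 0, 0, 0, ⟨0,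 0⟩, 0⟩ 0 0)) (.cut .s 8159232 (.pos 44 .mp ⟨10946493, 0, 0, 0, 0, 33328454, 0, 0, 0, ⟨0, 0⟩, 0⟩ 0 0) (.cut .s 8175616 (.pos 44 .mp ⟨11342608, 0, 0, 0, 0, 33722832, 0, 0, 0, ⟨0, 0⟩, 0⟩ 0 0) (.pos 44 .mp ⟨11543073, 0, 0, 0, 0, 34086429, 0, 0, 0, ⟨0, 0⟩, 0⟩ 0 0)))))) (.cut .l 796917 (.cut .s 8126464 (.cut .v 16908288 (.cut .d (-65536) (.cut .s 8093696 (.pos 43 .mp ⟨11122538, 0, 0, 0, 0, 30310761, 0, 0, 0, ⟨0, 0⟩, 0⟩ 0 0) (.pos 43 .mp ⟨11423811, 0, 0, 0, 0, 31063240, 0, 0, 0, ⟨0, 0⟩, 0⟩ 0 0)) (.cut .d (-32768) (.cut .s 8093696 (.pos 43 .mp ⟨12038225, 0, 0, 0, 0, 28667443, 0, 0, 0, ⟨0, 0⟩, 0⟩ 0 0) (.pos 43 .mp ⟨12490600, 0, 0, 0, 0, 29198905, 0, 0, 0, ⟨0, 0⟩, 0⟩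 0 0)) (.pos 43 .mp ⟨12192860, 0, 0, 0, 0, 0, 0, 0, 0, ⟨0, 0⟩, 0⟩ 0 0))) (.pos 44 .mp ⟨23581732, 0, 0, 0, 0, 17187598, 0, 0, 0, ⟨0, 0⟩, 0⟩ 0 0)) (.cut .v 16908288 (.cut .d (-65536) (.cut .s 8159232 (.pos 43 .mp ⟨11738873, 0, 0, 0, 0, 31825961, 0, 0, 0, ⟨0, 0⟩, 0⟩ 0 0) (.pos 43 .mp ⟨12069216, 0, 0, 0, 0, 32597004, 0, 0, 0, ⟨0, 0⟩, 0⟩ 0 0)) (.cut .d (-32768) (.cut .s 8159232 (.pos 43 .mp ⟨12943169, 0, 0, 0, 0, 29757718, 0, 0, 0, ⟨0, 0⟩, 0⟩ 0 0) (.cut .s 8175616 (.pos 43 .mp ⟨12724771, 0, 0, 0, 0, 30998062, 0, 0, 0, ⟨0, 0⟩, 0⟩ 0 0) (.pos 43 .mp ⟨12915788, 0, 0, 0, 0, 31357831, 0, 0, 0, ⟨0, 0⟩, 0⟩ 0 0))) (.pos 43 .mp ⟨12965595, 0, 0, 0, 0, 0, 0, 0, 0, ⟨0, 0⟩, 0⟩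 0 0))) (.pos 44 .mp ⟨24843166, 0, 0, 0, 0, 17920848, 0, 0, 0, ⟨0, 0⟩, 0⟩ 0 0))) (.pos 41 .mp ⟨12980524, 0, 0, 0, 0, 0, 0, 0, 0, ⟨0, 0⟩, 0⟩ 0 0))) (.cut .d (-131072) (.cut .s 8126464 (.pos 42 .mp ⟨19197758, 0, 0, 0, 0, 23007598, 0, 0, 0, ⟨0, 0⟩, 0⟩ 0 0) (.pos 42 .mp ⟨19893203, 0, 0, 0, 0, 24458024, 0, 0, 0, ⟨0, 0⟩, 0⟩ 0 0)) (.pos 42 .mp ⟨38567035, 0, 0, 0, 0, 0, 0, 0, 0, ⟨0, 0⟩, 0⟩ 0 0))) (.cut .d (-131072) (.cut .l 796917 (.pos 39 .mp ⟨14006446, 0, 0, 0, 0, 37658912, 0, 0, 0, ⟨0, 0⟩, 0⟩ 0 0) (.cut .v 17039360 (.cut .v 16908288 (.pos 43 .mp ⟨0, 0, 0, 0, 0, 48887050, 0, 0, 0, ⟨0, 0⟩, 0⟩ 0 0) (.cut .s 8257536 (.cut .d (-196608) (.pos 44 .mp ⟨12803987, 0, 0, 0,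 0, 34964809, 0, 0, 0, ⟨0, 0⟩, 0⟩ 0 0) (.cut .s 8224768 (.pos 44 .mp ⟨14704156, 0, 0, 0, 0, 30792835, 0, 0, 0, ⟨0, 0⟩, 0⟩ 0 0) (.pos 44 .mp ⟨15204099, 0, 0, 0, 0, 31416074, 0, 0, 0, ⟨0, 0⟩, 0⟩ 0 0))) (.cut .d (-196608) (.pos 44 .mp ⟨13728218, 0, 0, 0, 0, 36455375, 0, 0, 0, ⟨0, 0⟩, 0⟩ 0 0) (.cut .s 8290304 (.pos 44 .mp ⟨15712627, 0, 0, 0, 0, 32055763, 0, 0, 0, ⟨0, 0⟩, 0⟩ 0 0) (.pos 44 .mp ⟨16229821, 0, 0, 0, 0, 32711828, 0, 0, 0, ⟨0, 0⟩, 0⟩ 0 0))))) (.cut .d (-196608) (.cut .s 8257536 (.pos 42 .mp ⟨17785062, 0, 0, 0, 0, 29425739, 0, 0, 0, ⟨0, 0⟩, 0⟩ 0 0) (.pos 42 .mp ⟨18484506, 0, 0, 0, 0, 31135873, 0, 0, 0, ⟨0, 0⟩, 0⟩ 0 0)) (.pos 42 .mp ⟨42915319, 0, 0, 0,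 0, 0, 0, 0, 0, ⟨0, 0⟩, 0⟩ 0 0)))) (.cut .l 796917 (.cut .v 17039360 (.cut .s 8257536 (.cut .v 16908288 (.cut .d (-65536) (.cut .s 8224768 (.pos 43 .mp ⟨12416330, 0, 0, 0, 0, 33374430, 0, 0, 0, ⟨0, 0⟩, 0⟩ 0 0) (.pos 43 .mp ⟨12781701, 0, 0, 0, 0, 34156289, 0, 0, 0, ⟨0, 0⟩, 0⟩ 0 0)) (.cut .d (-32768) (.cut .l 513801 (.cut .l 372243 (.cut .s 8224768 (.cut .s 8208384 (.pos 43 .mp ⟨13108320, 0, 0, 0, 0, 31721610, 0, 0, 0, ⟨0, 0⟩, 0⟩ 0 0) (.pos 43 .mp ⟨13302376, 0, 0, 0, 0, 32089346, 0, 0, 0, ⟨0, 0⟩, 0⟩ 0 0)) (.cut .s 8241152 (.pos 43 .mp ⟨13497961, 0, 0, 0, 0, 32460987, 0, 0, 0, ⟨0, 0⟩, 0⟩ 0 0) (.pos 43 .mp ⟨13695083, 0, 0, 0, 0, 32836479, 0, 0, 0, ⟨0, 0⟩, 0⟩ 0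 0))) (.pos 43 .mp ⟨13839567, 0, 0, 0, 0, 30087745, 0, 0, 0, ⟨0, 0⟩, 0⟩ 0 0)) (.pos 43 .mp ⟨0, 0, 0, 0, 0, 0, 0, 0, 0, ⟨0, 0⟩, 0⟩ 0 0)) (.pos 43 .mp ⟨13763004, 0, 0, 0, 0, 0, 0, 0, 0, ⟨0, 0⟩, 0⟩ 0 0))) (.pos 44 .mp ⟨26211291, 0, 0, 0, 0, 18633673, 0, 0, 0, ⟨0, 0⟩, 0⟩ 0 0)) (.cut .v 16908288 (.cut .d (-65536) (.cut .s 8290304 (.pos 43 .mp ⟨13166816, 0, 0, 0, 0, 34940612, 0, 0, 0, ⟨0, 0⟩, 0⟩ 0 0) (.pos 43 .mp ⟨13573157, 0, 0, 0, 0, 35725414, 0, 0, 0, ⟨0, 0⟩, 0⟩ 0 0)) (.cut .d (-32768) (.cut .l 513801 (.cut .l 372243 (.cut .d (-49152) (.pos 43 .mp ⟨13918797, 0, 0, 0, 0, 35088586, 0, 0, 0, ⟨0, 0⟩, 0⟩ 0 0) (.cut .s 8290304 (.pos 43 .mp ⟨14149062, 0, 0, 0, 0, 33011331,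 0, 0, 0, ⟨0, 0⟩, 0⟩ 0 0) (.pos 43 .mp ⟨14566352, 0, 0, 0, 0, 33759782, 0, 0, 0, ⟨0, 0⟩, 0⟩ 0 0))) (.pos 43 .mp ⟨14721034, 0, 0, 0, 0, 31417215, 0, 0, 0, ⟨0, 0⟩, 0⟩ 0 0)) (.pos 43 .mp ⟨0, 0, 0, 0, 0, 0, 0, 0, 0, ⟨0, 0⟩, 0⟩ 0 0)) (.pos 43 .mp ⟨14585561, 0, 0, 0, 0, 0, 0, 0, 0, ⟨0, 0⟩, 0⟩ 0 0))) (.pos 44 .mp ⟨27712205, 0, 0, 0, 0, 19295538, 0, 0, 0, ⟨0, 0⟩, 0⟩ 0 0))) (.pos 42 .mp ⟨46004761, 0, 0, 0, 0, 0, 0, 0, 0, ⟨0, 0⟩, 0⟩ 0 0)) (.pos 39 .mp ⟨15387759, 0, 0, 0, 0, 0, 0, 0, 0, ⟨0, 0⟩, 0⟩ 0 0)))) (.cut .s 8454144 (.cut .d (-131072) (.cut .l 796917 (.pos 39 .mp ⟨15387759, 0, 0, 0, 0, 53773794, 0, 0, 0, ⟨0, 0⟩, 0⟩ 0 0) (.cut .d (-196608) (.cut .d (-229376) (.void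 39 ⟨0, 0, 0, 0, 0, 100000, 0, 0, 0, ⟨0, 0⟩, 0⟩ 0 0) (.cut .s 8388608 (.cut .s 8355840 (.pos 39 .mp ⟨15180048, 0, 0, 0, 0, 37035078, 0, 0, 0, ⟨0, 0⟩, 0⟩ 0 0) (.pos 39 .mp ⟨15645060, 0, 0, 0, 0, 37890100, 0, 0, 0, ⟨0, 0⟩, 0⟩ 0 0)) (.pos 39 .mp ⟨15649688, 0, 0, 0, 0, 40844493, 0, 0, 0, ⟨0, 0⟩, 0⟩ 0 0))) (.cut .v 17039360 (.cut .v 16908288 (.pos 43 .mp ⟨0, 0, 0, 0, 0, 53732235, 0, 0, 0, ⟨0, 0⟩, 0⟩ 0 0) (.cut .s 8388608 (.cut .s 8355840 (.pos 44 .mp ⟨16755765, 0, 0, 0, 0, 33384192, 0, 0, 0, ⟨0, 0⟩, 0⟩ 0 0) (.pos 44 .mp ⟨17290542, 0, 0, 0, 0, 34072771, 0, 0, 0, ⟨0, 0⟩, 0⟩ 0 0)) (.cut .s 8421376 (.pos 44 .mp ⟨17834238, 0, 0, 0, 0, 34777479, 0, 0, 0, ⟨0, 0⟩, 0⟩ 0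 0) (.pos 44 .mp ⟨14834535, 0, 0, 0, 0, 40101465, 0, 0, 0, ⟨0, 0⟩, 0⟩ 0 0)))) (.pos 42 .mp ⟨47061063, 0, 0, 0, 0, 0, 0, 0, 0, ⟨0, 0⟩, 0⟩ 0 0)))) (.cut .l 796917 (.cut .v 17039360 (.cut .s 8388608 (.cut .v 16908288 (.cut .d (-65536) (.cut .s 8355840 (.pos 43 .mp ⟨14002207, 0, 0, 0, 0, 36508694, 0, 0, 0, ⟨0, 0⟩, 0⟩ 0 0) (.pos 43 .mp ⟨14455446, 0, 0, 0, 0, 37288433, 0, 0, 0, ⟨0, 0⟩, 0⟩ 0 0)) (.cut .d (-32768) (.cut .l 513801 (.cut .l 372243 (.cut .d (-49152) (.pos 43 .mp ⟨14647987, 0, 0, 0, 0, 36968733, 0, 0, 0, ⟨0, 0⟩, 0⟩ 0 0) (.cut .s 8355840 (.pos 43 .mp ⟨14983514, 0, 0, 0, 0, 34538919, 0, 0, 0, ⟨0, 0⟩, 0⟩ 0 0) (.pos 43 .mp ⟨15399923, 0, 0, 0, 0, 35349984,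 0, 0, 0, ⟨0, 0⟩, 0⟩ 0 0))) (.pos 43 .mp ⟨15625708, 0, 0, 0, 0, 32806900, 0, 0, 0, ⟨0, 0⟩, 0⟩ 0 0)) (.pos 43 .mp ⟨0, 0, 0, 0, 0, 0, 0, 0, 0, ⟨0, 0⟩, 0⟩ 0 0)) (.pos 43 .mp ⟨15433755, 0, 0, 0, 0, 0, 0, 0, 0, ⟨0, 0⟩, 0⟩ 0 0))) (.pos 44 .mp ⟨29372333, 0, 0, 0, 0, 19874854, 0, 0, 0, ⟨0, 0⟩, 0⟩ 0 0)) (.cut .v 16908288 (.cut .d (-65536) (.cut .s 8421376 (.pos 43 .mp ⟨14934353, 0, 0, 0, 0, 38062592, 0, 0, 0, ⟨0, 0⟩, 0⟩ 0 0) (.pos 43 .mp ⟨15440410, 0, 0, 0, 0, 38829118, 0, 0, 0, ⟨0, 0⟩, 0⟩ 0 0)) (.cut .d (-32768) (.cut .s 8421376 (.pos 43 .mp ⟨16401027, 0, 0, 0, 0, 35474405, 0, 0, 0, ⟨0, 0⟩, 0⟩ 0 0) (.pos 43 .mp ⟨16789668, 0, 0, 0, 0, 36381071, 0, 0, 0, ⟨0, 0⟩, 0⟩ 0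 0)) (.pos 43 .mp ⟨16308090, 0, 0, 0, 0, 0, 0, 0, 0, ⟨0, 0⟩, 0⟩ 0 0))) (.pos 44 .mp ⟨31218443, 0, 0, 0, 0, 20338938, 0, 0, 0, ⟨0, 0⟩, 0⟩ 0 0))) (.pos 42 .mp ⟨50208476, 0, 0, 0, 0, 0, 0, 0, 0, ⟨0, 0⟩, 0⟩ 0 0)) (.pos 39 .mp ⟨16354237, 0, 0, 0, 0, 32205844, 0, 0, 0, ⟨0, 0⟩, 0⟩ 0 0))) (.cut .d (-131072) (.cut .l 796917 (.void 39 ⟨0, 0, 0, 0, 0, 100000, 0, 0, 0, ⟨0, 0⟩, 0⟩ 0 0) (.cut .d (-196608) (.cut .s 8519680 (.pos 39 .mp ⟨16672893, 0, 0, 0, 0, 42794579, 0, 0, 0, ⟨0, 0⟩, 0⟩ 0 0) (.pos 39 .mp ⟨17729314, 0, 0, 0, 0, 44645613, 0, 0, 0, ⟨0, 0⟩, 0⟩ 0 0)) (.cut .v 17039360 (.cut .s 8519680 (.cut .s 8486912 (.pos 41 .mp ⟨15195480, 0, 0, 0, 0, 41094626, 0, 0, 0, ⟨0,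 0⟩, 0⟩ 0 0) (.pos 41 .mp ⟨15649887, 0, 0, 0, 0, 42010252, 0, 0, 0, ⟨0, 0⟩, 0⟩ 0 0)) (.pos 41 .mp ⟨16111255, 0, 0, 0, 0, 43582517, 0, 0, 0, ⟨0, 0⟩, 0⟩ 0 0)) (.pos 42 .mp ⟨51542856, 0, 0, 0, 0, 0, 0, 0, 0, ⟨0, 0⟩, 0⟩ 0 0)))) (.cut .l 796917 (.cut .v 17039360 (.cut .s 8519680 (.cut .v 16908288 (.cut .d (-65536) (.cut .s 8486912 (.pos 43 .mp ⟨15975094, 0, 0, 0, 0, 39585934, 0, 0, 0, ⟨0, 0⟩, 0⟩ 0 0) (.pos 43 .mp ⟨16539887, 0, 0, 0, 0, 40330949, 0, 0, 0, ⟨0, 0⟩, 0⟩ 0 0)) (.cut .d (-32768) (.cut .s 8486912 (.pos 43 .mp ⟨17162961, 0, 0, 0, 0, 37339360, 0, 0, 0, ⟨0, 0⟩, 0⟩ 0 0) (.pos 43 .mp ⟨17519049, 0, 0, 0, 0, 38352238, 0, 0, 0, ⟨0, 0⟩, 0⟩ 0 0)) (.pos 43 .mp ⟨17209089,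 0, 0, 0, 0, 0, 0, 0, 0, ⟨0, 0⟩, 0⟩ 0 0))) (.pos 44 .mp ⟨33277678, 0, 0, 0, 0, 20653971, 0, 0, 0, ⟨0, 0⟩, 0⟩ 0 0)) (.cut .v 16908288 (.cut .d (-65536) (.cut .s 8552448 (.pos 43 .mp ⟨17136270, 0, 0, 0, 0, 41062048, 0, 0, 0, ⟨0, 0⟩, 0⟩ 0 0) (.pos 43 .mp ⟨16772106, 0, 0, 0, 0, 43297833, 0, 0, 0, ⟨0, 0⟩, 0⟩ 0 0)) (.cut .d (-32768) (.cut .s 8552448 (.pos 43 .mp ⟨17856011, 0, 0, 0, 0, 39422779, 0, 0, 0, ⟨0, 0⟩, 0⟩ 0 0) (.pos 43 .mp ⟨18171863, 0, 0, 0, 0, 40554175, 0, 0, 0, ⟨0, 0⟩, 0⟩ 0 0)) (.pos 43 .mp ⟨18137293, 0, 0, 0, 0, 0, 0, 0, 0, ⟨0, 0⟩, 0⟩ 0 0))) (.pos 44 .mp ⟨35577583, 0, 0, 0, 0, 20784951, 0, 0, 0, ⟨0, 0⟩, 0⟩ 0 0))) (.pos 42 .mp ⟨54651654, 0, 0, 0, 0, 0,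 0, 0, 0, ⟨0, 0⟩, 0⟩ 0 0)) (.pos 39 .mp ⟨18454754, 0, 0, 0, 0, 34937214, 0, 0, 0, ⟨0, 0⟩, 0⟩ 0 0))))) (.pos 40 .mp ⟨50474027, 0, 0, 0, 0, 0, 0, 0, 0, ⟨0, 0⟩, 0⟩ 0 0)) (.pos 38 .mp ⟨54454616, 0, 0, 0, 0, 0, 0, 0, 0, ⟨0, 0⟩, 0⟩ 0 0)) (.void 36 ⟨100000, 0, 0, 0, 0, 0, 0, 0, 0, ⟨0, 0⟩, 0⟩ 0 0))))))) (.void 34 ⟨100000, 0, 0, 0, 0, 0, 0, 0, 0, ⟨0, 0⟩, 0⟩ 0 0))) (.void 32 ⟨100000, 0, 0, 0, 0, 0, 0, 0, 0, ⟨0, 0⟩, 0⟩ 0 0)) (.void 63 ⟨100000, 0, 0, 0, 0, 0, 0, 0, 0, ⟨0, 0⟩, 0⟩ 0 0)) (.void 74 ⟨100000, 0, 0, 0, 0, 0, 0, 0, 0, ⟨0, 0⟩, 0⟩ 0 0))) (.cut .v 16777216 (.cut .v 8388608 (.cut .v 4194304 (.void 4 ⟨0, 0, 32105, 0, 0, 0, 0, 0, 67895, ⟨0, 0⟩, 3966728⟩ 0 0) (.pos 5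 .pm ⟨0, 0, 0, 0, 0, 0, 0, 0, 2743921, ⟨0, 0⟩, 9975792⟩ 0 0)) (.cut .d 9070610 (.pos 3 .pm ⟨0, 0, 0, 0, 0, 0, 0, 0, 0, ⟨0, 0⟩, 0⟩ 0 0) (.cut .d 13605915 (.pos 3 .pm ⟨0, 0, 0, 0, 0, 0, 0, 2271778, 4813394, ⟨5167604, 8186⟩, 14107901⟩ 189 283) (.pos 3 .pm ⟨0, 53778398, 0, 0, 0, 0, 0, 0, 10189017, ⟨0, 0⟩, 14107901⟩ 0 0)))) (.cut .v 67108864 (.cut .d 9070610 (.cut .d 4535305 (.cut .v 33554432 (.cut .v 25165824 (.cut .v 20971520 (.pos 33 .pp ⟨20063284, 0, 0, 0, 0, 0, 0, 0, 0, ⟨0, 0⟩, 0⟩ 0 0) (.pos 34 .pp ⟨37305955, 0, 0, 0, 0, 0, 0, 0, 0, ⟨0, 0⟩, 0⟩ 0 0)) (.pos 32 .pp ⟨58336435, 0, 0, 0, 0, 0, 0, 0, 0, ⟨0, 0⟩, 0⟩ 0 0)) (.cut .d 2267652 (.pos 63 .pp ⟨343724634, 0,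 0, 0, 0, 0, 0, 0, 0, ⟨0, 0⟩, 0⟩ 0 0) (.pos 63 .pp ⟨81610132, 0, 0, 0, 0, 0, 3934005, 0, 0, ⟨0, 0⟩, 0⟩ 0 0))) (.pos 62 .pp ⟨0, 0, 0, 0, 0, 0, 3211449, 0, 0, ⟨0, 0⟩, 0⟩ 0 0)) (.cut .v 33554432 (.cut .d 13605915 (.pos 30 .pp ⟨0, 17570652, 0, 0, 0, 0, 0, 16290312, 0, ⟨5167604, 8186⟩, 0⟩ 189 283) (.cut .d 15873567 (.pos 30 .pp ⟨0, 46187961, 0, 0, 0, 0, 0, 7606060, 1377650, ⟨5175199, 0⟩, 19951585⟩ 253 348) (.void 30 ⟨0, 90945, 0, 0, 0, 0, 0, 0, 9055, ⟨0, 0⟩, 19951585⟩ 0 0))) (.pos 63 .pp ⟨0, 42779300, 0, 0, 0, 0, 3211449, 0, 0, ⟨0, 0⟩, 0⟩ 0 0))) (.cut .v 134217728 (.cut .d 9070610 (.cut .d 4535305 (.cut .d 2267652 (.void 75 ⟨100000, 0, 0, 0, 0, 0, 0, 0, 0, ⟨0, 0⟩,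 0⟩ 0 0) (.pos 75 .pp ⟨389310763, 0, 0, 0, 0, 0, 400260467, 0, 0, ⟨0, 0⟩, 0⟩ 0 0)) (.pos 75 .pp ⟨0, 0, 0, 0, 0, 0, 182804853, 0, 0, ⟨0, 0⟩, 0⟩ 0 0)) (.void 75 ⟨0, 100000, 0, 0, 0, 0, 0, 0, 0, ⟨0, 0⟩, 0⟩ 0 0)) (.void 76 ⟨0, 0, 0, 0, 0, 0, 100000, 0, 0, ⟨0, 0⟩, 0⟩ 0 0))))),
    by decide +kernel⟩

def covers10 : cell.Covers table row10.1 :=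
  ⟨(.cut .d 0 (.cut .v 16777216 (.cut .d (-8388608) (.void 1 ⟨0, 0, 0, 0, 0, 100000, 0, 0, 0, ⟨0, 0⟩, 0⟩ 0 0) (.cut .d (-4194304) (.void 1 ⟨0, 0, 0, 0, 0, 100000, 0, 0, 0, ⟨0, 0⟩, 0⟩ 0 0) (.cut .d (-2097152) (.void 1 ⟨0, 0, 0, 0, 0, 100000, 0, 0, 0, ⟨0, 0⟩, 0⟩ 0 0) (.cut .d (-1048576) (.void 1 ⟨0, 0, 0, 0, 0, 100000, 0, 0, 0, ⟨0, 0⟩, 0⟩ 0 0) (.cut .d (-524288) (.void 1 ⟨0, 0, 0, 0, 0, 100000, 0, 0, 0, ⟨0, 0⟩, 0⟩ 0 0) (.cut .d (-262144) (.void 1 ⟨0, 0, 0, 0, 0, 100000, 0, 0, 0, ⟨0, 0⟩, 0⟩ 0 0) (.cut .v 8388608 (.cut .v 4194304 (.void 4 ⟨0, 0, 100000, 0, 0, 0, 0, 0, 0, ⟨0, 0⟩, 0⟩ 0 0) (.pos 5 .mm ⟨0, 0, 0, 0, 0, 33400432, 0, 0, 0, ⟨0, 0⟩, 0⟩ 0 0)) (.cut .v 12582912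 (.pos 8 .mm ⟨0, 0, 0, 0, 0, 45200271, 0, 0, 0, ⟨0, 0⟩, 0⟩ 0 0) (.cut .v 14680064 (.pos 12 .mm ⟨0, 0, 0, 0, 0, 58367098, 0, 0, 0, ⟨0, 0⟩, 0⟩ 0 0) (.cut .v 15728640 (.pos 16 .mm ⟨0, 0, 0, 0, 0, 65657469, 0, 0, 0, ⟨0, 0⟩, 0⟩ 0 0) (.cut .v 16252928 (.pos 20 .mm ⟨0, 0, 0, 0, 0, 69648549, 0, 0, 0, ⟨0, 0⟩, 0⟩ 0 0) (.cut .s 8814592 (.cut .s 8699904 (.pos 21 .mm ⟨0, 0, 0, 0, 0, 63984859, 0, 0, 0, ⟨0, 0⟩, 0⟩ 0 0) (.pos 21 .mm ⟨0, 0, 0, 0, 0, 69513026, 0, 0, 0, ⟨0, 0⟩, 0⟩ 0 0)) (.cut .d (-131072) (.pos 21 .mm ⟨0, 0, 0, 0, 0, 83057705, 0, 0, 0, ⟨0, 0⟩, 0⟩ 0 0) (.cut .s 8929280 (.pos 21 .mm ⟨0, 0, 0, 0, 0, 73950947, 0, 0, 0, ⟨0, 0⟩, 0⟩ 0 0) (.pos 21 .mm ⟨0, 0, 0, 0, 0,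 80090599, 0, 0, 0, ⟨0, 0⟩, 0⟩ 0 0))))))))))))))) (.cut .v 67108864 (.cut .v 33554432 (.cut .v 25165824 (.cut .d (-8388608) (.void 31 ⟨0, 0, 0, 0, 0, 100000, 0, 0, 0, ⟨0, 0⟩, 0⟩ 0 0) (.cut .v 20971520 (.cut .d (-4194304) (.void 33 ⟨0, 0, 0, 0, 0, 100000, 0, 0, 0, ⟨0, 0⟩, 0⟩ 0 0) (.cut .d (-2097152) (.void 33 ⟨0, 0, 0, 0, 0, 100000, 0, 0, 0, ⟨0, 0⟩, 0⟩ 0 0) (.cut .d (-1048576) (.void 33 ⟨0, 0, 0, 0, 0, 100000, 0, 0, 0, ⟨0, 0⟩, 0⟩ 0 0) (.cut .d (-524288) (.void 33 ⟨0, 0, 0, 0, 0, 100000, 0, 0, 0, ⟨0, 0⟩, 0⟩ 0 0) (.cut .d (-262144) (.void 33 ⟨0, 0, 0, 0, 0, 100000, 0, 0, 0, ⟨0, 0⟩, 0⟩ 0 0) (.cut .v 18874368 (.cut .v 17825792 (.cut .v 17301504 (.cut .s 8814592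 (.cut .d (-131072) (.cut .l 796917 (.void 39 ⟨0, 0, 0, 0, 0, 100000, 0, 0, 0, ⟨0, 0⟩, 0⟩ 0 0) (.cut .d (-196608) (.cut .s 8699904 (.pos 39 .mp ⟨19903536, 0, 0, 0, 0, 48143114, 0, 0, 0, ⟨0, 0⟩, 0⟩ 0 0) (.pos 39 .mp ⟨22026248, 0, 0, 0, 0, 51610813, 0, 0, 0, ⟨0, 0⟩, 0⟩ 0 0)) (.cut .v 17039360 (.cut .s 8699904 (.cut .s 8642560 (.pos 41 .mp ⟨17055146, 0, 0, 0, 0, 45707413, 0, 0, 0, ⟨0, 0⟩, 0⟩ 0 0) (.pos 41 .mp ⟨17930816, 0, 0, 0, 0, 47261111, 0, 0, 0, ⟨0, 0⟩, 0⟩ 0 0)) (.cut .v 16908288 (.pos 43 .mp ⟨0, 0, 0, 0, 0, 71697951, 0, 0, 0, ⟨0, 0⟩, 0⟩ 0 0) (.cut .s 8757248 (.cut .s 8728576 (.pos 44 .mp ⟨18933140, 0, 0, 0, 0, 47951022, 0, 0, 0, ⟨0, 0⟩, 0⟩ 0 0) (.pos 44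 .mp ⟨19392566, 0, 0, 0, 0, 48777867, 0, 0, 0, ⟨0, 0⟩, 0⟩ 0 0)) (.cut .s 8785920 (.pos 44 .mp ⟨19857732, 0, 0, 0, 0, 49624910, 0, 0, 0, ⟨0, 0⟩, 0⟩ 0 0) (.pos 44 .mp ⟨20328835, 0, 0, 0, 0, 50491932, 0, 0, 0, ⟨0, 0⟩, 0⟩ 0 0))))) (.pos 42 .mp ⟨61082656, 0, 0, 0, 0, 0, 0, 0, 0, ⟨0, 0⟩, 0⟩ 0 0)))) (.cut .v 17039360 (.cut .l 796917 (.cut .s 8699904 (.cut .d (-65536) (.cut .l 513801 (.pos 41 .mp ⟨18355135, 0, 0, 0, 0, 48023219, 0, 0, 0, ⟨0, 0⟩, 0⟩ 0 0) (.cut .s 8642560 (.pos 41 .mp ⟨20765917, 0, 0, 0, 0, 39551846, 0, 0, 0, ⟨0, 0⟩, 0⟩ 0 0) (.cut .s 8671232 (.pos 41 .mp ⟨21275142, 0, 0, 0, 0, 40825869, 0, 0, 0, ⟨0, 0⟩, 0⟩ 0 0) (.pos 41 .mp ⟨21791239, 0, 0, 0, 0, 41494627,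 0, 0, 0, ⟨0, 0⟩, 0⟩ 0 0)))) (.cut .d (-32768) (.cut .v 16908288 (.cut .l 513801 (.cut .l 372243 (.cut .s 8642560 (.pos 43 .mp ⟨17812399, 0, 0, 0, 0, 43685123, 0, 0, 0, ⟨0, 0⟩, 0⟩ 0 0) (.cut .s 8671232 (.pos 43 .mp ⟨19125949, 0, 0, 0, 0, 43576477, 0, 0, 0, ⟨0, 0⟩, 0⟩ 0 0) (.pos 43 .mp ⟨19485493, 0, 0, 0, 0, 44469573, 0, 0, 0, ⟨0, 0⟩, 0⟩ 0 0))) (.pos 43 .mp ⟨20285052, 0, 0, 0, 0, 39501411, 0, 0, 0, ⟨0, 0⟩, 0⟩ 0 0)) (.pos 43 .mp ⟨0, 0, 0, 0, 0, 0, 0, 0, 0, ⟨0, 0⟩, 0⟩ 0 0)) (.pos 44 .mp ⟨54093226, 0, 0, 0, 0, 0, 0, 0, 0, ⟨0, 0⟩, 0⟩ 0 0)) (.pos 41 .mp ⟨19972476, 0, 0, 0, 0, 0, 0, 0, 0, ⟨0, 0⟩, 0⟩ 0 0))) (.cut .d (-65536) (.cut .s 8757248 (.cut .v 16908288 (.cut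 .s 8728576 (.pos 43 .mp ⟨18863394, 0, 0, 0, 0, 47395441, 0, 0, 0, ⟨0, 0⟩, 0⟩ 0 0) (.pos 43 .mp ⟨19287165, 0, 0, 0, 0, 48214295, 0, 0, 0, ⟨0, 0⟩, 0⟩ 0 0)) (.pos 44 .mp ⟨32549302, 0, 0, 0, 0, 32183794, 0, 0, 0, ⟨0, 0⟩, 0⟩ 0 0)) (.cut .v 16908288 (.cut .s 8785920 (.pos 43 .mp ⟨19716065, 0, 0, 0, 0, 49057431, 0, 0, 0, ⟨0, 0⟩, 0⟩ 0 0) (.pos 43 .mp ⟨20150143, 0, 0, 0, 0, 49925171, 0, 0, 0, ⟨0, 0⟩, 0⟩ 0 0)) (.pos 44 .mp ⟨33397602, 0, 0, 0, 0, 33863664, 0, 0, 0, ⟨0, 0⟩, 0⟩ 0 0))) (.cut .d (-32768) (.cut .l 513801 (.cut .v 16908288 (.cut .s 8757248 (.cut .s 8728576 (.pos 43 .mp ⟨21080123, 0, 0, 0, 0, 43442323, 0, 0, 0, ⟨0, 0⟩, 0⟩ 0 0) (.pos 43 .mp ⟨21694801, 0, 0,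 0, 0, 43985059, 0, 0, 0, ⟨0, 0⟩, 0⟩ 0 0)) (.cut .l 372243 (.cut .s 8785920 (.pos 43 .mp ⟨20630523, 0, 0, 0, 0, 47207562, 0, 0, 0, ⟨0, 0⟩, 0⟩ 0 0) (.pos 43 .mp ⟨21035950, 0, 0, 0, 0, 48136948, 0, 0, 0, ⟨0, 0⟩, 0⟩ 0 0)) (.pos 43 .mp ⟨22167185, 0, 0, 0, 0, 44302435, 0, 0, 0, ⟨0, 0⟩, 0⟩ 0 0))) (.pos 44 .mp ⟨59750925, 0, 0, 0, 0, 0, 0, 0, 0, ⟨0, 0⟩, 0⟩ 0 0)) (.pos 41 .mp ⟨21724178, 0, 0, 0, 0, 0, 0, 0, 0, ⟨0, 0⟩, 0⟩ 0 0)) (.pos 41 .mp ⟨21705840, 0, 0, 0, 0, 37189148, 0, 0, 0, ⟨0, 0⟩, 0⟩ 0 0)))) (.cut .s 8699904 (.pos 41 .mp ⟨20803348, 0, 0, 0, 0, 38117328, 0, 0, 0, ⟨0, 0⟩, 0⟩ 0 0) (.cut .s 8757248 (.pos 41 .mp ⟨21804268, 0, 0, 0, 0, 41729855, 0, 0, 0, ⟨0, 0⟩, 0⟩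 0 0) (.pos 41 .mp ⟨22834892, 0, 0, 0, 0, 43223616, 0, 0, 0, ⟨0, 0⟩, 0⟩ 0 0)))) (.pos 42 .mp ⟨57997647, 0, 0, 0, 0, 0, 0, 0, 0, ⟨0, 0⟩, 0⟩ 0 0))) (.cut .d (-131072) (.cut .d (-196608) (.void 39 ⟨0, 0, 0, 0, 0, 100000, 0, 0, 0, ⟨0, 0⟩, 0⟩ 0 0) (.cut .v 17039360 (.cut .l 796917 (.void 41 ⟨0, 0, 0, 0, 0, 100000, 0, 0, 0, ⟨0, 0⟩, 0⟩ 0 0) (.cut .s 8929280 (.cut .v 16908288 (.pos 43 .mp ⟨0, 0, 0, 0, 0, 77619311, 0, 0, 0, ⟨0, 0⟩, 0⟩ 0 0) (.cut .s 8871936 (.cut .s 8843264 (.pos 44 .mp ⟨20812485, 0, 0, 0, 0, 51370169, 0, 0, 0, ⟨0, 0⟩, 0⟩ 0 0) (.pos 44 .mp ⟨21302115, 0, 0, 0, 0, 52268367, 0, 0, 0, ⟨0, 0⟩, 0⟩ 0 0)) (.cut .s 8900608 (.pos 44 .mp ⟨21797781, 0, 0, 0, 0,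 53186486, 0, 0, 0, ⟨0, 0⟩, 0⟩ 0 0) (.pos 44 .mp ⟨22299541, 0, 0, 0, 0, 54124482, 0, 0, 0, ⟨0, 0⟩, 0⟩ 0 0)))) (.cut .v 16908288 (.pos 43 .mp ⟨0, 0, 0, 0, 0, 84079464, 0, 0, 0, ⟨0, 0⟩, 0⟩ 0 0) (.cut .s 8986624 (.cut .s 8957952 (.pos 44 .mp ⟨22807454, 0, 0, 0, 0, 55082311, 0, 0, 0, ⟨0, 0⟩, 0⟩ 0 0) (.pos 44 .mp ⟨23321579, 0, 0, 0, 0, 56059924, 0, 0, 0, ⟨0, 0⟩, 0⟩ 0 0)) (.cut .s 9015296 (.pos 44 .mp ⟨23841976, 0, 0, 0, 0, 57057270, 0, 0, 0, ⟨0, 0⟩, 0⟩ 0 0) (.pos 44 .mp ⟨24368707, 0, 0, 0, 0, 58074295, 0, 0, 0, ⟨0, 0⟩, 0⟩ 0 0)))))) (.pos 42 .mp ⟨70107303, 0, 0, 0, 0, 0, 0, 0, 0, ⟨0, 0⟩, 0⟩ 0 0))) (.cut .v 17039360 (.cut .s 8929280 (.cut .l 796917 (.cut .d (-65536)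 (.cut .l 513801 (.cut .s 8871936 (.pos 41 .mp ⟨21886966, 0, 0, 0, 0, 52126792, 0, 0, 0, ⟨0, 0⟩, 0⟩ 0 0) (.pos 41 .mp ⟨22842930, 0, 0, 0, 0, 54031901, 0, 0, 0, ⟨0, 0⟩, 0⟩ 0 0)) (.cut .d (-98304) (.cut .s 8871936 (.pos 41 .mp ⟨21746637, 0, 0, 0, 0, 51768981, 0, 0, 0, ⟨0, 0⟩, 0⟩ 0 0) (.pos 41 .mp ⟨22735448, 0, 0, 0, 0, 53621708, 0, 0, 0, ⟨0, 0⟩, 0⟩ 0 0)) (.cut .d (-81920) (.cut .s 8871936 (.pos 41 .mp ⟨23837513, 0, 0, 0, 0, 46227952, 0, 0, 0, ⟨0, 0⟩, 0⟩ 0 0) (.pos 41 .mp ⟨24886385, 0, 0, 0, 0, 47870588, 0, 0, 0, ⟨0, 0⟩, 0⟩ 0 0)) (.pos 41 .mp ⟨24283879, 0, 0, 0, 0, 45128273, 0, 0, 0, ⟨0, 0⟩, 0⟩ 0 0)))) (.cut .v 16908288 (.cut .l 513801 (.cut .d (-32768) (.cut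 .s 8871936 (.cut .l 372243 (.cut .d (-49152) (.pos 43 .mp ⟨21651729, 0, 0, 0, 0, 51782776, 0, 0, 0, ⟨0, 0⟩, 0⟩ 0 0) (.cut .s 8843264 (.pos 43 .mp ⟨22524566, 0, 0, 0, 0, 47083372, 0, 0, 0, ⟨0, 0⟩, 0⟩ 0 0) (.pos 43 .mp ⟨23027364, 0, 0, 0, 0, 47892021, 0, 0, 0, ⟨0, 0⟩, 0⟩ 0 0))) (.pos 43 .mp ⟨23135044, 0, 0, 0, 0, 45956022, 0, 0, 0, ⟨0, 0⟩, 0⟩ 0 0)) (.cut .l 372243 (.cut .d (-49152) (.pos 43 .mp ⟨22574038, 0, 0, 0, 0, 53706063, 0, 0, 0, ⟨0, 0⟩, 0⟩ 0 0) (.cut .s 8900608 (.pos 43 .mp ⟨23526512, 0, 0, 0, 0, 48737100, 0, 0, 0, ⟨0, 0⟩, 0⟩ 0 0) (.pos 43 .mp ⟨24021331, 0, 0, 0, 0, 49619963, 0, 0, 0, ⟨0, 0⟩, 0⟩ 0 0))) (.pos 43 .mp ⟨24124144, 0, 0, 0, 0, 47664506, 0,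 0, 0, ⟨0, 0⟩, 0⟩ 0 0))) (.cut .s 8871936 (.pos 43 .mp ⟨22423965, 0, 0, 0, 0, 45521585, 0, 0, 0, ⟨0, 0⟩, 0⟩ 0 0) (.cut .s 8900608 (.pos 43 .mp ⟨22950159, 0, 0, 0, 0, 47679496, 0, 0, 0, ⟨0, 0⟩, 0⟩ 0 0) (.pos 43 .mp ⟨23424787, 0, 0, 0, 0, 48564931, 0, 0, 0, ⟨0, 0⟩, 0⟩ 0 0)))) (.pos 43 .mp ⟨23555134, 0, 0, 0, 0, 0, 0, 0, 0, ⟨0, 0⟩, 0⟩ 0 0)) (.pos 44 .mp ⟨62061581, 0, 0, 0, 0, 0, 0, 0, 0, ⟨0, 0⟩, 0⟩ 0 0))) (.cut .s 8871936 (.pos 41 .mp ⟨23879490, 0, 0, 0, 0, 44785283, 0, 0, 0, ⟨0, 0⟩, 0⟩ 0 0) (.pos 41 .mp ⟨24950281, 0, 0, 0, 0, 46395590, 0, 0, 0, ⟨0, 0⟩, 0⟩ 0 0))) (.cut .l 796917 (.cut .d (-65536) (.cut .l 513801 (.pos 41 .mp ⟨23854068, 0, 0, 0, 0, 59420211, 0,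 0, 0, ⟨0, 0⟩, 0⟩ 0 0) (.cut .d (-98304) (.pos 41 .mp ⟨23744460, 0, 0, 0, 0, 58397591, 0, 0, 0, ⟨0, 0⟩, 0⟩ 0 0) (.cut .v 16908288 (.cut .s 8986624 (.pos 43 .mp ⟨22420953, 0, 0, 0, 0, 54517029, 0, 0, 0, ⟨0, 0⟩, 0⟩ 0 0) (.pos 43 .mp ⟨23372943, 0, 0, 0, 0, 56535178, 0, 0, 0, ⟨0, 0⟩, 0⟩ 0 0)) (.pos 44 .mp ⟨45919222, 0, 0, 0, 0, 27828931, 0, 0, 0, ⟨0, 0⟩, 0⟩ 0 0)))) (.cut .v 16908288 (.cut .l 513801 (.cut .d (-32768) (.cut .s 8986624 (.cut .l 372243 (.cut .s 8957952 (.cut .s 8943616 (.pos 43 .mp ⟨23628580, 0, 0, 0, 0, 51750080, 0, 0, 0, ⟨0, 0⟩, 0⟩ 0 0) (.pos 43 .mp ⟨23873576, 0, 0, 0, 0, 52220405, 0, 0, 0, ⟨0, 0⟩, 0⟩ 0 0)) (.pos 43 .mp ⟨23751681, 0, 0, 0, 0, 53828562,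 0, 0, 0, ⟨0, 0⟩, 0⟩ 0 0)) (.pos 43 .mp ⟨24475387, 0, 0, 0, 0, 50587993, 0, 0, 0, ⟨0, 0⟩, 0⟩ 0 0)) (.cut .l 372243 (.cut .s 9015296 (.pos 43 .mp ⟨24255995, 0, 0, 0, 0, 54788259, 0, 0, 0, ⟨0, 0⟩, 0⟩ 0 0) (.pos 43 .mp ⟨24776361, 0, 0, 0, 0, 55748783, 0, 0, 0, ⟨0, 0⟩, 0⟩ 0 0)) (.pos 43 .mp ⟨25368571, 0, 0, 0, 0, 52644117, 0, 0, 0, ⟨0, 0⟩, 0⟩ 0 0))) (.cut .s 8986624 (.cut .s 8957952 (.pos 43 .mp ⟨23904912, 0, 0, 0, 0, 49463258, 0, 0, 0, ⟨0, 0⟩, 0⟩ 0 0) (.pos 43 .mp ⟨24390592, 0, 0, 0, 0, 50374149, 0, 0, 0, ⟨0, 0⟩, 0⟩ 0 0)) (.pos 43 .mp ⟨25309578, 0, 0, 0, 0, 50839540, 0, 0, 0, ⟨0, 0⟩, 0⟩ 0 0))) (.pos 43 .mp ⟨25565624, 0, 0, 0, 0, 0, 0, 0, 0, ⟨0, 0⟩, 0⟩ 0 0)) (.pos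 44 .mp ⟨66563002, 0, 0, 0, 0, 0, 0, 0, 0, ⟨0, 0⟩, 0⟩ 0 0))) (.cut .s 8986624 (.cut .s 8957952 (.pos 41 .mp ⟨25496006, 0, 0, 0, 0, 48511436, 0, 0, 0, ⟨0, 0⟩, 0⟩ 0 0) (.pos 41 .mp ⟨26048707, 0, 0, 0, 0, 49362663, 0, 0, 0, ⟨0, 0⟩, 0⟩ 0 0)) (.pos 41 .mp ⟨27175304, 0, 0, 0, 0, 49746993, 0, 0, 0, ⟨0, 0⟩, 0⟩ 0 0)))) (.pos 42 .mp ⟨66623855, 0, 0, 0, 0, 0, 0, 0, 0, ⟨0, 0⟩, 0⟩ 0 0)))) (.pos 40 .mp ⟨69541456, 0, 0, 0, 0, 0, 0, 0, 0, ⟨0, 0⟩, 0⟩ 0 0)) (.pos 38 .mp ⟨75101291, 0, 0, 0, 0, 0, 0, 0, 0, ⟨0, 0⟩, 0⟩ 0 0)) (.void 36 ⟨100000, 0, 0, 0, 0, 0, 0, 0, 0, ⟨0, 0⟩, 0⟩ 0 0))))))) (.void 34 ⟨100000, 0, 0, 0, 0, 0, 0, 0, 0, ⟨0, 0⟩, 0⟩ 0 0))) (.void 32 ⟨100000, 0, 0, 0, 0,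 0, 0, 0, 0, ⟨0, 0⟩, 0⟩ 0 0)) (.void 63 ⟨100000, 0, 0, 0, 0, 0, 0, 0, 0, ⟨0, 0⟩, 0⟩ 0 0)) (.void 74 ⟨100000, 0, 0, 0, 0, 0, 0, 0, 0, ⟨0, 0⟩, 0⟩ 0 0))) (.cut .v 16777216 (.cut .v 8388608 (.cut .v 4194304 (.pos 4 .pm ⟨0, 0, 78034986, 0, 0, 0, 0, 0, 152512187, ⟨0, 0⟩, 3966728⟩ 0 0) (.cut .d 8004398 (.pos 5 .pm ⟨0, 0, 0, 0, 0, 0, 0, 0, 0, ⟨0, 0⟩, 0⟩ 0 0) (.pos 5 .pm ⟨0, 0, 0, 0, 0, 0, 0, 0, 23355367, ⟨0, 0⟩, 9975792⟩ 0 0))) (.cut .d 8004398 (.pos 3 .pm ⟨0, 0, 0, 0, 0, 0, 0, 0, 0, ⟨0, 0⟩, 0⟩ 0 0) (.cut .d 12006597 (.pos 3 .pm ⟨0, 0, 0, 0, 0, 0, 0, 4771865, 3658929, ⟨5170269, 5325⟩, 14107901⟩ 195 282) (.cut .d 14007696 (.cut .v 12582912 (.pos 8 .pm ⟨0, 48558014,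 0, 0, 0, 0, 0, 0, 6348811, ⟨0, 0⟩, 13128881⟩ 0 0) (.cut .d 13007146 (.pos 9 .pm ⟨0, 39562221, 0, 0, 0, 0, 0, 11753594, 188589, ⟨5175199, 0⟩, 15612959⟩ 257 308) (.pos 9 .pm ⟨0, 62891891, 0, 0, 0, 0, 0, 2240620, 4375488, ⟨5175199, 0⟩, 15612959⟩ 273 341))) (.void 3 ⟨0, 92833, 0, 0, 0, 0, 0, 0, 7167, ⟨0, 0⟩, 14107901⟩ 0 0))))) (.cut .v 67108864 (.cut .d 8004398 (.cut .d 4002199 (.cut .v 33554432 (.cut .v 25165824 (.cut .v 20971520 (.pos 33 .pp ⟨30111289, 0, 0, 0, 0, 0, 0, 0, 0, ⟨0, 0⟩, 0⟩ 0 0) (.pos 34 .pp ⟨54610455, 0, 0, 0, 0, 0, 0, 0, 0, ⟨0, 0⟩, 0⟩ 0 0)) (.pos 32 .pp ⟨86636658, 0, 0, 0, 0, 0, 0, 0, 0, ⟨0, 0⟩, 0⟩ 0 0)) (.cut .d 2001099 (.pos 63 .pp ⟨470971010,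 0, 0, 0, 0, 0, 0, 0, 0, ⟨0, 0⟩, 0⟩ 0 0) (.pos 63 .pp ⟨135561573, 0, 0, 0, 0, 0, 3324258, 0, 0, ⟨0, 0⟩, 0⟩ 0 0))) (.pos 62 .pp ⟨0, 0, 0, 0, 0, 0, 2684295, 0, 0, ⟨0, 0⟩, 0⟩ 0 0)) (.cut .d 12006597 (.pos 62 .pp ⟨0, 0, 0, 0, 0, 0, 0, 20496972, 0, ⟨5170269, 5325⟩, 0⟩ 195 282) (.cut .d 14007696 (.pos 62 .pp ⟨0, 54281538, 0, 0, 0, 0, 0, 16290926, 0, ⟨5175199, 0⟩, 0⟩ 257 341) (.void 62 ⟨0, 100000, 0, 0, 0, 0, 0, 0, 0, ⟨0, 0⟩, 0⟩ 0 0)))) (.cut .v 134217728 (.cut .d 8004398 (.cut .d 4002199 (.cut .v 100663296 (.cut .v 83886080 (.pos 81 .pp ⟨825840639, 0, 0, 0, 0, 0, 0, 0, 0, ⟨0, 0⟩, 0⟩ 0 0) (.pos 82 .pp ⟨1497437030, 677735160, 0, 0, 0, 0, 0, 0, 0, ⟨0, 0⟩, 0⟩ 0 0)) (.void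 78 ⟨45316, 54684, 0, 0, 0, 0, 0, 0, 0, ⟨0, 0⟩, 0⟩ 0 0)) (.pos 75 .pp ⟨0, 55921035, 0, 0, 0, 0, 144592812, 0, 0, ⟨0, 0⟩, 0⟩ 0 0)) (.void 75 ⟨0, 100000, 0, 0, 0, 0, 0, 0, 0, ⟨0, 0⟩, 0⟩ 0 0)) (.void 76 ⟨0, 0, 0, 0, 0, 0, 100000, 0, 0, ⟨0, 0⟩, 0⟩ 0 0))))),
    by decide +kernel⟩

def covers11 : cell.Covers table row11.1 :=
  ⟨(.cut .d 0 (.cut .v 16777216 (.cut .d (-8388608) (.void 1 ⟨0, 0, 0, 0, 0, 100000, 0, 0, 0, ⟨0, 0⟩, 0⟩ 0 0) (.cut .d (-4194304) (.void 1 ⟨0, 0, 0, 0, 0, 100000, 0, 0, 0, ⟨0, 0⟩, 0⟩ 0 0) (.cut .d (-2097152) (.void 1 ⟨0, 0, 0, 0, 0, 100000, 0, 0, 0, ⟨0, 0⟩, 0⟩ 0 0) (.cut .d (-1048576) (.void 1 ⟨0, 0, 0, 0, 0, 100000, 0, 0, 0, ⟨0, 0⟩, 0⟩ 0 0)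 (.cut .d (-524288) (.void 1 ⟨0, 0, 0, 0, 0, 100000, 0, 0, 0, ⟨0, 0⟩, 0⟩ 0 0) (.cut .d (-262144) (.void 1 ⟨0, 0, 0, 0, 0, 100000, 0, 0, 0, ⟨0, 0⟩, 0⟩ 0 0) (.cut .v 8388608 (.cut .v 4194304 (.void 4 ⟨0, 0, 100000, 0, 0, 0, 0, 0, 0, ⟨0, 0⟩, 0⟩ 0 0) (.pos 5 .mm ⟨0, 0, 0, 0, 0, 45911814, 0, 0, 0, ⟨0, 0⟩, 0⟩ 0 0)) (.cut .v 12582912 (.pos 8 .mm ⟨0, 0, 0, 0, 0, 65761224, 0, 0, 0, ⟨0, 0⟩, 0⟩ 0 0) (.cut .v 14680064 (.pos 12 .mm ⟨0, 0, 0, 0, 0, 82957237, 0, 0, 0, ⟨0, 0⟩, 0⟩ 0 0) (.cut .v 15728640 (.pos 16 .mm ⟨0, 0, 0, 0, 0, 93135883, 0, 0, 0, ⟨0, 0⟩, 0⟩ 0 0) (.cut .s 9306112 (.cut .d (-131072) (.pos 17 .mm ⟨0, 0, 0, 0, 0, 99331161, 0, 0, 0, ⟨0, 0⟩, 0⟩ 0 0) (.cut .s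 9175040 (.pos 17 .mm ⟨0, 0, 0, 0, 0, 87539388, 0, 0, 0, ⟨0, 0⟩, 0⟩ 0 0) (.pos 17 .mm ⟨0, 0, 0, 0, 0, 95630247, 0, 0, 0, ⟨0, 0⟩, 0⟩ 0 0))) (.cut .d (-131072) (.pos 17 .mm ⟨0, 0, 0, 0, 0, 118421961, 0, 0, 0, ⟨0, 0⟩, 0⟩ 0 0) (.cut .s 9437184 (.pos 17 .mm ⟨0, 0, 0, 0, 0, 104322482, 0, 0, 0, ⟨0, 0⟩, 0⟩ 0 0) (.pos 17 .mm ⟨0, 0, 0, 0, 0, 113591610, 0, 0, 0, ⟨0, 0⟩, 0⟩ 0 0)))))))))))))) (.cut .v 67108864 (.cut .v 33554432 (.cut .v 25165824 (.cut .d (-8388608) (.void 31 ⟨0, 0, 0, 0, 0, 100000, 0, 0, 0, ⟨0, 0⟩, 0⟩ 0 0) (.cut .v 20971520 (.cut .d (-4194304) (.void 33 ⟨0, 0, 0, 0, 0, 100000, 0, 0, 0, ⟨0, 0⟩, 0⟩ 0 0) (.cut .d (-2097152) (.void 33 ⟨0, 0, 0, 0, 0, 100000,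 0, 0, 0, ⟨0, 0⟩, 0⟩ 0 0) (.cut .d (-1048576) (.void 33 ⟨0, 0, 0, 0, 0, 100000, 0, 0, 0, ⟨0, 0⟩, 0⟩ 0 0) (.cut .d (-524288) (.void 33 ⟨0, 0, 0, 0, 0, 100000, 0, 0, 0, ⟨0, 0⟩, 0⟩ 0 0) (.cut .d (-262144) (.void 33 ⟨0, 0, 0, 0, 0, 100000, 0, 0, 0, ⟨0, 0⟩, 0⟩ 0 0) (.cut .v 18874368 (.cut .v 17825792 (.cut .v 17301504 (.cut .d (-131072) (.cut .d (-196608) (.void 39 ⟨0, 0, 0, 0, 0, 100000, 0, 0, 0, ⟨0, 0⟩, 0⟩ 0 0) (.cut .l 796917 (.void 39 ⟨0, 0, 0, 0, 0, 100000, 0, 0, 0, ⟨0, 0⟩, 0⟩ 0 0) (.cut .s 9306112 (.cut .v 17039360 (.cut .s 9175040 (.cut .l 1080033 (.pos 41 .mp ⟨25954461, 0, 0, 0, 0, 64041702, 0, 0, 0, ⟨0, 0⟩, 0⟩ 0 0) (.cut .v 16908288 (.pos 43 .mp ⟨0, 0,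 0, 0, 0, 90104401, 0, 0, 0, ⟨0, 0⟩, 0⟩ 0 0) (.cut .s 9109504 (.cut .s 9076736 (.pos 44 .mp ⟨24905136, 0, 0, 0, 0, 59205653, 0, 0, 0, ⟨0, 0⟩, 0⟩ 0 0) (.pos 44 .mp ⟨25533568, 0, 0, 0, 0, 60335770, 0, 0, 0, ⟨0, 0⟩, 0⟩ 0 0)) (.cut .s 9142272 (.pos 44 .mp ⟨26170185, 0, 0, 0, 0, 61498961, 0, 0, 0, ⟨0, 0⟩, 0⟩ 0 0) (.pos 44 .mp ⟨26815083, 0, 0, 0, 0, 62694968, 0, 0, 0, ⟨0, 0⟩, 0⟩ 0 0))))) (.cut .v 16908288 (.pos 43 .mp ⟨0, 0, 0, 0, 0, 100672070, 0, 0, 0, ⟨0, 0⟩, 0⟩ 0 0) (.cut .l 1080033 (.pos 44 .mp ⟨28788417, 0, 0, 0, 0, 68972432, 0, 0, 0, ⟨0, 0⟩, 0⟩ 0 0) (.cut .s 9240576 (.cut .d (-163840) (.pos 44 .mp ⟨28979417, 0, 0, 0, 0, 64401480, 0, 0, 0, ⟨0, 0⟩, 0⟩ 0 0) (.cut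 .s 9207808 (.pos 44 .mp ⟨31034227, 0, 0, 0, 0, 57928383, 0, 0, 0, ⟨0, 0⟩, 0⟩ 0 0) (.pos 44 .mp ⟨31775906, 0, 0, 0, 0, 59035052, 0, 0, 0, ⟨0, 0⟩, 0⟩ 0 0))) (.cut .s 9273344 (.cut .s 9256960 (.pos 44 .mp ⟨28800432, 0, 0, 0, 0, 65859722, 0, 0, 0, ⟨0, 0⟩, 0⟩ 0 0) (.pos 44 .mp ⟨29138841, 0, 0, 0, 0, 66512290, 0, 0, 0, ⟨0, 0⟩, 0⟩ 0 0)) (.pos 44 .mp ⟨29479432, 0, 0, 0, 0, 67801817, 0, 0, 0, ⟨0, 0⟩, 0⟩ 0 0)))))) (.pos 42 .mp ⟨83470259, 0, 0, 0, 0, 0, 0, 0, 0, ⟨0, 0⟩, 0⟩ 0 0)) (.cut .v 17039360 (.cut .l 1080033 (.pos 41 .mp ⟨31324494, 0, 0, 0, 0, 83521698, 0, 0, 0, ⟨0, 0⟩, 0⟩ 0 0) (.cut .v 16908288 (.pos 43 .mp ⟨0, 0, 0, 0, 0, 112609449, 0, 0, 0, ⟨0, 0⟩, 0⟩ 0 0) (.cut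 .s 9437184 (.cut .d (-163840) (.pos 44 .mp ⟨31860380, 0, 0, 0, 0, 73329707, 0, 0, 0, ⟨0, 0⟩, 0⟩ 0 0) (.cut .s 9371648 (.pos 44 .mp ⟨30167213, 0, 0, 0, 0, 69400234, 0, 0, 0, ⟨0, 0⟩, 0⟩ 0 0) (.pos 44 .mp ⟨31569537, 0, 0, 0, 0, 72212048, 0, 0, 0, ⟨0, 0⟩, 0⟩ 0 0))) (.cut .s 9502720 (.pos 44 .mp ⟨33008269, 0, 0, 0, 0, 76265256, 0, 0, 0, ⟨0, 0⟩, 0⟩ 0 0) (.pos 44 .mp ⟨34484309, 0, 0, 0, 0, 79349194, 0, 0, 0, ⟨0, 0⟩, 0⟩ 0 0))))) (.pos 42 .mp ⟨96299592, 0, 0, 0, 0, 0, 0, 0, 0, ⟨0, 0⟩, 0⟩ 0 0))))) (.cut .s 9306112 (.cut .v 17039360 (.cut .s 9175040 (.cut .s 9109504 (.cut .l 796917 (.cut .d (-65536) (.cut .v 16908288 (.cut .s 9076736 (.pos 43 .mp ⟨24350068, 0, 0, 0,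 0, 58985060, 0, 0, 0, ⟨0, 0⟩, 0⟩ 0 0) (.pos 43 .mp ⟨24924008, 0, 0, 0, 0, 60094470, 0, 0, 0, ⟨0, 0⟩, 0⟩ 0 0)) (.pos 44 .mp ⟨38785463, 0, 0, 0, 0, 42913075, 0, 0, 0, ⟨0, 0⟩, 0⟩ 0 0)) (.cut .v 16908288 (.cut .l 513801 (.cut .d (-32768) (.cut .s 9076736 (.cut .s 9060352 (.pos 43 .mp ⟨25666753, 0, 0, 0, 0, 55684426, 0, 0, 0, ⟨0, 0⟩, 0⟩ 0 0) (.pos 43 .mp ⟨25897222, 0, 0, 0, 0, 56319261, 0, 0, 0, ⟨0, 0⟩, 0⟩ 0 0)) (.cut .s 9093120 (.pos 43 .mp ⟨26133642, 0, 0, 0, 0, 56956910, 0, 0, 0, ⟨0, 0⟩, 0⟩ 0 0) (.pos 43 .mp ⟨26376206, 0, 0, 0, 0, 57597073, 0, 0, 0, ⟨0, 0⟩, 0⟩ 0 0))) (.cut .s 9076736 (.pos 43 .mp ⟨26049256, 0, 0, 0, 0, 53110076, 0, 0, 0, ⟨0, 0⟩, 0⟩ 0 0) (.cut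 .s 9093120 (.pos 43 .mp ⟨26342436, 0, 0, 0, 0, 54469117, 0, 0, 0, ⟨0, 0⟩, 0⟩ 0 0) (.pos 43 .mp ⟨26637452, 0, 0, 0, 0, 55026102, 0, 0, 0, ⟨0, 0⟩, 0⟩ 0 0)))) (.pos 43 .mp ⟨26769329, 0, 0, 0, 0, 0, 0, 0, 0, ⟨0, 0⟩, 0⟩ 0 0)) (.pos 44 .mp ⟨70509335, 0, 0, 0, 0, 0, 0, 0, 0, ⟨0, 0⟩, 0⟩ 0 0))) (.cut .s 9076736 (.pos 41 .mp ⟨27841608, 0, 0, 0, 0, 52057116, 0, 0, 0, ⟨0, 0⟩, 0⟩ 0 0) (.pos 41 .mp ⟨28514186, 0, 0, 0, 0, 53073109, 0, 0, 0, ⟨0, 0⟩, 0⟩ 0 0))) (.cut .l 796917 (.cut .d (-65536) (.cut .d (-98304) (.pos 41 .mp ⟨27207062, 0, 0, 0, 0, 62737583, 0, 0, 0, ⟨0, 0⟩, 0⟩ 0 0) (.cut .v 16908288 (.cut .s 9142272 (.pos 43 .mp ⟨25505035, 0, 0, 0, 0, 61246553, 0, 0, 0, ⟨0,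 0⟩, 0⟩ 0 0) (.pos 43 .mp ⟨26093232, 0, 0, 0, 0, 62441982, 0, 0, 0, ⟨0, 0⟩, 0⟩ 0 0)) (.pos 44 .mp ⟨46768862, 0, 0, 0, 0, 36044288, 0, 0, 0, ⟨0, 0⟩, 0⟩ 0 0))) (.cut .v 16908288 (.cut .l 513801 (.cut .d (-32768) (.cut .s 9142272 (.cut .s 9125888 (.pos 43 .mp ⟨26625109, 0, 0, 0, 0, 58239449, 0, 0, 0, ⟨0, 0⟩, 0⟩ 0 0) (.pos 43 .mp ⟨26880545, 0, 0, 0, 0, 58883736, 0, 0, 0, ⟨0, 0⟩, 0⟩ 0 0)) (.cut .s 9158656 (.pos 43 .mp ⟨27142709, 0, 0, 0, 0, 59529629, 0, 0, 0, ⟨0, 0⟩, 0⟩ 0 0) (.pos 43 .mp ⟨27411796, 0, 0, 0, 0, 60176826, 0, 0, 0, ⟨0, 0⟩, 0⟩ 0 0))) (.cut .d (-16384) (.cut .d (-24576) (.cut .d (-28672) (.cut .s 9142272 (.pos 43 .mp ⟨27016029, 0, 0, 0, 0, 57511315,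 0, 0, 0, ⟨0, 0⟩, 0⟩ 0 0) (.pos 43 .mp ⟨27625328, 0, 0, 0, 0, 58629248, 0, 0, 0, ⟨0, 0⟩, 0⟩ 0 0)) (.pos 43 .mp ⟨27650894, 0, 0, 0, 0, 0, 0, 0, 0, ⟨0, 0⟩, 0⟩ 0 0)) (.pos 43 .mp ⟨27465790, 0, 0, 0, 0, 0, 0, 0, 0, ⟨0, 0⟩, 0⟩ 0 0)) (.pos 43 .mp ⟨25938600, 0, 0, 0, 0, 0, 0, 0, 0, ⟨0, 0⟩, 0⟩ 0 0))) (.pos 43 .mp ⟨28001880, 0, 0, 0, 0, 0, 0, 0, 0, ⟨0, 0⟩, 0⟩ 0 0)) (.pos 44 .mp ⟨73183486, 0, 0, 0, 0, 0, 0, 0, 0, ⟨0, 0⟩, 0⟩ 0 0))) (.cut .v 16908288 (.pos 43 .mp ⟨0, 0, 0, 0, 0, 87288090, 0, 0, 0, ⟨0, 0⟩, 0⟩ 0 0) (.cut .s 9142272 (.pos 44 .mp ⟨29411046, 0, 0, 0, 0, 54958960, 0, 0, 0, ⟨0, 0⟩, 0⟩ 0 0) (.pos 44 .mp ⟨30114415, 0, 0, 0, 0, 56032219, 0, 0, 0, ⟨0, 0⟩, 0⟩ 0 0)))))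 (.cut .s 9240576 (.cut .l 796917 (.cut .d (-65536) (.cut .d (-98304) (.pos 41 .mp ⟨28481724, 0, 0, 0, 0, 65246336, 0, 0, 0, ⟨0, 0⟩, 0⟩ 0 0) (.cut .v 16908288 (.cut .s 9207808 (.pos 43 .mp ⟨26688684, 0, 0, 0, 0, 63681437, 0, 0, 0, ⟨0, 0⟩, 0⟩ 0 0) (.pos 43 .mp ⟨27291477, 0, 0, 0, 0, 64965613, 0, 0, 0, ⟨0, 0⟩, 0⟩ 0 0)) (.pos 44 .mp ⟨48584340, 0, 0, 0, 0, 37643749, 0, 0, 0, ⟨0, 0⟩, 0⟩ 0 0))) (.cut .v 16908288 (.cut .l 513801 (.cut .d (-32768) (.cut .s 9207808 (.cut .s 9191424 (.pos 43 .mp ⟨27688000, 0, 0, 0, 0, 60825019, 0, 0, 0, ⟨0, 0⟩, 0⟩ 0 0) (.pos 43 .mp ⟨27971515, 0, 0, 0, 0, 61473902, 0, 0, 0, ⟨0, 0⟩, 0⟩ 0 0)) (.cut .s 9224192 (.pos 43 .mp ⟨28262536, 0,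 0, 0, 0, 62123166, 0, 0, 0, ⟨0, 0⟩, 0⟩ 0 0) (.pos 43 .mp ⟨28561259, 0, 0, 0, 0, 62772502, 0, 0, 0, ⟨0, 0⟩, 0⟩ 0 0))) (.cut .d (-16384) (.cut .d (-24576) (.cut .d (-28672) (.cut .v 16842752 (.cut .s 9207808 (.pos 66 .mp ⟨27897404, 0, 0, 0, 0, 60243090, 0, 0, 0, ⟨0, 0⟩, 0⟩ 0 0) (.pos 66 .mp ⟨28505461, 0, 0, 0, 0, 61470636, 0, 0, 0, ⟨0, 0⟩, 0⟩ 0 0)) (.pos 67 .mp ⟨74537662, 0, 0, 0, 0, 0, 0, 0, 0, ⟨0, 0⟩, 0⟩ 0 0)) (.pos 43 .mp ⟨28868902, 0, 0, 0, 0, 41635145, 0, 0, 0, ⟨0, 0⟩, 0⟩ 0 0)) (.pos 43 .mp ⟨28672922, 0, 0, 0, 0, 0, 0, 0, 0, ⟨0, 0⟩, 0⟩ 0 0)) (.pos 43 .mp ⟨27095858, 0, 0, 0, 0, 0, 0, 0, 0, ⟨0, 0⟩, 0⟩ 0 0))) (.pos 43 .mp ⟨28498862, 0, 0, 0, 0, 57724098, 0,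 0, 0, ⟨0, 0⟩, 0⟩ 0 0)) (.pos 44 .mp ⟨76001216, 0, 0, 0, 0, 0, 0, 0, 0, ⟨0, 0⟩, 0⟩ 0 0))) (.cut .d (-65536) (.cut .v 16908288 (.pos 43 .mp ⟨0, 0, 0, 0, 0, 92614606, 0, 0, 0, ⟨0, 0⟩, 0⟩ 0 0) (.cut .s 9207808 (.pos 44 .mp ⟨30827550, 0, 0, 0, 0, 57598758, 0, 0, 0, ⟨0, 0⟩, 0⟩ 0 0) (.pos 44 .mp ⟨31550563, 0, 0, 0, 0, 58711407, 0, 0, 0, ⟨0, 0⟩, 0⟩ 0 0))) (.pos 41 .mp ⟨0, 0, 0, 0, 0, 0, 0, 0, 0, ⟨0, 0⟩, 0⟩ 0 0))) (.cut .l 796917 (.cut .d (-65536) (.cut .d (-98304) (.pos 41 .mp ⟨29781058, 0, 0, 0, 0, 67947955, 0, 0, 0, ⟨0, 0⟩, 0⟩ 0 0) (.cut .v 16908288 (.cut .s 9273344 (.pos 43 .mp ⟨27901698, 0, 0, 0, 0, 66295213, 0, 0, 0, ⟨0, 0⟩, 0⟩ 0 0) (.pos 43 .mp ⟨28519436, 0,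 0, 0, 0, 67670953, 0, 0, 0, ⟨0, 0⟩, 0⟩ 0 0)) (.pos 44 .mp ⟨50748251, 0, 0, 0, 0, 38991569, 0, 0, 0, ⟨0, 0⟩, 0⟩ 0 0))) (.cut .v 16908288 (.cut .l 513801 (.cut .d (-32768) (.cut .s 9273344 (.cut .s 9256960 (.pos 43 .mp ⟨28867878, 0, 0, 0, 0, 63421599, 0, 0, 0, ⟨0, 0⟩, 0⟩ 0 0) (.pos 43 .mp ⟨29182588, 0, 0, 0, 0, 64070145, 0, 0, 0, ⟨0, 0⟩, 0⟩ 0 0)) (.cut .s 9289728 (.pos 43 .mp ⟨29505585, 0, 0, 0, 0, 64717826, 0, 0, 0, ⟨0, 0⟩, 0⟩ 0 0) (.pos 43 .mp ⟨29837063, 0, 0, 0, 0, 65364329, 0, 0, 0, ⟨0, 0⟩, 0⟩ 0 0))) (.cut .d (-16384) (.cut .d (-24576) (.cut .v 16842752 (.cut .s 9273344 (.cut .s 9256960 (.pos 66 .mp ⟨28562913, 0, 0, 0, 0, 62503743, 0, 0, 0, ⟨0, 0⟩, 0⟩ 0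 0) (.pos 66 .mp ⟨28866494, 0, 0, 0, 0, 63147845, 0, 0, 0, ⟨0, 0⟩, 0⟩ 0 0)) (.pos 66 .mp ⟨29171937, 0, 0, 0, 0, 64400957, 0, 0, 0, ⟨0, 0⟩, 0⟩ 0 0)) (.pos 67 .mp ⟨77428410, 0, 0, 0, 0, 0, 0, 0, 0, ⟨0, 0⟩, 0⟩ 0 0)) (.pos 43 .mp ⟨29909950, 0, 0, 0, 0, 0, 0, 0, 0, ⟨0, 0⟩, 0⟩ 0 0)) (.pos 43 .mp ⟨28281257, 0, 0, 0, 0, 0, 0, 0, 0, ⟨0, 0⟩, 0⟩ 0 0))) (.pos 43 .mp ⟨29756562, 0, 0, 0, 0, 60132630, 0, 0, 0, ⟨0, 0⟩, 0⟩ 0 0)) (.pos 44 .mp ⟨78965459, 0, 0, 0, 0, 0, 0, 0, 0, ⟨0, 0⟩, 0⟩ 0 0))) (.cut .d (-65536) (.cut .v 16908288 (.pos 43 .mp ⟨0, 0, 0, 0, 0, 96791860, 0, 0, 0, ⟨0, 0⟩, 0⟩ 0 0) (.cut .s 9273344 (.pos 44 .mp ⟨32283570, 0, 0, 0, 0, 59856400, 0, 0, 0, ⟨0, 0⟩, 0⟩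 0 0) (.pos 44 .mp ⟨33026688, 0, 0, 0, 0, 61033635, 0, 0, 0, ⟨0, 0⟩, 0⟩ 0 0))) (.pos 41 .mp ⟨0, 0, 0, 0, 0, 0, 0, 0, 0, ⟨0, 0⟩, 0⟩ 0 0))))) (.pos 42 .mp ⟨77974633, 0, 0, 0, 0, 0, 0, 0, 0, ⟨0, 0⟩, 0⟩ 0 0)) (.cut .v 17039360 (.cut .s 9437184 (.cut .s 9371648 (.cut .l 796917 (.cut .d (-65536) (.cut .d (-98304) (.pos 41 .mp ⟨31105474, 0, 0, 0, 0, 70848956, 0, 0, 0, ⟨0, 0⟩, 0⟩ 0 0) (.cut .v 16908288 (.cut .s 9338880 (.pos 43 .mp ⟨29144782, 0, 0, 0, 0, 69093561, 0, 0, 0, ⟨0, 0⟩, 0⟩ 0 0) (.pos 43 .mp ⟨29777828, 0, 0, 0, 0, 70563773, 0, 0, 0, ⟨0, 0⟩, 0⟩ 0 0)) (.pos 44 .mp ⟨53309396, 0, 0, 0, 0, 40022402, 0, 0, 0, ⟨0, 0⟩, 0⟩ 0 0))) (.cut .v 16908288 (.cut .l 513801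 (.cut .d (-32768) (.cut .d (-49152) (.pos 43 .mp ⟨29732646, 0, 0, 0, 0, 69945108, 0, 0, 0, ⟨0, 0⟩, 0⟩ 0 0) (.cut .l 372243 (.cut .s 9338880 (.pos 43 .mp ⟨30105421, 0, 0, 0, 0, 66973283, 0, 0, 0, ⟨0, 0⟩, 0⟩ 0 0) (.pos 43 .mp ⟨30782696, 0, 0, 0, 0, 68304225, 0, 0, 0, ⟨0, 0⟩, 0⟩ 0 0)) (.pos 43 .mp ⟨31483329, 0, 0, 0, 0, 62296265, 0, 0, 0, ⟨0, 0⟩, 0⟩ 0 0))) (.cut .d (-16384) (.cut .d (-24576) (.cut .s 9338880 (.cut .s 9322496 (.pos 43 .mp ⟨30644737, 0, 0, 0, 0, 63210201, 0, 0, 0, ⟨0, 0⟩, 0⟩ 0 0) (.pos 43 .mp ⟨30966625, 0, 0, 0, 0, 63857390, 0, 0, 0, ⟨0, 0⟩, 0⟩ 0 0)) (.pos 43 .mp ⟨31616432, 0, 0, 0, 0, 64356442, 0, 0, 0, ⟨0, 0⟩, 0⟩ 0 0)) (.pos 43 .mp ⟨31177603,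 0, 0, 0, 0, 0, 0, 0, 0, ⟨0, 0⟩, 0⟩ 0 0)) (.pos 43 .mp ⟨29495476, 0, 0, 0, 0, 0, 0, 0, 0, ⟨0, 0⟩, 0⟩ 0 0))) (.pos 43 .mp ⟨31039421, 0, 0, 0, 0, 62645351, 0, 0, 0, ⟨0, 0⟩, 0⟩ 0 0)) (.pos 44 .mp ⟨82079255, 0, 0, 0, 0, 0, 0, 0, 0, ⟨0, 0⟩, 0⟩ 0 0))) (.cut .v 16908288 (.pos 43 .mp ⟨0, 0, 0, 0, 0, 99641011, 0, 0, 0, ⟨0, 0⟩, 0⟩ 0 0) (.cut .s 9338880 (.pos 44 .mp ⟨33780038, 0, 0, 0, 0, 61736449, 0, 0, 0, ⟨0, 0⟩, 0⟩ 0 0) (.pos 44 .mp ⟨34543741, 0, 0, 0, 0, 62940314, 0, 0, 0, ⟨0, 0⟩, 0⟩ 0 0)))) (.cut .l 796917 (.cut .d (-65536) (.cut .s 9404416 (.cut .s 9388032 (.pos 41 .mp ⟨31185338, 0, 0, 0, 0, 71156658, 0, 0, 0, ⟨0, 0⟩, 0⟩ 0 0) (.pos 41 .mp ⟨31574420, 0, 0, 0, 0,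 71812502, 0, 0, 0, ⟨0, 0⟩, 0⟩ 0 0)) (.pos 41 .mp ⟨31527217, 0, 0, 0, 0, 74070693, 0, 0, 0, ⟨0, 0⟩, 0⟩ 0 0)) (.cut .v 16908288 (.cut .l 513801 (.cut .d (-32768) (.cut .s 9404416 (.cut .s 9388032 (.pos 43 .mp ⟨31628537, 0, 0, 0, 0, 68568036, 0, 0, 0, ⟨0, 0⟩, 0⟩ 0 0) (.pos 43 .mp ⟨32015022, 0, 0, 0, 0, 69200774, 0, 0, 0, ⟨0, 0⟩, 0⟩ 0 0)) (.pos 43 .mp ⟨31396441, 0, 0, 0, 0, 72049949, 0, 0, 0, ⟨0, 0⟩, 0⟩ 0 0)) (.cut .s 9404416 (.pos 43 .mp ⟨32274365, 0, 0, 0, 0, 65146151, 0, 0, 0, ⟨0, 0⟩, 0⟩ 0 0) (.pos 43 .mp ⟨32940523, 0, 0, 0, 0, 66477951, 0, 0, 0, ⟨0, 0⟩, 0⟩ 0 0))) (.pos 43 .mp ⟨32348324, 0, 0, 0, 0, 65257504, 0, 0, 0, ⟨0, 0⟩, 0⟩ 0 0)) (.pos 44 .mp ⟨85345758,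 0, 0, 0, 0, 0, 0, 0, 0, ⟨0, 0⟩, 0⟩ 0 0))) (.cut .v 16908288 (.pos 43 .mp ⟨0, 0, 0, 0, 0, 104060782, 0, 0, 0, ⟨0, 0⟩, 0⟩ 0 0) (.cut .s 9404416 (.pos 44 .mp ⟨35317921, 0, 0, 0, 0, 64163669, 0, 0, 0, ⟨0, 0⟩, 0⟩ 0 0) (.pos 44 .mp ⟨36102705, 0, 0, 0, 0, 65405867, 0, 0, 0, ⟨0, 0⟩, 0⟩ 0 0))))) (.cut .s 9502720 (.cut .d (-65536) (.cut .l 796917 (.cut .s 9469952 (.pos 41 .mp ⟨32355180, 0, 0, 0, 0, 75383991, 0, 0, 0, ⟨0, 0⟩, 0⟩ 0 0) (.pos 41 .mp ⟨33225639, 0, 0, 0, 0, 76679549, 0, 0, 0, ⟨0, 0⟩, 0⟩ 0 0)) (.cut .s 9469952 (.pos 41 .mp ⟨36557506, 0, 0, 0, 0, 66627616, 0, 0, 0, ⟨0, 0⟩, 0⟩ 0 0) (.pos 41 .mp ⟨37350418, 0, 0, 0, 0, 67988092, 0, 0, 0, ⟨0, 0⟩, 0⟩ 0 0))) (.cut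 .v 16908288 (.cut .l 796917 (.cut .l 513801 (.cut .d (-32768) (.cut .s 9469952 (.pos 43 .mp ⟨32204881, 0, 0, 0, 0, 73333789, 0, 0, 0, ⟨0, 0⟩, 0⟩ 0 0) (.pos 43 .mp ⟨33055371, 0, 0, 0, 0, 74599558, 0, 0, 0, ⟨0, 0⟩, 0⟩ 0 0)) (.cut .s 9469952 (.pos 43 .mp ⟨33615009, 0, 0, 0, 0, 67830718, 0, 0, 0, ⟨0, 0⟩, 0⟩ 0 0) (.pos 43 .mp ⟨34297925, 0, 0, 0, 0, 69203873, 0, 0, 0, ⟨0, 0⟩, 0⟩ 0 0))) (.pos 43 .mp ⟨33684174, 0, 0, 0, 0, 67964372, 0, 0, 0, ⟨0, 0⟩, 0⟩ 0 0)) (.pos 43 .mp ⟨0, 0, 0, 0, 0, 0, 0, 0, 0, ⟨0, 0⟩, 0⟩ 0 0)) (.pos 44 .mp ⟨87842223, 0, 0, 0, 0, 0, 0, 0, 0, ⟨0, 0⟩, 0⟩ 0 0))) (.cut .d (-65536) (.cut .l 796917 (.pos 41 .mp ⟨33384597, 0, 0, 0, 0, 81082782, 0, 0,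 0, ⟨0, 0⟩, 0⟩ 0 0) (.pos 41 .mp ⟨38968861, 0, 0, 0, 0, 68729501, 0, 0, 0, ⟨0, 0⟩, 0⟩ 0 0)) (.cut .d (-32768) (.cut .s 9535488 (.pos 41 .mp ⟨37359830, 0, 0, 0, 0, 70578709, 0, 0, 0, ⟨0, 0⟩, 0⟩ 0 0) (.pos 41 .mp ⟨38069702, 0, 0, 0, 0, 72216521, 0, 0, 0, ⟨0, 0⟩, 0⟩ 0 0)) (.pos 41 .mp ⟨36038439, 0, 0, 0, 0, 69524975, 0, 0, 0, ⟨0, 0⟩, 0⟩ 0 0))))) (.pos 42 .mp ⟨90737760, 0, 0, 0, 0, 0, 0, 0, 0, ⟨0, 0⟩, 0⟩ 0 0)))) (.pos 40 .mp ⟨94016394, 0, 0, 0, 0, 0, 0, 0, 0, ⟨0, 0⟩, 0⟩ 0 0)) (.pos 38 .mp ⟨100811502, 0, 0, 0, 0, 0, 0, 0, 0, ⟨0, 0⟩, 0⟩ 0 0)) (.void 36 ⟨100000, 0, 0, 0, 0, 0, 0, 0, 0, ⟨0, 0⟩, 0⟩ 0 0))))))) (.void 34 ⟨100000, 0, 0, 0, 0, 0, 0, 0, 0, ⟨0, 0⟩, 0⟩ 0 0)))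 (.void 32 ⟨100000, 0, 0, 0, 0, 0, 0, 0, 0, ⟨0, 0⟩, 0⟩ 0 0)) (.void 63 ⟨100000, 0, 0, 0, 0, 0, 0, 0, 0, ⟨0, 0⟩, 0⟩ 0 0)) (.void 74 ⟨100000, 0, 0, 0, 0, 0, 0, 0, 0, ⟨0, 0⟩, 0⟩ 0 0))) (.cut .v 16777216 (.cut .v 8388608 (.cut .v 4194304 (.cut .v 2097152 (.void 6 ⟨0, 0, 50000, 0, 50000, 0, 0, 0, 0, ⟨0, 0⟩, 0⟩ 0 0) (.void 7 ⟨0, 0, 45679, 0, 0, 0, 0, 0, 54321, ⟨0, 0⟩, 7053950⟩ 0 0)) (.cut .d 7172869 (.pos 5 .pm ⟨0, 0, 0, 0, 0, 0, 0, 0, 0, ⟨0, 0⟩, 0⟩ 0 0) (.cut .d 10759303 (.pos 5 .pm ⟨0, 0, 0, 0, 0, 0, 0, 0, 0, ⟨0, 0⟩, 0⟩ 0 0) (.pos 5 .pm ⟨0, 50307681, 0, 0, 0, 0, 0, 0, 7239508, ⟨0, 0⟩, 9975792⟩ 0 0)))) (.cut .d 7172869 (.pos 3 .pm ⟨0, 0, 0, 0, 0, 0, 0, 0, 0, ⟨0,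 0⟩, 0⟩ 0 0) (.cut .d 10759303 (.pos 3 .pm ⟨0, 0, 0, 0, 0, 0, 0, 0, 0, ⟨0, 0⟩, 0⟩ 0 0) (.cut .d 12552520 (.cut .v 12582912 (.cut .d 11655911 (.cut .s 9306112 (.pos 8 .pm ⟨0, 0, 0, 0, 0, 0, 0, 15456897, 0, ⟨5175199, 0⟩, 0⟩ 261 291) (.cut .v 10485760 (.pos 10 .pm ⟨0, 51284067, 0, 0, 0, 0, 0, 0, 0, ⟨0, 0⟩, 0⟩ 0 0) (.pos 11 .pm ⟨0, 54090074, 0, 0, 0, 0, 0, 0, 0, ⟨0, 0⟩, 0⟩ 0 0))) (.cut .s 9306112 (.cut .v 10485760 (.pos 10 .pm ⟨0, 51020602, 0, 0, 0, 0, 0, 7430596, 2567325, ⟨5175199, 0⟩, 12543895⟩ 275 321) (.cut .s 9175040 (.pos 11 .pm ⟨0, 47309146, 0, 0, 0, 0, 0, 13663047, 0, ⟨5175199, 0⟩, 0⟩ 275 307) (.pos 11 .pm ⟨0, 55910422, 0, 0, 0, 0, 0, 14119931, 0, ⟨5175199,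 0⟩, 0⟩ 282 321))) (.cut .v 10485760 (.cut .s 9437184 (.pos 10 .pm ⟨0, 61133219, 0, 0, 0, 0, 0, 0, 0, ⟨0, 0⟩, 0⟩ 0 0) (.pos 10 .pm ⟨0, 70446296, 0, 0, 0, 0, 0, 0, 0, ⟨0, 0⟩, 0⟩ 0 0)) (.cut .s 9437184 (.pos 11 .pm ⟨0, 65054159, 0, 0, 0, 0, 0, 0, 0, ⟨0, 0⟩, 0⟩ 0 0) (.pos 11 .pm ⟨0, 75013152, 0, 0, 0, 0, 0, 0, 0, ⟨0, 0⟩, 0⟩ 0 0))))) (.cut .s 9306112 (.pos 9 .pm ⟨0, 51490958, 0, 0, 0, 0, 0, 15370928, 0, ⟨5175199, 0⟩, 0⟩ 261 321) (.pos 9 .pm ⟨0, 70614665, 0, 0, 0, 0, 0, 0, 0, ⟨0, 0⟩, 0⟩ 0 0))) (.cut .v 12582912 (.cut .s 9306112 (.pos 8 .pm ⟨0, 76616796, 0, 0, 0, 0, 0, 0, 3776576, ⟨0, 0⟩, 13128881⟩ 0 0) (.void 8 ⟨0, 94971, 0, 0, 0, 0, 0, 0, 5029, ⟨0, 0⟩, 13128881⟩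 0 0)) (.pos 9 .pm ⟨0, 96842857, 0, 0, 0, 0, 0, 0, 0, ⟨0, 0⟩, 0⟩ 0 0)))))) (.cut .v 67108864 (.cut .d 7172869 (.cut .d 3586434 (.cut .v 33554432 (.cut .d 1793217 (.cut .v 25165824 (.cut .v 20971520 (.pos 33 .pp ⟨45474558, 0, 0, 0, 0, 0, 0, 0, 0, ⟨0, 0⟩, 0⟩ 0 0) (.pos 34 .pp ⟨91931520, 0, 0, 0, 0, 0, 0, 0, 0, ⟨0, 0⟩, 0⟩ 0 0)) (.pos 32 .pp ⟨152184547, 0, 0, 0, 0, 0, 0, 0, 0, ⟨0, 0⟩, 0⟩ 0 0)) (.pos 30 .pp ⟨0, 0, 0, 0, 0, 0, 0, 0, 0, ⟨0, 0⟩, 0⟩ 0 0)) (.cut .d 1793217 (.cut .v 50331648 (.pos 64 .pp ⟨378829346, 0, 0, 0, 0, 0, 0, 0, 0, ⟨0, 0⟩, 0⟩ 0 0) (.void 65 ⟨100000, 0, 0, 0, 0, 0, 0, 0, 0, ⟨0, 0⟩, 0⟩ 0 0)) (.pos 63 .pp ⟨204972656, 0, 0, 0, 0, 0, 0, 0, 0, ⟨0, 0⟩,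 0⟩ 0 0))) (.pos 62 .pp ⟨0, 0, 0, 0, 0, 0, 0, 20494571, 0, ⟨5111618, 77953⟩, 0⟩ 167 225)) (.cut .d 10759303 (.pos 62 .pp ⟨0, 0, 0, 0, 0, 0, 0, 0, 0, ⟨0, 0⟩, 0⟩ 0 0) (.pos 62 .pp ⟨0, 94552709, 0, 0, 0, 0, 0, 0, 0, ⟨0, 0⟩, 0⟩ 0 0))) (.cut .v 134217728 (.cut .d 7172869 (.cut .d 3586434 (.cut .v 100663296 (.cut .v 83886080 (.pos 81 .pp ⟨1080934468, 0, 0, 0, 0, 0, 0, 0, 0, ⟨0, 0⟩, 0⟩ 0 0) (.pos 82 .pp ⟨1636153310, 0, 0, 0, 0, 0, 0, 0, 0, ⟨0, 0⟩, 0⟩ 0 0)) (.void 78 ⟨44198, 55802, 0, 0, 0, 0, 0, 0, 0, ⟨0, 0⟩, 0⟩ 0 0)) (.pos 75 .pp ⟨0, 216988466, 0, 0, 0, 0, 12256803, 0, 0, ⟨0, 0⟩, 0⟩ 0 0)) (.void 75 ⟨0, 100000, 0, 0, 0, 0, 0, 0, 0, ⟨0, 0⟩, 0⟩ 0 0)) (.void 76 ⟨38048,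 61952, 0, 0, 0, 0, 0, 0, 0, ⟨0, 0⟩, 0⟩ 0 0))))),
    by decide +kernel⟩

def covers12 : cell.Covers table row12.1 :=
  ⟨(.cut .d 0 (.cut .v 16777216 (.cut .d (-8388608) (.void 1 ⟨0, 0, 0, 0, 0, 100000, 0, 0, 0, ⟨0, 0⟩, 0⟩ 0 0) (.cut .d (-4194304) (.void 1 ⟨0, 0, 0, 0, 0, 100000, 0, 0, 0, ⟨0, 0⟩, 0⟩ 0 0) (.cut .d (-2097152) (.void 1 ⟨0, 0, 0, 0, 0, 100000, 0, 0, 0, ⟨0, 0⟩, 0⟩ 0 0) (.cut .d (-1048576) (.void 1 ⟨0, 0, 0, 0, 0, 100000, 0, 0, 0, ⟨0, 0⟩, 0⟩ 0 0) (.cut .d (-524288) (.void 1 ⟨0, 0, 0, 0, 0, 100000, 0, 0, 0, ⟨0, 0⟩, 0⟩ 0 0) (.cut .d (-262144) (.void 1 ⟨0, 0, 0, 0, 0, 100000, 0, 0, 0, ⟨0, 0⟩, 0⟩ 0 0) (.cut .v 8388608 (.cut .v 4194304 (.void 4 ⟨0, 0,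 100000, 0, 0, 0, 0, 0, 0, ⟨0, 0⟩, 0⟩ 0 0) (.pos 5 .mm ⟨0, 0, 0, 0, 0, 64578837, 0, 0, 0, ⟨0, 0⟩, 0⟩ 0 0)) (.cut .d (-131072) (.pos 3 .mm ⟨0, 0, 0, 0, 0, 163191642, 0, 0, 0, ⟨0, 0⟩, 0⟩ 0 0) (.cut .v 12582912 (.pos 8 .mm ⟨0, 0, 0, 0, 0, 81867438, 0, 0, 0, ⟨0, 0⟩, 0⟩ 0 0) (.cut .v 14680064 (.pos 12 .mm ⟨0, 0, 0, 0, 0, 110396544, 0, 0, 0, ⟨0, 0⟩, 0⟩ 0 0) (.cut .v 15728640 (.pos 16 .mm ⟨0, 0, 0, 0, 0, 124299451, 0, 0, 0, ⟨0, 0⟩, 0⟩ 0 0) (.cut .v 16252928 (.pos 20 .mm ⟨0, 0, 0, 0, 0, 131824816, 0, 0, 0, ⟨0, 0⟩, 0⟩ 0 0) (.cut .s 9830400 (.cut .s 9699328 (.pos 21 .mm ⟨0, 0, 0, 0, 0, 124004921, 0, 0, 0, ⟨0, 0⟩, 0⟩ 0 0) (.pos 21 .mm ⟨0, 0, 0, 0, 0, 134695577, 0, 0,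 0, ⟨0, 0⟩, 0⟩ 0 0)) (.cut .s 9961472 (.pos 21 .mm ⟨0, 0, 0, 0, 0, 146147634, 0, 0, 0, ⟨0, 0⟩, 0⟩ 0 0) (.pos 21 .mm ⟨0, 0, 0, 0, 0, 158331677, 0, 0, 0, ⟨0, 0⟩, 0⟩ 0 0))))))))))))))) (.cut .v 67108864 (.cut .v 33554432 (.cut .v 25165824 (.cut .d (-8388608) (.void 31 ⟨0, 0, 0, 0, 0, 100000, 0, 0, 0, ⟨0, 0⟩, 0⟩ 0 0) (.cut .v 20971520 (.cut .d (-4194304) (.void 33 ⟨0, 0, 0, 0, 0, 100000, 0, 0, 0, ⟨0, 0⟩, 0⟩ 0 0) (.cut .v 18874368 (.cut .d (-2097152) (.void 35 ⟨100000, 0, 0, 0, 0, 0, 0, 0, 0, ⟨0, 0⟩, 0⟩ 0 0) (.cut .d (-1048576) (.void 35 ⟨100000, 0, 0, 0, 0, 0, 0, 0, 0, ⟨0, 0⟩, 0⟩ 0 0) (.cut .d (-524288) (.void 35 ⟨100000, 0, 0, 0, 0, 0, 0, 0, 0, ⟨0, 0⟩, 0⟩ 0 0)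 (.cut .d (-262144) (.void 35 ⟨0, 0, 0, 0, 0, 100000, 0, 0, 0, ⟨0, 0⟩, 0⟩ 0 0) (.cut .v 17825792 (.cut .v 17301504 (.cut .d (-131072) (.cut .d (-196608) (.void 39 ⟨0, 0, 0, 0, 0, 100000, 0, 0, 0, ⟨0, 0⟩, 0⟩ 0 0) (.cut .l 796917 (.void 39 ⟨0, 0, 0, 0, 0, 100000, 0, 0, 0, ⟨0, 0⟩, 0⟩ 0 0) (.cut .d (-163840) (.void 39 ⟨0, 0, 0, 0, 0, 100000, 0, 0, 0, ⟨0, 0⟩, 0⟩ 0 0) (.cut .v 17039360 (.cut .l 1080033 (.void 41 ⟨0, 0, 0, 0, 0, 100000, 0, 0, 0, ⟨0, 0⟩, 0⟩ 0 0) (.cut .s 9830400 (.cut .s 9699328 (.pos 41 .mp ⟨35635288, 0, 0, 0, 0, 88262846, 0, 0, 0, ⟨0, 0⟩, 0⟩ 0 0) (.cut .s 9764864 (.pos 41 .mp ⟨38864211, 0, 0, 0, 0, 89969219, 0, 0, 0, ⟨0, 0⟩, 0⟩ 0 0) (.cut .s 9797632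 (.pos 41 .mp ⟨40535041, 0, 0, 0, 0, 91079174, 0, 0, 0, ⟨0, 0⟩, 0⟩ 0 0) (.pos 41 .mp ⟨41384988, 0, 0, 0, 0, 92767445, 0, 0, 0, ⟨0, 0⟩, 0⟩ 0 0)))) (.cut .d (-147456) (.void 41 ⟨0, 0, 0, 0, 0, 100000, 0, 0, 0, ⟨0, 0⟩, 0⟩ 0 0) (.cut .l 1221591 (.pos 41 .mp ⟨43193755, 0, 0, 0, 0, 113536156, 0, 0, 0, ⟨0, 0⟩, 0⟩ 0 0) (.cut .v 16908288 (.pos 43 .mp ⟨0, 0, 0, 0, 0, 155535703, 0, 0, 0, ⟨0, 0⟩, 0⟩ 0 0) (.cut .s 9961472 (.cut .s 9895936 (.cut .s 9863168 (.pos 44 .mp ⟨42725704, 0, 0, 0, 0, 93046007, 0, 0, 0, ⟨0, 0⟩, 0⟩ 0 0) (.pos 44 .mp ⟨43610633, 0, 0, 0, 0, 94721694, 0, 0, 0, ⟨0, 0⟩, 0⟩ 0 0)) (.pos 44 .mp ⟨44505868, 0, 0, 0, 0, 98219008, 0, 0, 0, ⟨0, 0⟩, 0⟩ 0 0)) (.cut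 .s 10027008 (.pos 44 .mp ⟨46327829, 0, 0, 0, 0, 101763633, 0, 0, 0, ⟨0, 0⟩, 0⟩ 0 0) (.pos 44 .mp ⟨48192747, 0, 0, 0, 0, 105478337, 0, 0, 0, ⟨0, 0⟩, 0⟩ 0 0)))))))) (.pos 42 .mp ⟨124642742, 0, 0, 0, 0, 0, 0, 0, 0, ⟨0, 0⟩, 0⟩ 0 0))))) (.cut .s 9830400 (.cut .v 17039360 (.cut .s 9699328 (.cut .s 9633792 (.cut .d (-65536) (.cut .l 796917 (.pos 41 .mp ⟨35743398, 0, 0, 0, 0, 83290324, 0, 0, 0, ⟨0, 0⟩, 0⟩ 0 0) (.pos 41 .mp ⟨40675419, 0, 0, 0, 0, 72356589, 0, 0, 0, ⟨0, 0⟩, 0⟩ 0 0)) (.cut .v 16908288 (.cut .l 796917 (.cut .l 513801 (.cut .d (-32768) (.pos 43 .mp ⟨34769086, 0, 0, 0, 0, 81915781, 0, 0, 0, ⟨0, 0⟩, 0⟩ 0 0) (.cut .s 9601024 (.pos 43 .mp ⟨36406196, 0, 0,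 0, 0, 73926756, 0, 0, 0, ⟨0, 0⟩, 0⟩ 0 0) (.pos 43 .mp ⟨37128875, 0, 0, 0, 0, 75380335, 0, 0, 0, ⟨0, 0⟩, 0⟩ 0 0))) (.pos 43 .mp ⟨37595968, 0, 0, 0, 0, 73055104, 0, 0, 0, ⟨0, 0⟩, 0⟩ 0 0)) (.pos 43 .mp ⟨0, 0, 0, 0, 0, 0, 0, 0, 0, ⟨0, 0⟩, 0⟩ 0 0)) (.pos 44 .mp ⟨95284474, 0, 0, 0, 0, 0, 0, 0, 0, ⟨0, 0⟩, 0⟩ 0 0))) (.cut .d (-65536) (.cut .l 796917 (.cut .s 9666560 (.pos 41 .mp ⟨36255154, 0, 0, 0, 0, 85912938, 0, 0, 0, ⟨0, 0⟩, 0⟩ 0 0) (.pos 41 .mp ⟨37002769, 0, 0, 0, 0, 87317389, 0, 0, 0, ⟨0, 0⟩, 0⟩ 0 0)) (.cut .v 16908288 (.pos 43 .mp ⟨0, 0, 0, 0, 0, 126679294, 0, 0, 0, ⟨0, 0⟩, 0⟩ 0 0) (.pos 44 .mp ⟨42861986, 0, 0, 0, 0, 75683993, 0, 0, 0, ⟨0, 0⟩, 0⟩ 0 0))) (.cut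 .v 16908288 (.cut .l 796917 (.cut .l 513801 (.cut .d (-32768) (.cut .s 9666560 (.pos 43 .mp ⟨37127420, 0, 0, 0, 0, 81633291, 0, 0, 0, ⟨0, 0⟩, 0⟩ 0 0) (.pos 43 .mp ⟨37531431, 0, 0, 0, 0, 83635592, 0, 0, 0, ⟨0, 0⟩, 0⟩ 0 0)) (.cut .s 9666560 (.pos 43 .mp ⟨37859428, 0, 0, 0, 0, 76868929, 0, 0, 0, ⟨0, 0⟩, 0⟩ 0 0) (.cut .s 9682944 (.pos 43 .mp ⟨38227690, 0, 0, 0, 0, 78517763, 0, 0, 0, ⟨0, 0⟩, 0⟩ 0 0) (.pos 43 .mp ⟨38597961, 0, 0, 0, 0, 79294079, 0, 0, 0, ⟨0, 0⟩, 0⟩ 0 0)))) (.pos 43 .mp ⟨39128961, 0, 0, 0, 0, 75905000, 0, 0, 0, ⟨0, 0⟩, 0⟩ 0 0)) (.pos 43 .mp ⟨0, 0, 0, 0, 0, 0, 0, 0, 0, ⟨0, 0⟩, 0⟩ 0 0)) (.pos 44 .mp ⟨98329249, 0, 0, 0, 0, 0, 0, 0, 0, ⟨0, 0⟩, 0⟩ 0 0))))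 (.cut .s 9764864 (.cut .d (-65536) (.cut .l 796917 (.cut .s 9732096 (.pos 41 .mp ⟨37758355, 0, 0, 0, 0, 88783853, 0, 0, 0, ⟨0, 0⟩, 0⟩ 0 0) (.pos 41 .mp ⟨38522022, 0, 0, 0, 0, 90313369, 0, 0, 0, ⟨0, 0⟩, 0⟩ 0 0)) (.cut .d (-98304) (.cut .s 9732096 (.pos 41 .mp ⟨36537466, 0, 0, 0, 0, 89630560, 0, 0, 0, ⟨0, 0⟩, 0⟩ 0 0) (.pos 41 .mp ⟨37304800, 0, 0, 0, 0, 91210555, 0, 0, 0, ⟨0, 0⟩, 0⟩ 0 0)) (.pos 41 .mp ⟨41749398, 0, 0, 0, 0, 79255230, 0, 0, 0, ⟨0, 0⟩, 0⟩ 0 0))) (.cut .v 16908288 (.cut .l 796917 (.cut .l 513801 (.cut .d (-32768) (.cut .s 9732096 (.pos 43 .mp ⟨37975213, 0, 0, 0, 0, 85638328, 0, 0, 0, ⟨0, 0⟩, 0⟩ 0 0) (.cut .s 9748480 (.pos 43 .mp ⟨39352180, 0, 0,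 0, 0, 85318447, 0, 0, 0, ⟨0, 0⟩, 0⟩ 0 0) (.pos 43 .mp ⟨39620152, 0, 0, 0, 0, 86292570, 0, 0, 0, ⟨0, 0⟩, 0⟩ 0 0))) (.cut .d (-16384) (.cut .d (-24576) (.cut .s 9732096 (.pos 43 .mp ⟨39188202, 0, 0, 0, 0, 82530455, 0, 0, 0, ⟨0, 0⟩, 0⟩ 0 0) (.pos 43 .mp ⟨40016880, 0, 0, 0, 0, 83874278, 0, 0, 0, ⟨0, 0⟩, 0⟩ 0 0)) (.pos 43 .mp ⟨39491328, 0, 0, 0, 0, 77859496, 0, 0, 0, ⟨0, 0⟩, 0⟩ 0 0)) (.pos 43 .mp ⟨38450116, 0, 0, 0, 0, 0, 0, 0, 0, ⟨0, 0⟩, 0⟩ 0 0))) (.pos 43 .mp ⟨40697028, 0, 0, 0, 0, 78886775, 0, 0, 0, ⟨0, 0⟩, 0⟩ 0 0)) (.pos 43 .mp ⟨0, 0, 0, 0, 0, 0, 0, 0, 0, ⟨0, 0⟩, 0⟩ 0 0)) (.pos 44 .mp ⟨101564526, 0, 0, 0, 0, 0, 0, 0, 0, ⟨0, 0⟩, 0⟩ 0 0))) (.cut .d (-65536) (.cut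 .l 796917 (.cut .s 9797632 (.pos 41 .mp ⟨39293877, 0, 0, 0, 0, 91989701, 0, 0, 0, ⟨0, 0⟩, 0⟩ 0 0) (.cut .s 9814016 (.pos 41 .mp ⟨40074032, 0, 0, 0, 0, 92488708, 0, 0, 0, ⟨0, 0⟩, 0⟩ 0 0) (.pos 41 .mp ⟨40467258, 0, 0, 0, 0, 93363164, 0, 0, 0, ⟨0, 0⟩, 0⟩ 0 0))) (.cut .v 16908288 (.pos 43 .mp ⟨0, 0, 0, 0, 0, 137527597, 0, 0, 0, ⟨0, 0⟩, 0⟩ 0 0) (.cut .s 9797632 (.pos 44 .mp ⟨45612323, 0, 0, 0, 0, 81232131, 0, 0, 0, ⟨0, 0⟩, 0⟩ 0 0) (.cut .s 9814016 (.pos 44 .mp ⟨46080920, 0, 0, 0, 0, 82782485, 0, 0, 0, ⟨0, 0⟩, 0⟩ 0 0) (.pos 44 .mp ⟨46552485, 0, 0, 0, 0, 83525263, 0, 0, 0, ⟨0, 0⟩, 0⟩ 0 0))))) (.cut .v 16908288 (.cut .l 796917 (.cut .l 513801 (.cut .d (-32768) (.cut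 .d (-49152) (.pos 43 .mp ⟨39479101, 0, 0, 0, 0, 93202624, 0, 0, 0, ⟨0, 0⟩, 0⟩ 0 0) (.cut .l 372243 (.cut .s 9797632 (.pos 43 .mp ⟨40341733, 0, 0, 0, 0, 87845716, 0, 0, 0, ⟨0, 0⟩, 0⟩ 0 0) (.pos 43 .mp ⟨41009063, 0, 0, 0, 0, 89711356, 0, 0, 0, ⟨0, 0⟩, 0⟩ 0 0)) (.pos 43 .mp ⟨41966582, 0, 0, 0, 0, 84091781, 0, 0, 0, ⟨0, 0⟩, 0⟩ 0 0))) (.cut .d (-16384) (.cut .v 16842752 (.cut .d (-24576) (.cut .s 9797632 (.pos 66 .mp ⟨38545939, 0, 0, 0, 0, 88870560, 0, 0, 0, ⟨0, 0⟩, 0⟩ 0 0) (.cut .s 9814016 (.pos 66 .mp ⟨40291562, 0, 0, 0, 0, 88694466, 0, 0, 0, ⟨0, 0⟩, 0⟩ 0 0) (.pos 66 .mp ⟨40658835, 0, 0, 0, 0, 89536696, 0, 0, 0, ⟨0, 0⟩, 0⟩ 0 0))) (.pos 66 .mp ⟨40590344, 0, 0,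 0, 0, 82972700, 0, 0, 0, ⟨0, 0⟩, 0⟩ 0 0)) (.pos 67 .mp ⟨104458914, 0, 0, 0, 0, 0, 0, 0, 0, ⟨0, 0⟩, 0⟩ 0 0)) (.pos 43 .mp ⟨39830696, 0, 0, 0, 0, 0, 0, 0, 0, ⟨0, 0⟩, 0⟩ 0 0))) (.cut .s 9797632 (.pos 43 .mp ⟨41494507, 0, 0, 0, 0, 82574987, 0, 0, 0, ⟨0, 0⟩, 0⟩ 0 0) (.pos 43 .mp ⟨42301112, 0, 0, 0, 0, 84190938, 0, 0, 0, ⟨0, 0⟩, 0⟩ 0 0))) (.pos 43 .mp ⟨0, 0, 0, 0, 0, 0, 0, 0, 0, ⟨0, 0⟩, 0⟩ 0 0)) (.pos 44 .mp ⟨104994589, 0, 0, 0, 0, 0, 0, 0, 0, ⟨0, 0⟩, 0⟩ 0 0))))) (.pos 42 .mp ⟨106048227, 0, 0, 0, 0, 0, 0, 0, 0, ⟨0, 0⟩, 0⟩ 0 0)) (.cut .v 17039360 (.cut .s 9961472 (.cut .d (-65536) (.cut .l 796917 (.cut .d (-98304) (.void 41 ⟨0, 0, 0, 0, 0, 100000, 0, 0, 0, ⟨0, 0⟩,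 0⟩ 0 0) (.cut .d (-81920) (.pos 41 .mp ⟨42416981, 0, 0, 0, 0, 102791492, 0, 0, 0, ⟨0, 0⟩, 0⟩ 0 0) (.cut .v 16908288 (.cut .l 513801 (.void 43 ⟨0, 0, 0, 0, 0, 100000, 0, 0, 0, ⟨0, 0⟩, 0⟩ 0 0) (.cut .s 9895936 (.pos 43 .mp ⟨40404574, 0, 0, 0, 0, 95473722, 0, 0, 0, ⟨0, 0⟩, 0⟩ 0 0) (.pos 43 .mp ⟨41978446, 0, 0, 0, 0, 99136694, 0, 0, 0, ⟨0, 0⟩, 0⟩ 0 0))) (.pos 44 .mp ⟨114769875, 0, 0, 0, 0, 0, 0, 0, 0, ⟨0, 0⟩, 0⟩ 0 0)))) (.cut .d (-98304) (.cut .v 16908288 (.pos 43 .mp ⟨0, 0, 0, 0, 0, 151023883, 0, 0, 0, ⟨0, 0⟩, 0⟩ 0 0) (.cut .s 9895936 (.cut .v 16973824 (.cut .s 9863168 (.pos 70 .mp ⟨39885037, 0, 0, 0, 0, 95226897, 0, 0, 0, ⟨0, 0⟩, 0⟩ 0 0) (.pos 70 .mp ⟨40692523,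 0, 0, 0, 0, 97002200, 0, 0, 0, ⟨0, 0⟩, 0⟩ 0 0)) (.pos 71 .mp ⟨60143687, 0, 0, 0, 0, 70177312, 0, 0, 0, ⟨0, 0⟩, 0⟩ 0 0)) (.cut .l 1080033 (.cut .s 9928704 (.pos 44 .mp ⟨43727152, 0, 0, 0, 0, 97576535, 0, 0, 0, ⟨0, 0⟩, 0⟩ 0 0) (.pos 44 .mp ⟨44594582, 0, 0, 0, 0, 99425982, 0, 0, 0, ⟨0, 0⟩, 0⟩ 0 0)) (.cut .s 9928704 (.pos 44 .mp ⟨47423905, 0, 0, 0, 0, 89735461, 0, 0, 0, ⟨0, 0⟩, 0⟩ 0 0) (.pos 44 .mp ⟨48376427, 0, 0, 0, 0, 91398488, 0, 0, 0, ⟨0, 0⟩, 0⟩ 0 0))))) (.cut .l 1080033 (.cut .d (-81920) (.cut .v 16908288 (.pos 43 .mp ⟨0, 0, 0, 0, 0, 148502685, 0, 0, 0, ⟨0, 0⟩, 0⟩ 0 0) (.cut .s 9895936 (.pos 44 .mp ⟨45706876, 0, 0, 0, 0, 86937159, 0, 0, 0, ⟨0, 0⟩, 0⟩ 0 0)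 (.pos 44 .mp ⟨47523115, 0, 0, 0, 0, 90153731, 0, 0, 0, ⟨0, 0⟩, 0⟩ 0 0))) (.pos 41 .mp ⟨45540870, 0, 0, 0, 0, 0, 0, 0, 0, ⟨0, 0⟩, 0⟩ 0 0)) (.pos 41 .mp ⟨0, 0, 0, 0, 0, 0, 0, 0, 0, ⟨0, 0⟩, 0⟩ 0 0)))) (.cut .v 16908288 (.cut .l 796917 (.cut .s 9895936 (.cut .d (-32768) (.cut .l 513801 (.cut .d (-49152) (.pos 43 .mp ⟨41016552, 0, 0, 0, 0, 96689667, 0, 0, 0, ⟨0, 0⟩, 0⟩ 0 0) (.cut .l 372243 (.cut .s 9863168 (.pos 43 .mp ⟨40683334, 0, 0, 0, 0, 94279375, 0, 0, 0, ⟨0, 0⟩, 0⟩ 0 0) (.pos 43 .mp ⟨41446813, 0, 0, 0, 0, 96074628, 0, 0, 0, ⟨0, 0⟩, 0⟩ 0 0)) (.cut .s 9863168 (.pos 43 .mp ⟨42123296, 0, 0, 0, 0, 88878293, 0, 0, 0, ⟨0, 0⟩, 0⟩ 0 0) (.pos 43 .mp ⟨42953240, 0, 0,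 0, 0, 90523911, 0, 0, 0, ⟨0, 0⟩, 0⟩ 0 0)))) (.pos 43 .mp ⟨43814323, 0, 0, 0, 0, 86535578, 0, 0, 0, ⟨0, 0⟩, 0⟩ 0 0)) (.cut .d (-16384) (.cut .v 16842752 (.cut .v 16809984 (.pos 83 .mp ⟨0, 0, 0, 0, 0, 139290158, 0, 0, 0, ⟨0, 0⟩, 0⟩ 0 0) (.cut .l 513801 (.cut .l 372243 (.cut .l 301464 (.cut .d (-24576) (.cut .s 9863168 (.pos 84 .mp ⟨41010861, 0, 0, 0, 0, 91284427, 0, 0, 0, ⟨0, 0⟩, 0⟩ 0 0) (.pos 84 .mp ⟨41654473, 0, 0, 0, 0, 93240583, 0, 0, 0, ⟨0, 0⟩, 0⟩ 0 0)) (.cut .s 9863168 (.pos 84 .mp ⟨41639729, 0, 0, 0, 0, 87518096, 0, 0, 0, ⟨0, 0⟩, 0⟩ 0 0) (.pos 84 .mp ⟨42407272, 0, 0, 0, 0, 89233663, 0, 0, 0, ⟨0, 0⟩, 0⟩ 0 0))) (.pos 84 .mp ⟨42590351, 0, 0, 0, 0, 86595227,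 0, 0, 0, ⟨0, 0⟩, 0⟩ 0 0)) (.pos 84 .mp ⟨0, 0, 0, 0, 0, 0, 0, 0, 0, ⟨0, 0⟩, 0⟩ 0 0)) (.pos 84 .mp ⟨0, 0, 0, 0, 0, 0, 0, 0, 0, ⟨0, 0⟩, 0⟩ 0 0))) (.pos 67 .mp ⟨107400522, 0, 0, 0, 0, 0, 0, 0, 0, ⟨0, 0⟩, 0⟩ 0 0)) (.pos 43 .mp ⟨41239774, 0, 0, 0, 0, 0, 0, 0, 0, ⟨0, 0⟩, 0⟩ 0 0))) (.cut .d (-32768) (.cut .l 513801 (.cut .d (-49152) (.pos 43 .mp ⟨42587804, 0, 0, 0, 0, 100442367, 0, 0, 0, ⟨0, 0⟩, 0⟩ 0 0) (.cut .l 372243 (.cut .s 9928704 (.pos 43 .mp ⟨42218497, 0, 0, 0, 0, 97937539, 0, 0, 0, ⟨0, 0⟩, 0⟩ 0 0) (.pos 43 .mp ⟨42998501, 0, 0, 0, 0, 99869234, 0, 0, 0, ⟨0, 0⟩, 0⟩ 0 0)) (.cut .s 9928704 (.pos 43 .mp ⟨43752297, 0, 0, 0, 0, 92291460, 0, 0, 0, ⟨0, 0⟩, 0⟩ 0 0) (.pos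 43 .mp ⟨44517679, 0, 0, 0, 0, 94186572, 0, 0, 0, ⟨0, 0⟩, 0⟩ 0 0)))) (.cut .s 9928704 (.pos 43 .mp ⟨42390821, 0, 0, 0, 0, 94187446, 0, 0, 0, ⟨0, 0⟩, 0⟩ 0 0) (.pos 43 .mp ⟨43096284, 0, 0, 0, 0, 96171130, 0, 0, 0, ⟨0, 0⟩, 0⟩ 0 0))) (.cut .d (-16384) (.cut .v 16842752 (.cut .v 16809984 (.pos 83 .mp ⟨0, 0, 0, 0, 0, 145001302, 0, 0, 0, ⟨0, 0⟩, 0⟩ 0 0) (.cut .l 513801 (.cut .l 372243 (.cut .l 301464 (.cut .d (-24576) (.cut .s 9928704 (.pos 84 .mp ⟨42348987, 0, 0, 0, 0, 95177738, 0, 0, 0, ⟨0, 0⟩, 0⟩ 0 0) (.pos 84 .mp ⟨43096451, 0, 0, 0, 0, 97092414, 0, 0, 0, ⟨0, 0⟩, 0⟩ 0 0)) (.cut .s 9928704 (.pos 84 .mp ⟨43183139, 0, 0, 0, 0, 90978945, 0, 0, 0, ⟨0, 0⟩, 0⟩ 0 0) (.pos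 84 .mp ⟨43967445, 0, 0, 0, 0, 92753273, 0, 0, 0, ⟨0, 0⟩, 0⟩ 0 0))) (.pos 84 .mp ⟨44169223, 0, 0, 0, 0, 89997045, 0, 0, 0, ⟨0, 0⟩, 0⟩ 0 0)) (.pos 84 .mp ⟨0, 0, 0, 0, 0, 0, 0, 0, 0, ⟨0, 0⟩, 0⟩ 0 0)) (.pos 84 .mp ⟨0, 0, 0, 0, 0, 0, 0, 0, 0, ⟨0, 0⟩, 0⟩ 0 0))) (.pos 67 .mp ⟨111174536, 0, 0, 0, 0, 0, 0, 0, 0, ⟨0, 0⟩, 0⟩ 0 0)) (.pos 43 .mp ⟨42678121, 0, 0, 0, 0, 0, 0, 0, 0, ⟨0, 0⟩, 0⟩ 0 0)))) (.pos 43 .mp ⟨0, 0, 0, 0, 0, 0, 0, 0, 0, ⟨0, 0⟩, 0⟩ 0 0)) (.pos 44 .mp ⟨110077057, 0, 0, 0, 0, 0, 0, 0, 0, ⟨0, 0⟩, 0⟩ 0 0))) (.cut .d (-65536) (.cut .l 796917 (.cut .d (-98304) (.void 41 ⟨0, 0, 0, 0, 0, 100000, 0, 0, 0, ⟨0, 0⟩, 0⟩ 0 0) (.cut .v 16908288 (.cut .s 10027008 (.pos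 43 .mp ⟨43586729, 0, 0, 0, 0, 104392916, 0, 0, 0, ⟨0, 0⟩, 0⟩ 0 0) (.pos 43 .mp ⟨45230394, 0, 0, 0, 0, 108599840, 0, 0, 0, ⟨0, 0⟩, 0⟩ 0 0)) (.pos 44 .mp ⟨130014837, 0, 0, 0, 0, 0, 0, 0, 0, ⟨0, 0⟩, 0⟩ 0 0))) (.cut .d (-98304) (.cut .v 16908288 (.pos 43 .mp ⟨0, 0, 0, 0, 0, 163515471, 0, 0, 0, ⟨0, 0⟩, 0⟩ 0 0) (.cut .s 10027008 (.cut .s 9994240 (.pos 44 .mp ⟨51435783, 0, 0, 0, 0, 90919583, 0, 0, 0, ⟨0, 0⟩, 0⟩ 0 0) (.pos 44 .mp ⟨52450100, 0, 0, 0, 0, 92646789, 0, 0, 0, ⟨0, 0⟩, 0⟩ 0 0)) (.cut .s 10059776 (.pos 44 .mp ⟨53477373, 0, 0, 0, 0, 94423626, 0, 0, 0, ⟨0, 0⟩, 0⟩ 0 0) (.pos 44 .mp ⟨54517779, 0, 0, 0, 0, 96250223, 0, 0, 0, ⟨0, 0⟩, 0⟩ 0 0)))) (.cut .s 10027008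 (.cut .s 9994240 (.pos 41 .mp ⟨47890175, 0, 0, 0, 0, 92622868, 0, 0, 0, ⟨0, 0⟩, 0⟩ 0 0) (.pos 41 .mp ⟨48809698, 0, 0, 0, 0, 94423094, 0, 0, 0, ⟨0, 0⟩, 0⟩ 0 0)) (.pos 41 .mp ⟨50681925, 0, 0, 0, 0, 95263672, 0, 0, 0, ⟨0, 0⟩, 0⟩ 0 0)))) (.cut .l 796917 (.cut .v 16908288 (.cut .s 10027008 (.cut .d (-32768) (.cut .l 513801 (.cut .l 372243 (.pos 43 .mp ⟨43786941, 0, 0, 0, 0, 104157178, 0, 0, 0, ⟨0, 0⟩, 0⟩ 0 0) (.cut .s 9994240 (.pos 43 .mp ⟨42769430, 0, 0, 0, 0, 101284268, 0, 0, 0, ⟨0, 0⟩, 0⟩ 0 0) (.pos 43 .mp ⟨43548054, 0, 0, 0, 0, 103287286, 0, 0, 0, ⟨0, 0⟩, 0⟩ 0 0))) (.pos 43 .mp ⟨46879863, 0, 0, 0, 0, 93928670, 0, 0, 0, ⟨0, 0⟩, 0⟩ 0 0)) (.cut .d (-16384) (.cut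 .v 16842752 (.cut .v 16809984 (.pos 83 .mp ⟨0, 0, 0, 0, 0, 150891810, 0, 0, 0, ⟨0, 0⟩, 0⟩ 0 0) (.cut .d (-24576) (.cut .s 9994240 (.pos 84 .mp ⟨45490498, 0, 0, 0, 0, 96260485, 0, 0, 0, ⟨0, 0⟩, 0⟩ 0 0) (.pos 84 .mp ⟨46311292, 0, 0, 0, 0, 98232900, 0, 0, 0, ⟨0, 0⟩, 0⟩ 0 0)) (.pos 84 .mp ⟨45561855, 0, 0, 0, 0, 93722688, 0, 0, 0, ⟨0, 0⟩, 0⟩ 0 0))) (.pos 67 .mp ⟨115155325, 0, 0, 0, 0, 0, 0, 0, 0, ⟨0, 0⟩, 0⟩ 0 0)) (.pos 43 .mp ⟨44146536, 0, 0, 0, 0, 0, 0, 0, 0, ⟨0, 0⟩, 0⟩ 0 0))) (.cut .l 513801 (.cut .d (-32768) (.cut .s 10059776 (.pos 43 .mp ⟨45048804, 0, 0, 0, 0, 104944705, 0, 0, 0, ⟨0, 0⟩, 0⟩ 0 0) (.pos 43 .mp ⟨46065230, 0, 0, 0, 0, 106726146, 0, 0, 0, ⟨0, 0⟩,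 0⟩ 0 0)) (.cut .d (-16384) (.cut .d (-24576) (.cut .s 10059776 (.pos 43 .mp ⟨47103862, 0, 0, 0, 0, 99962940, 0, 0, 0, ⟨0, 0⟩, 0⟩ 0 0) (.pos 43 .mp ⟨47828692, 0, 0, 0, 0, 102251890, 0, 0, 0, ⟨0, 0⟩, 0⟩ 0 0)) (.pos 43 .mp ⟨46961363, 0, 0, 0, 0, 97100663, 0, 0, 0, ⟨0, 0⟩, 0⟩ 0 0)) (.pos 43 .mp ⟨45645851, 0, 0, 0, 0, 0, 0, 0, 0, ⟨0, 0⟩, 0⟩ 0 0))) (.pos 43 .mp ⟨49097838, 0, 0, 0, 0, 95572156, 0, 0, 0, ⟨0, 0⟩, 0⟩ 0 0))) (.pos 44 .mp ⟨121037315, 0, 0, 0, 0, 0, 0, 0, 0, ⟨0, 0⟩, 0⟩ 0 0)) (.pos 41 .mp ⟨47010485, 0, 0, 0, 0, 0, 0, 0, 0, ⟨0, 0⟩, 0⟩ 0 0)))) (.pos 42 .mp ⟨121546054, 0, 0, 0, 0, 0, 0, 0, 0, ⟨0, 0⟩, 0⟩ 0 0)))) (.pos 40 .mp ⟨126784129, 0, 0, 0, 0, 0, 0, 0,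 0, ⟨0, 0⟩, 0⟩ 0 0)) (.pos 38 .mp ⟨136790085, 0, 0, 0, 0, 0, 0, 0, 0, ⟨0, 0⟩, 0⟩ 0 0)))))) (.void 36 ⟨100000, 0, 0, 0, 0, 0, 0, 0, 0, ⟨0, 0⟩, 0⟩ 0 0))) (.void 34 ⟨100000, 0, 0, 0, 0, 0, 0, 0, 0, ⟨0, 0⟩, 0⟩ 0 0))) (.void 32 ⟨100000, 0, 0, 0, 0, 0, 0, 0, 0, ⟨0, 0⟩, 0⟩ 0 0)) (.void 63 ⟨100000, 0, 0, 0, 0, 0, 0, 0, 0, ⟨0, 0⟩, 0⟩ 0 0)) (.void 74 ⟨100000, 0, 0, 0, 0, 0, 0, 0, 0, ⟨0, 0⟩, 0⟩ 0 0))) (.cut .v 16777216 (.cut .v 8388608 (.cut .v 4194304 (.cut .v 2097152 (.void 6 ⟨0, 0, 25058, 0, 0, 0, 0, 0, 74942, ⟨0, 0⟩, 2804900⟩ 0 0) (.pos 7 .pm ⟨0, 0, 0, 0, 0, 0, 0, 0, 3292435, ⟨0, 0⟩, 7053950⟩ 0 0)) (.cut .d 6320185 (.pos 5 .pm ⟨0, 0, 0, 0, 0, 0, 0, 0, 0, ⟨0, 0⟩, 0⟩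 0 0) (.cut .d 9480278 (.pos 5 .pm ⟨0, 0, 0, 0, 0, 0, 0, 0, 0, ⟨0, 0⟩, 0⟩ 0 0) (.cut .v 6291456 (.pos 79 .pm ⟨0, 51385430, 0, 0, 0, 0, 0, 0, 5188380, ⟨0, 0⟩, 9283521⟩ 0 0) (.cut .d 11060324 (.cut .s 9830400 (.pos 80 .pm ⟨0, 46758925, 0, 0, 0, 0, 0, 0, 0, ⟨0, 0⟩, 0⟩ 0 0) (.cut .d 10270301 (.pos 80 .pm ⟨0, 0, 0, 0, 0, 0, 0, 0, 0, ⟨0, 0⟩, 0⟩ 0 0) (.pos 80 .pm ⟨0, 72175767, 0, 0, 0, 0, 0, 0, 0, ⟨0, 0⟩, 0⟩ 0 0))) (.cut .s 9830400 (.pos 80 .pm ⟨0, 68296118, 0, 0, 0, 0, 0, 0, 0, ⟨0, 0⟩, 0⟩ 0 0) (.pos 80 .pm ⟨0, 183284332, 0, 0, 0, 0, 0, 0, 0, ⟨0, 0⟩, 0⟩ 0 0))))))) (.cut .d 6320185 (.pos 3 .pm ⟨0, 0, 0, 0, 0, 0, 0, 0, 0, ⟨0, 0⟩, 0⟩ 0 0) (.cut .d 9480278 (.pos 3 .pm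 ⟨0, 0, 0, 0, 0, 0, 0, 0, 0, ⟨0, 0⟩, 0⟩ 0 0) (.cut .d 11060324 (.cut .v 12582912 (.cut .s 9830400 (.cut .s 9699328 (.pos 8 .pm ⟨0, 20079962, 0, 0, 0, 0, 0, 0, 0, ⟨0, 0⟩, 0⟩ 0 0) (.cut .v 10485760 (.cut .d 10270301 (.pos 10 .pm ⟨0, 0, 0, 0, 0, 0, 0, 0, 0, ⟨0, 0⟩, 0⟩ 0 0) (.cut .d 10665312 (.pos 10 .pm ⟨0, 0, 0, 0, 0, 0, 0, 0, 0, ⟨0, 0⟩, 0⟩ 0 0) (.pos 10 .pm ⟨0, 68416585, 0, 0, 0, 0, 0, 0, 0, ⟨0, 0⟩, 0⟩ 0 0))) (.pos 11 .pm ⟨0, 63969378, 0, 0, 0, 0, 0, 0, 0, ⟨0, 0⟩, 0⟩ 0 0))) (.cut .d 10270301 (.cut .v 10485760 (.cut .v 9437184 (.pos 87 .pm ⟨0, 60680866, 0, 0, 0, 0, 0, 0, 0, ⟨0, 0⟩, 0⟩ 0 0) (.pos 88 .pm ⟨0, 63468403, 0, 0, 0, 0, 0, 0, 0, ⟨0, 0⟩, 0⟩ 0 0)) (.pos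 11 .pm ⟨0, 68462321, 0, 0, 0, 0, 0, 0, 0, ⟨0, 0⟩, 0⟩ 0 0)) (.cut .v 10485760 (.cut .d 10665312 (.cut .l 796917 (.cut .s 9961472 (.cut .v 9437184 (.pos 87 .pm ⟨0, 68992475, 0, 0, 0, 0, 0, 0, 0, ⟨0, 0⟩, 0⟩ 0 0) (.pos 88 .pm ⟨0, 71105988, 0, 0, 0, 0, 0, 0, 0, ⟨0, 0⟩, 0⟩ 0 0)) (.cut .l 513801 (.cut .v 9437184 (.cut .s 10027008 (.pos 87 .pm ⟨0, 76927924, 0, 0, 0, 0, 0, 0, 0, ⟨0, 0⟩, 0⟩ 0 0) (.pos 87 .pm ⟨0, 82592876, 0, 0, 0, 0, 0, 0, 0, ⟨0, 0⟩, 0⟩ 0 0)) (.cut .s 10027008 (.pos 88 .pm ⟨0, 79553260, 0, 0, 0, 0, 0, 0, 0, ⟨0, 0⟩, 0⟩ 0 0) (.pos 88 .pm ⟨0, 85397251, 0, 0, 0, 0, 0, 0, 0, ⟨0, 0⟩, 0⟩ 0 0))) (.pos 10 .pm ⟨0, 80603525, 0, 0, 0, 0, 0, 0, 0, ⟨0, 0⟩, 0⟩ 0 0)))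 (.pos 10 .pm ⟨0, 74886646, 0, 0, 0, 0, 0, 0, 0, ⟨0, 0⟩, 0⟩ 0 0)) (.cut .s 9961472 (.cut .v 9437184 (.pos 87 .pm ⟨0, 78095127, 0, 0, 0, 0, 0, 0, 0, ⟨0, 0⟩, 0⟩ 0 0) (.pos 88 .pm ⟨0, 81332083, 0, 0, 0, 0, 0, 0, 0, ⟨0, 0⟩, 0⟩ 0 0)) (.void 10 ⟨0, 100000, 0, 0, 0, 0, 0, 0, 0, ⟨0, 0⟩, 0⟩ 0 0))) (.cut .s 9961472 (.pos 11 .pm ⟨0, 81005681, 0, 0, 0, 0, 0, 0, 0, ⟨0, 0⟩, 0⟩ 0 0) (.pos 11 .pm ⟨0, 93454650, 0, 0, 0, 0, 0, 0, 0, ⟨0, 0⟩, 0⟩ 0 0))))) (.pos 9 .pm ⟨0, 76517594, 0, 0, 0, 0, 0, 0, 0, ⟨0, 0⟩, 0⟩ 0 0)) (.cut .v 12582912 (.cut .s 9830400 (.cut .d 11850347 (.cut .v 10485760 (.cut .s 9699328 (.cut .d 11455335 (.pos 10 .pm ⟨0, 64763807, 0, 0, 0, 0, 0, 0, 0, ⟨0, 0⟩,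 0⟩ 0 0) (.pos 10 .pm ⟨0, 73970147, 0, 0, 0, 0, 0, 0, 0, ⟨0, 0⟩, 0⟩ 0 0)) (.pos 10 .pm ⟨0, 81294241, 0, 0, 0, 0, 0, 0, 0, ⟨0, 0⟩, 0⟩ 0 0)) (.cut .s 9699328 (.cut .d 11455335 (.pos 11 .pm ⟨0, 68259392, 0, 0, 0, 0, 0, 0, 0, ⟨0, 0⟩, 0⟩ 0 0) (.pos 11 .pm ⟨0, 77947108, 0, 0, 0, 0, 0, 0, 0, ⟨0, 0⟩, 0⟩ 0 0)) (.pos 11 .pm ⟨0, 86268831, 0, 0, 0, 0, 0, 0, 0, ⟨0, 0⟩, 0⟩ 0 0))) (.void 8 ⟨0, 100000, 0, 0, 0, 0, 0, 0, 0, ⟨0, 0⟩, 0⟩ 0 0)) (.void 8 ⟨0, 100000, 0, 0, 0, 0, 0, 0, 0, ⟨0, 0⟩, 0⟩ 0 0)) (.pos 9 .pm ⟨0, 120261030, 0, 0, 0, 0, 0, 0, 0, ⟨0, 0⟩, 0⟩ 0 0)))))) (.cut .v 67108864 (.cut .d 6320185 (.cut .d 3160092 (.cut .v 33554432 (.cut .d 1580046 (.cut .v 25165824 (.cut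 .v 20971520 (.pos 33 .pp ⟨64236420, 0, 0, 0, 0, 0, 0, 0, 0, ⟨0, 0⟩, 0⟩ 0 0) (.pos 34 .pp ⟨125178123, 0, 0, 0, 0, 0, 0, 0, 0, ⟨0, 0⟩, 0⟩ 0 0)) (.pos 32 .pp ⟨206330651, 0, 0, 0, 0, 0, 0, 0, 0, ⟨0, 0⟩, 0⟩ 0 0)) (.pos 30 .pp ⟨0, 0, 0, 0, 0, 0, 0, 0, 0, ⟨0, 0⟩, 0⟩ 0 0)) (.cut .d 1580046 (.cut .v 50331648 (.pos 64 .pp ⟨502016217, 0, 0, 0, 0, 0, 0, 0, 0, ⟨0, 0⟩, 0⟩ 0 0) (.void 65 ⟨100000, 0, 0, 0, 0, 0, 0, 0, 0, ⟨0, 0⟩, 0⟩ 0 0)) (.cut .v 50331648 (.pos 64 .pp ⟨147618400, 0, 0, 0, 0, 0, 0, 0, 0, ⟨0, 0⟩, 0⟩ 0 0) (.pos 65 .pp ⟨525567503, 0, 0, 0, 0, 0, 0, 0, 0, ⟨0, 0⟩, 0⟩ 0 0)))) (.pos 62 .pp ⟨0, 0, 0, 0, 0, 0, 0, 0, 0, ⟨0, 0⟩, 0⟩ 0 0)) (.cut .d 9480278 (.pos 62 .pp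 ⟨0, 0, 0, 0, 0, 0, 0, 0, 0, ⟨0, 0⟩, 0⟩ 0 0) (.pos 62 .pp ⟨0, 121126656, 0, 0, 0, 0, 0, 0, 0, ⟨0, 0⟩, 0⟩ 0 0))) (.cut .v 134217728 (.cut .d 6320185 (.cut .d 3160092 (.cut .v 100663296 (.cut .v 83886080 (.cut .d 1580046 (.void 81 ⟨100000, 0, 0, 0, 0, 0, 0, 0, 0, ⟨0, 0⟩, 0⟩ 0 0) (.pos 81 .pp ⟨1092527180, 0, 0, 0, 0, 0, 0, 0, 0, ⟨0, 0⟩, 0⟩ 0 0)) (.pos 82 .pp ⟨2078391607, 0, 0, 0, 0, 0, 0, 0, 0, ⟨0, 0⟩, 0⟩ 0 0)) (.void 78 ⟨43170, 56830, 0, 0, 0, 0, 0, 0, 0, ⟨0, 0⟩, 0⟩ 0 0)) (.pos 75 .pp ⟨0, 288364830, 0, 0, 0, 0, 5451433, 0, 0, ⟨0, 0⟩, 0⟩ 0 0)) (.void 75 ⟨0, 100000, 0, 0, 0, 0, 0, 0, 0, ⟨0, 0⟩, 0⟩ 0 0)) (.void 76 ⟨37646, 62354, 0, 0, 0, 0, 0, 0, 0, ⟨0, 0⟩, 0⟩ 0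 0))))),
    by decide +kernel⟩

def covers13 : cell.Covers table row13.1 :=
  ⟨(.cut .d 0 (.cut .v 16777216 (.cut .d (-8388608) (.void 1 ⟨0, 0, 0, 0, 0, 100000, 0, 0, 0, ⟨0, 0⟩, 0⟩ 0 0) (.cut .d (-4194304) (.void 1 ⟨0, 0, 0, 0, 0, 100000, 0, 0, 0, ⟨0, 0⟩, 0⟩ 0 0) (.cut .d (-2097152) (.void 1 ⟨0, 0, 0, 0, 0, 100000, 0, 0, 0, ⟨0, 0⟩, 0⟩ 0 0) (.cut .d (-1048576) (.void 1 ⟨0, 0, 0, 0, 0, 100000, 0, 0, 0, ⟨0, 0⟩, 0⟩ 0 0) (.cut .d (-524288) (.void 1 ⟨0, 0, 0, 0, 0, 100000, 0, 0, 0, ⟨0, 0⟩, 0⟩ 0 0) (.cut .d (-262144) (.void 1 ⟨0, 0, 0, 0, 0, 100000, 0, 0, 0, ⟨0, 0⟩, 0⟩ 0 0) (.cut .v 8388608 (.cut .v 4194304 (.void 4 ⟨0, 0, 100000, 0, 0, 0, 0, 0, 0, ⟨0, 0⟩, 0⟩ 0 0)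 (.pos 5 .mm ⟨0, 0, 0, 0, 0, 83955079, 0, 0, 0, ⟨0, 0⟩, 0⟩ 0 0)) (.cut .d (-131072) (.pos 3 .mm ⟨0, 0, 0, 0, 0, 213077232, 0, 0, 0, ⟨0, 0⟩, 0⟩ 0 0) (.cut .v 12582912 (.pos 8 .mm ⟨0, 0, 0, 0, 0, 117450711, 0, 0, 0, ⟨0, 0⟩, 0⟩ 0 0) (.cut .v 14680064 (.pos 12 .mm ⟨0, 0, 0, 0, 0, 151163987, 0, 0, 0, ⟨0, 0⟩, 0⟩ 0 0) (.cut .v 15728640 (.pos 16 .mm ⟨0, 0, 0, 0, 0, 167807622, 0, 0, 0, ⟨0, 0⟩, 0⟩ 0 0) (.cut .v 16252928 (.pos 20 .mm ⟨0, 0, 0, 0, 0, 176601252, 0, 0, 0, ⟨0, 0⟩, 0⟩ 0 0) (.cut .v 16515072 (.pos 24 .mm ⟨0, 0, 0, 0, 0, 181144351, 0, 0, 0, ⟨0, 0⟩, 0⟩ 0 0) (.cut .s 10289152 (.cut .s 10190848 (.pos 25 .mm ⟨0, 0, 0, 0, 0, 168900202, 0, 0, 0, ⟨0, 0⟩, 0⟩ 0 0) (.pos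 25 .mm ⟨0, 0, 0, 0, 0, 179154724, 0, 0, 0, ⟨0, 0⟩, 0⟩ 0 0)) (.cut .s 10387456 (.pos 25 .mm ⟨0, 0, 0, 0, 0, 189934456, 0, 0, 0, ⟨0, 0⟩, 0⟩ 0 0) (.pos 25 .mm ⟨0, 0, 0, 0, 0, 201224713, 0, 0, 0, ⟨0, 0⟩, 0⟩ 0 0)))))))))))))))) (.cut .v 268435456 (.cut .v 67108864 (.cut .v 33554432 (.cut .v 25165824 (.cut .d (-8388608) (.void 31 ⟨0, 0, 0, 0, 0, 100000, 0, 0, 0, ⟨0, 0⟩, 0⟩ 0 0) (.cut .v 20971520 (.cut .d (-4194304) (.void 33 ⟨100000, 0, 0, 0, 0, 0, 0, 0, 0, ⟨0, 0⟩, 0⟩ 0 0) (.cut .d (-2097152) (.void 33 ⟨100000, 0, 0, 0, 0, 0, 0, 0, 0, ⟨0, 0⟩, 0⟩ 0 0) (.cut .d (-1048576) (.void 33 ⟨100000, 0, 0, 0, 0, 0, 0, 0, 0, ⟨0, 0⟩, 0⟩ 0 0) (.cut .d (-524288) (.void 33 ⟨100000,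 0, 0, 0, 0, 0, 0, 0, 0, ⟨0, 0⟩, 0⟩ 0 0) (.cut .d (-262144) (.void 33 ⟨0, 0, 0, 0, 0, 100000, 0, 0, 0, ⟨0, 0⟩, 0⟩ 0 0) (.cut .v 18874368 (.cut .v 17825792 (.cut .v 17301504 (.cut .d (-131072) (.cut .v 17039360 (.cut .s 10289152 (.pos 41 .mp ⟨49490499, 0, 0, 0, 0, 135221307, 0, 0, 0, ⟨0, 0⟩, 0⟩ 0 0) (.void 41 ⟨0, 0, 0, 0, 0, 100000, 0, 0, 0, ⟨0, 0⟩, 0⟩ 0 0)) (.void 42 ⟨100000, 0, 0, 0, 0, 0, 0, 0, 0, ⟨0, 0⟩, 0⟩ 0 0)) (.cut .s 10289152 (.cut .v 17039360 (.cut .s 10190848 (.cut .d (-65536) (.cut .l 796917 (.cut .s 10141696 (.pos 41 .mp ⟨47485232, 0, 0, 0, 0, 113335926, 0, 0, 0, ⟨0, 0⟩, 0⟩ 0 0) (.pos 41 .mp ⟨48819839, 0, 0, 0, 0, 116252746, 0, 0, 0, ⟨0, 0⟩, 0⟩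 0 0)) (.cut .v 16908288 (.pos 43 .mp ⟨11508687, 0, 0, 0, 0, 158407870, 0, 0, 0, ⟨0, 0⟩, 0⟩ 0 0) (.cut .v 16973824 (.cut .s 10141696 (.cut .s 10117120 (.pos 70 .mp ⟨54994640, 0, 0, 0, 0, 98425580, 0, 0, 0, ⟨0, 0⟩, 0⟩ 0 0) (.pos 70 .mp ⟨55798289, 0, 0, 0, 0, 99640698, 0, 0, 0, ⟨0, 0⟩, 0⟩ 0 0)) (.cut .s 10166272 (.pos 70 .mp ⟨56609033, 0, 0, 0, 0, 100888472, 0, 0, 0, ⟨0, 0⟩, 0⟩ 0 0) (.pos 70 .mp ⟨57426949, 0, 0, 0, 0, 102168834, 0, 0, 0, ⟨0, 0⟩, 0⟩ 0 0))) (.pos 71 .mp ⟨87575636, 0, 0, 0, 0, 60493403, 0, 0, 0, ⟨0, 0⟩, 0⟩ 0 0)))) (.cut .v 16908288 (.cut .l 796917 (.cut .d (-32768) (.cut .s 10141696 (.cut .s 10117120 (.pos 43 .mp ⟨46948830, 0, 0, 0, 0, 107928678,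 0, 0, 0, ⟨0, 0⟩, 0⟩ 0 0) (.pos 43 .mp ⟨47123766, 0, 0, 0, 0, 110037620, 0, 0, 0, ⟨0, 0⟩, 0⟩ 0 0)) (.cut .l 513801 (.cut .s 10166272 (.pos 43 .mp ⟨48873669, 0, 0, 0, 0, 110276721, 0, 0, 0, ⟨0, 0⟩, 0⟩ 0 0) (.pos 43 .mp ⟨49295510, 0, 0, 0, 0, 112148327, 0, 0, 0, ⟨0, 0⟩, 0⟩ 0 0)) (.pos 43 .mp ⟨51839753, 0, 0, 0, 0, 104599948, 0, 0, 0, ⟨0, 0⟩, 0⟩ 0 0))) (.cut .d (-16384) (.cut .v 16842752 (.cut .v 16809984 (.pos 83 .mp ⟨0, 0, 0, 0, 0, 167226114, 0, 0, 0, ⟨0, 0⟩, 0⟩ 0 0) (.cut .l 513801 (.cut .l 372243 (.cut .l 301464 (.cut .d (-24576) (.pos 84 .mp ⟨47381875, 0, 0, 0, 0, 112803986, 0, 0, 0, ⟨0, 0⟩, 0⟩ 0 0) (.cut .s 10141696 (.pos 84 .mp ⟨48440734, 0, 0, 0, 0, 103838509,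 0, 0, 0, ⟨0, 0⟩, 0⟩ 0 0) (.pos 84 .mp ⟨49709449, 0, 0, 0, 0, 106759413, 0, 0, 0, ⟨0, 0⟩, 0⟩ 0 0))) (.pos 84 .mp ⟨49987895, 0, 0, 0, 0, 102861439, 0, 0, 0, ⟨0, 0⟩, 0⟩ 0 0)) (.pos 84 .mp ⟨0, 0, 0, 0, 0, 0, 0, 0, 0, ⟨0, 0⟩, 0⟩ 0 0)) (.pos 84 .mp ⟨0, 0, 0, 0, 0, 0, 0, 0, 0, ⟨0, 0⟩, 0⟩ 0 0))) (.pos 67 .mp ⟨124622808, 0, 0, 0, 0, 0, 0, 0, 0, ⟨0, 0⟩, 0⟩ 0 0)) (.pos 43 .mp ⟨49009730, 0, 0, 0, 0, 0, 0, 0, 0, ⟨0, 0⟩, 0⟩ 0 0))) (.pos 43 .mp ⟨0, 0, 0, 0, 0, 0, 0, 0, 0, ⟨0, 0⟩, 0⟩ 0 0)) (.pos 44 .mp ⟨126337036, 0, 0, 0, 0, 0, 0, 0, 0, ⟨0, 0⟩, 0⟩ 0 0))) (.cut .d (-65536) (.cut .l 796917 (.cut .s 10240000 (.pos 41 .mp ⟨50173052, 0, 0, 0, 0, 119429521, 0, 0, 0, ⟨0, 0⟩, 0⟩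 0 0) (.pos 41 .mp ⟨51545297, 0, 0, 0, 0, 122776973, 0, 0, 0, ⟨0, 0⟩, 0⟩ 0 0)) (.cut .v 16908288 (.cut .s 10240000 (.pos 43 .mp ⟨30457410, 0, 0, 0, 0, 141030087, 0, 0, 0, ⟨0, 0⟩, 0⟩ 0 0) (.pos 43 .mp ⟨30239056, 0, 0, 0, 0, 146397274, 0, 0, 0, ⟨0, 0⟩, 0⟩ 0 0)) (.cut .s 10240000 (.cut .d (-98304) (.cut .s 10215424 (.pos 44 .mp ⟨58598313, 0, 0, 0, 0, 103389061, 0, 0, 0, ⟨0, 0⟩, 0⟩ 0 0) (.cut .s 10227712 (.pos 44 .mp ⟨56837170, 0, 0, 0, 0, 107848346, 0, 0, 0, ⟨0, 0⟩, 0⟩ 0 0) (.pos 44 .mp ⟨50728068, 0, 0, 0, 0, 118645509, 0, 0, 0, ⟨0, 0⟩, 0⟩ 0 0))) (.pos 44 .mp ⟨55812451, 0, 0, 0, 0, 106494614, 0, 0, 0, ⟨0, 0⟩, 0⟩ 0 0)) (.cut .d (-98304) (.cut .v 16973824 (.cut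 .s 10264576 (.pos 70 .mp ⟨50753710, 0, 0, 0, 0, 119844873, 0, 0, 0, ⟨0, 0⟩, 0⟩ 0 0) (.pos 70 .mp ⟨51464759, 0, 0, 0, 0, 121464640, 0, 0, 0, ⟨0, 0⟩, 0⟩ 0 0)) (.pos 71 .mp ⟨68642604, 0, 0, 0, 0, 97418346, 0, 0, 0, ⟨0, 0⟩, 0⟩ 0 0)) (.pos 44 .mp ⟨57370939, 0, 0, 0, 0, 109300572, 0, 0, 0, ⟨0, 0⟩, 0⟩ 0 0))))) (.cut .l 796917 (.cut .v 16908288 (.cut .d (-32768) (.cut .s 10240000 (.cut .l 513801 (.cut .s 10215424 (.pos 43 .mp ⟨49750777, 0, 0, 0, 0, 114010702, 0, 0, 0, ⟨0, 0⟩, 0⟩ 0 0) (.pos 43 .mp ⟨50240576, 0, 0, 0, 0, 115861965, 0, 0, 0, ⟨0, 0⟩, 0⟩ 0 0)) (.cut .s 10215424 (.pos 43 .mp ⟨47573186, 0, 0, 0, 0, 115719736, 0, 0, 0, ⟨0, 0⟩, 0⟩ 0 0) (.pos 43 .mp ⟨48063780,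 0, 0, 0, 0, 117544120, 0, 0, 0, ⟨0, 0⟩, 0⟩ 0 0))) (.cut .l 513801 (.cut .s 10264576 (.pos 43 .mp ⟨50766016, 0, 0, 0, 0, 117700218, 0, 0, 0, ⟨0, 0⟩, 0⟩ 0 0) (.pos 43 .mp ⟨51328211, 0, 0, 0, 0, 119523548, 0, 0, 0, ⟨0, 0⟩, 0⟩ 0 0)) (.cut .s 10264576 (.pos 43 .mp ⟨48589589, 0, 0, 0, 0, 119355947, 0, 0, 0, ⟨0, 0⟩, 0⟩ 0 0) (.pos 43 .mp ⟨49151716, 0, 0, 0, 0, 121153324, 0, 0, 0, ⟨0, 0⟩, 0⟩ 0 0)))) (.cut .d (-16384) (.cut .v 16842752 (.cut .v 16809984 (.pos 83 .mp ⟨0, 0, 0, 0, 0, 177128289, 0, 0, 0, ⟨0, 0⟩, 0⟩ 0 0) (.cut .l 513801 (.cut .l 372243 (.cut .s 10240000 (.cut .l 301464 (.cut .d (-24576) (.pos 84 .mp ⟨50740611, 0, 0, 0, 0, 113533155, 0, 0, 0, ⟨0, 0⟩, 0⟩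 0 0) (.cut .s 10215424 (.pos 84 .mp ⟨50350362, 0, 0, 0, 0, 109508925, 0, 0, 0, ⟨0, 0⟩, 0⟩ 0 0) (.cut .s 10227712 (.pos 84 .mp ⟨50672480, 0, 0, 0, 0, 110951085, 0, 0, 0, ⟨0, 0⟩, 0⟩ 0 0) (.pos 84 .mp ⟨50995713, 0, 0, 0, 0, 111751252, 0, 0, 0, ⟨0, 0⟩, 0⟩ 0 0)))) (.pos 84 .mp ⟨51293589, 0, 0, 0, 0, 108861919, 0, 0, 0, ⟨0, 0⟩, 0⟩ 0 0)) (.cut .l 301464 (.cut .d (-24576) (.pos 84 .mp ⟨51631208, 0, 0, 0, 0, 117376893, 0, 0, 0, ⟨0, 0⟩, 0⟩ 0 0) (.cut .d (-20480) (.cut .s 10264576 (.pos 84 .mp ⟨50769115, 0, 0, 0, 0, 115721495, 0, 0, 0, ⟨0, 0⟩, 0⟩ 0 0) (.pos 84 .mp ⟨51344161, 0, 0, 0, 0, 117496414, 0, 0, 0, ⟨0, 0⟩, 0⟩ 0 0)) (.pos 84 .mp ⟨51839960, 0, 0, 0, 0, 0, 0, 0,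 0, ⟨0, 0⟩, 0⟩ 0 0))) (.pos 84 .mp ⟨52617821, 0, 0, 0, 0, 111980389, 0, 0, 0, ⟨0, 0⟩, 0⟩ 0 0))) (.pos 84 .mp ⟨0, 0, 0, 0, 0, 0, 0, 0, 0, ⟨0, 0⟩, 0⟩ 0 0)) (.pos 84 .mp ⟨0, 0, 0, 0, 0, 0, 0, 0, 0, ⟨0, 0⟩, 0⟩ 0 0))) (.pos 67 .mp ⟨130537531, 0, 0, 0, 0, 0, 0, 0, 0, ⟨0, 0⟩, 0⟩ 0 0)) (.pos 43 .mp ⟨51544062, 0, 0, 0, 0, 0, 0, 0, 0, ⟨0, 0⟩, 0⟩ 0 0))) (.pos 44 .mp ⟨135209488, 0, 0, 0, 0, 0, 0, 0, 0, ⟨0, 0⟩, 0⟩ 0 0)) (.pos 41 .mp ⟨52937013, 0, 0, 0, 0, 0, 0, 0, 0, ⟨0, 0⟩, 0⟩ 0 0)))) (.pos 42 .mp ⟨138138620, 0, 0, 0, 0, 0, 0, 0, 0, ⟨0, 0⟩, 0⟩ 0 0)) (.cut .v 17039360 (.cut .d (-65536) (.cut .l 796917 (.cut .s 10387456 (.cut .s 10338304 (.pos 41 .mp ⟨52937013, 0, 0, 0,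 0, 126238683, 0, 0, 0, ⟨0, 0⟩, 0⟩ 0 0) (.pos 41 .mp ⟨54348655, 0, 0, 0, 0, 129845565, 0, 0, 0, ⟨0, 0⟩, 0⟩ 0 0)) (.pos 41 .mp ⟨55780688, 0, 0, 0, 0, 139085079, 0, 0, 0, ⟨0, 0⟩, 0⟩ 0 0)) (.cut .s 10387456 (.cut .v 16908288 (.cut .s 10338304 (.pos 43 .mp ⟨30568299, 0, 0, 0, 0, 151228766, 0, 0, 0, ⟨0, 0⟩, 0⟩ 0 0) (.pos 43 .mp ⟨31488672, 0, 0, 0, 0, 155459444, 0, 0, 0, ⟨0, 0⟩, 0⟩ 0 0)) (.cut .s 10338304 (.cut .d (-98304) (.cut .v 16973824 (.cut .s 10313728 (.pos 70 .mp ⟨52180745, 0, 0, 0, 0, 123125808, 0, 0, 0, ⟨0, 0⟩, 0⟩ 0 0) (.pos 70 .mp ⟨52901728, 0, 0, 0, 0, 124828528, 0, 0, 0, ⟨0, 0⟩, 0⟩ 0 0)) (.pos 71 .mp ⟨71127180, 0, 0, 0, 0, 99214076, 0, 0, 0, ⟨0, 0⟩,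 0⟩ 0 0)) (.cut .s 10313728 (.pos 44 .mp ⟨58159675, 0, 0, 0, 0, 112635666, 0, 0, 0, ⟨0, 0⟩, 0⟩ 0 0) (.pos 44 .mp ⟨58954833, 0, 0, 0, 0, 114182291, 0, 0, 0, ⟨0, 0⟩, 0⟩ 0 0))) (.cut .d (-98304) (.cut .s 10362880 (.cut .s 10350592 (.pos 44 .mp ⟨54246537, 0, 0, 0, 0, 125735563, 0, 0, 0, ⟨0, 0⟩, 0⟩ 0 0) (.pos 44 .mp ⟨54537604, 0, 0, 0, 0, 126741362, 0, 0, 0, ⟨0, 0⟩, 0⟩ 0 0)) (.pos 44 .mp ⟨54722478, 0, 0, 0, 0, 128862740, 0, 0, 0, ⟨0, 0⟩, 0⟩ 0 0)) (.pos 44 .mp ⟨60564711, 0, 0, 0, 0, 115370440, 0, 0, 0, ⟨0, 0⟩, 0⟩ 0 0)))) (.cut .v 16908288 (.cut .s 10436608 (.pos 43 .mp ⟨33044778, 0, 0, 0, 0, 159021869, 0, 0, 0, ⟨0, 0⟩, 0⟩ 0 0) (.pos 43 .mp ⟨35282348, 0, 0, 0, 0,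 161846186, 0, 0, 0, ⟨0, 0⟩, 0⟩ 0 0)) (.cut .s 10436608 (.cut .d (-98304) (.cut .s 10412032 (.pos 44 .mp ⟨55465431, 0, 0, 0, 0, 130695305, 0, 0, 0, ⟨0, 0⟩, 0⟩ 0 0) (.pos 44 .mp ⟨56213672, 0, 0, 0, 0, 132570143, 0, 0, 0, ⟨0, 0⟩, 0⟩ 0 0)) (.pos 44 .mp ⟨62201169, 0, 0, 0, 0, 118636192, 0, 0, 0, ⟨0, 0⟩, 0⟩ 0 0)) (.cut .s 10461184 (.pos 44 .mp ⟨67338347, 0, 0, 0, 0, 117823957, 0, 0, 0, ⟨0, 0⟩, 0⟩ 0 0) (.pos 44 .mp ⟨68256018, 0, 0, 0, 0, 119478072, 0, 0, 0, ⟨0, 0⟩, 0⟩ 0 0)))))) (.cut .l 796917 (.cut .v 16908288 (.cut .s 10387456 (.cut .d (-32768) (.cut .s 10338304 (.cut .l 513801 (.cut .s 10313728 (.pos 43 .mp ⟨51928282, 0, 0, 0, 0, 121330022, 0, 0, 0, ⟨0, 0⟩, 0⟩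 0 0) (.pos 43 .mp ⟨52567356, 0, 0, 0, 0, 123117690, 0, 0, 0, ⟨0, 0⟩, 0⟩ 0 0)) (.cut .s 10313728 (.pos 43 .mp ⟨49751273, 0, 0, 0, 0, 122934338, 0, 0, 0, ⟨0, 0⟩, 0⟩ 0 0) (.pos 43 .mp ⟨50389375, 0, 0, 0, 0, 124697058, 0, 0, 0, ⟨0, 0⟩, 0⟩ 0 0))) (.cut .l 513801 (.cut .s 10362880 (.pos 43 .mp ⟨53246564, 0, 0, 0, 0, 124884583, 0, 0, 0, ⟨0, 0⟩, 0⟩ 0 0) (.pos 43 .mp ⟨53967045, 0, 0, 0, 0, 126628714, 0, 0, 0, ⟨0, 0⟩, 0⟩ 0 0)) (.cut .s 10362880 (.pos 43 .mp ⟨51067144, 0, 0, 0, 0, 126439536, 0, 0, 0, ⟨0, 0⟩, 0⟩ 0 0) (.pos 43 .mp ⟨51785709, 0, 0, 0, 0, 128159802, 0, 0, 0, ⟨0, 0⟩, 0⟩ 0 0)))) (.cut .d (-16384) (.cut .l 513801 (.cut .v 16842752 (.cut .v 16809984 (.pos 83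 .mp ⟨0, 0, 0, 0, 0, 187542278, 0, 0, 0, ⟨0, 0⟩, 0⟩ 0 0) (.cut .l 372243 (.cut .s 10338304 (.cut .l 301464 (.cut .d (-24576) (.pos 84 .mp ⟨52664908, 0, 0, 0, 0, 121163982, 0, 0, 0, ⟨0, 0⟩, 0⟩ 0 0) (.cut .d (-20480) (.cut .s 10313728 (.pos 84 .mp ⟨51922304, 0, 0, 0, 0, 119296549, 0, 0, 0, ⟨0, 0⟩, 0⟩ 0 0) (.pos 84 .mp ⟨52503594, 0, 0, 0, 0, 121121579, 0, 0, 0, ⟨0, 0⟩, 0⟩ 0 0)) (.pos 84 .mp ⟨53144602, 0, 0, 0, 0, 0, 0, 0, 0, ⟨0, 0⟩, 0⟩ 0 0))) (.pos 84 .mp ⟨53961024, 0, 0, 0, 0, 115188779, 0, 0, 0, ⟨0, 0⟩, 0⟩ 0 0)) (.cut .l 301464 (.cut .d (-24576) (.pos 84 .mp ⟨53004863, 0, 0, 0, 0, 126627909, 0, 0, 0, ⟨0, 0⟩, 0⟩ 0 0) (.cut .d (-20480) (.cut .s 10362880 (.pos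 84 .mp ⟨53144602, 0, 0, 0, 0, 122843080, 0, 0, 0, ⟨0, 0⟩, 0⟩ 0 0) (.pos 84 .mp ⟨53803712, 0, 0, 0, 0, 124555467, 0, 0, 0, ⟨0, 0⟩, 0⟩ 0 0)) (.pos 84 .mp ⟨54467420, 0, 0, 0, 0, 100196363, 0, 0, 0, ⟨0, 0⟩, 0⟩ 0 0))) (.pos 84 .mp ⟨55323640, 0, 0, 0, 0, 118484433, 0, 0, 0, ⟨0, 0⟩, 0⟩ 0 0))) (.pos 84 .mp ⟨0, 0, 0, 0, 0, 0, 0, 0, 0, ⟨0, 0⟩, 0⟩ 0 0))) (.pos 67 .mp ⟨138611964, 0, 0, 0, 0, 0, 0, 0, 0, ⟨0, 0⟩, 0⟩ 0 0)) (.pos 43 .mp ⟨0, 0, 0, 0, 0, 0, 0, 0, 0, ⟨0, 0⟩, 0⟩ 0 0)) (.pos 43 .mp ⟨54147332, 0, 0, 0, 0, 0, 0, 0, 0, ⟨0, 0⟩, 0⟩ 0 0))) (.cut .d (-32768) (.cut .s 10436608 (.cut .l 513801 (.cut .s 10412032 (.pos 43 .mp ⟨54729945, 0, 0, 0, 0, 128348075, 0, 0, 0, ⟨0,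 0⟩, 0⟩ 0 0) (.pos 43 .mp ⟨55536415, 0, 0, 0, 0, 130040641, 0, 0, 0, ⟨0, 0⟩, 0⟩ 0 0)) (.pos 43 .mp ⟨51077572, 0, 0, 0, 0, 133063860, 0, 0, 0, ⟨0, 0⟩, 0⟩ 0 0)) (.cut .s 10461184 (.pos 43 .mp ⟨54346550, 0, 0, 0, 0, 134242259, 0, 0, 0, ⟨0, 0⟩, 0⟩ 0 0) (.pos 43 .mp ⟨55347561, 0, 0, 0, 0, 135751523, 0, 0, 0, ⟨0, 0⟩, 0⟩ 0 0))) (.cut .d (-16384) (.cut .v 16842752 (.cut .v 16809984 (.pos 83 .mp ⟨0, 0, 0, 0, 0, 198454469, 0, 0, 0, ⟨0, 0⟩, 0⟩ 0 0) (.cut .l 513801 (.cut .l 372243 (.cut .s 10436608 (.cut .s 10412032 (.cut .s 10399744 (.pos 84 .mp ⟨56305701, 0, 0, 0, 0, 122022656, 0, 0, 0, ⟨0, 0⟩, 0⟩ 0 0) (.pos 84 .mp ⟨54300048, 0, 0, 0, 0, 126433062, 0, 0, 0, ⟨0, 0⟩, 0⟩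 0 0)) (.pos 84 .mp ⟨54630029, 0, 0, 0, 0, 128308908, 0, 0, 0, ⟨0, 0⟩, 0⟩ 0 0)) (.cut .s 10461184 (.pos 84 .mp ⟨55293407, 0, 0, 0, 0, 130147892, 0, 0, 0, ⟨0, 0⟩, 0⟩ 0 0) (.pos 84 .mp ⟨55961384, 0, 0, 0, 0, 132008011, 0, 0, 0, ⟨0, 0⟩, 0⟩ 0 0))) (.pos 84 .mp ⟨54690134, 0, 0, 0, 0, 99070334, 0, 0, 0, ⟨0, 0⟩, 0⟩ 0 0)) (.pos 84 .mp ⟨0, 0, 0, 0, 0, 0, 0, 0, 0, ⟨0, 0⟩, 0⟩ 0 0))) (.pos 67 .mp ⟨144104667, 0, 0, 0, 0, 0, 0, 0, 0, ⟨0, 0⟩, 0⟩ 0 0)) (.pos 43 .mp ⟨56686503, 0, 0, 0, 0, 0, 0, 0, 0, ⟨0, 0⟩, 0⟩ 0 0)))) (.pos 44 .mp ⟨148163816, 0, 0, 0, 0, 0, 0, 0, 0, ⟨0, 0⟩, 0⟩ 0 0)) (.pos 41 .mp ⟨58707871, 0, 0, 0, 0, 0, 0, 0, 0, ⟨0, 0⟩, 0⟩ 0 0))) (.pos 42 .mp ⟨151929734,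 0, 0, 0, 0, 0, 0, 0, 0, ⟨0, 0⟩, 0⟩ 0 0)))) (.pos 40 .mp ⟨160515575, 0, 0, 0, 0, 0, 0, 0, 0, ⟨0, 0⟩, 0⟩ 0 0)) (.pos 38 .mp ⟨171056333, 0, 0, 0, 0, 0, 0, 0, 0, ⟨0, 0⟩, 0⟩ 0 0)) (.void 36 ⟨100000, 0, 0, 0, 0, 0, 0, 0, 0, ⟨0, 0⟩, 0⟩ 0 0))))))) (.void 34 ⟨100000, 0, 0, 0, 0, 0, 0, 0, 0, ⟨0, 0⟩, 0⟩ 0 0))) (.void 32 ⟨100000, 0, 0, 0, 0, 0, 0, 0, 0, ⟨0, 0⟩, 0⟩ 0 0)) (.void 63 ⟨100000, 0, 0, 0, 0, 0, 0, 0, 0, ⟨0, 0⟩, 0⟩ 0 0)) (.void 74 ⟨100000, 0, 0, 0, 0, 0, 0, 0, 0, ⟨0, 0⟩, 0⟩ 0 0)) (.void 103 ⟨61538, 38462, 0, 0, 0, 0, 0, 0, 0, ⟨0, 0⟩, 0⟩ 0 0))) (.cut .v 16777216 (.cut .v 8388608 (.cut .v 4194304 (.cut .v 2097152 (.pos 6 .pm ⟨0, 0, 44349233, 0, 0, 0, 0, 0, 109936849,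 ⟨0, 0⟩, 2804900⟩ 0 0) (.pos 7 .pm ⟨0, 4872607, 0, 0, 0, 0, 0, 0, 0, ⟨0, 0⟩, 0⟩ 0 0)) (.cut .d 5556092 (.pos 5 .pm ⟨0, 0, 0, 0, 0, 0, 0, 0, 0, ⟨0, 0⟩, 0⟩ 0 0) (.cut .d 8334138 (.pos 5 .pm ⟨0, 0, 0, 0, 0, 0, 0, 0, 0, ⟨0, 0⟩, 0⟩ 0 0) (.cut .d 9723161 (.cut .d 9028649 (.pos 5 .pm ⟨0, 0, 0, 0, 0, 0, 0, 0, 0, ⟨0, 0⟩, 0⟩ 0 0) (.cut .s 10289152 (.pos 5 .pm ⟨0, 0, 0, 0, 0, 0, 0, 0, 0, ⟨0, 0⟩, 0⟩ 0 0) (.cut .d 9375905 (.pos 5 .pm ⟨0, 72502227, 0, 0, 0, 0, 0, 0, 0, ⟨0, 0⟩, 0⟩ 0 0) (.cut .s 10387456 (.pos 5 .pm ⟨0, 81214926, 0, 0, 0, 0, 0, 0, 0, ⟨0, 0⟩, 0⟩ 0 0) (.pos 5 .pm ⟨0, 91476080, 0, 0, 0, 0, 0, 0, 0, ⟨0, 0⟩, 0⟩ 0 0))))) (.cut .s 10289152 (.cut .d 10417673 (.cut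 .s 10190848 (.pos 5 .pm ⟨0, 74500123, 0, 0, 0, 0, 0, 0, 0, ⟨0, 0⟩, 0⟩ 0 0) (.pos 5 .pm ⟨0, 83733110, 0, 0, 0, 0, 0, 0, 0, ⟨0, 0⟩, 0⟩ 0 0)) (.pos 5 .pm ⟨0, 163008101, 0, 0, 0, 0, 0, 0, 0, ⟨0, 0⟩, 0⟩ 0 0)) (.pos 5 .pm ⟨0, 107195578, 0, 0, 0, 0, 0, 0, 0, ⟨0, 0⟩, 0⟩ 0 0)))))) (.cut .d 5556092 (.pos 3 .pm ⟨0, 0, 0, 0, 0, 0, 0, 0, 0, ⟨0, 0⟩, 0⟩ 0 0) (.cut .d 8334138 (.pos 3 .pm ⟨0, 0, 0, 0, 0, 0, 0, 0, 0, ⟨0, 0⟩, 0⟩ 0 0) (.cut .d 9723161 (.cut .v 12582912 (.cut .d 9028649 (.pos 8 .pm ⟨0, 0, 0, 0, 0, 0, 0, 0, 0, ⟨0, 0⟩, 0⟩ 0 0) (.cut .v 10485760 (.cut .s 10289152 (.pos 10 .pm ⟨0, 28632588, 0, 0, 0, 0, 0, 0, 0, ⟨0, 0⟩, 0⟩ 0 0) (.cut .d 9375905 (.cut .v 9437184 (.pos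 87 .pm ⟨0, 78797757, 0, 0, 0, 0, 0, 0, 0, ⟨0, 0⟩, 0⟩ 0 0) (.pos 88 .pm ⟨0, 84915938, 0, 0, 0, 0, 0, 0, 0, ⟨0, 0⟩, 0⟩ 0 0)) (.cut .v 9437184 (.cut .l 796917 (.cut .l 513801 (.cut .s 10387456 (.cut .d 9549533 (.pos 87 .pm ⟨0, 66624639, 0, 0, 0, 0, 0, 0, 0, ⟨0, 0⟩, 0⟩ 0 0) (.pos 87 .pm ⟨0, 87849976, 0, 0, 0, 0, 0, 0, 0, ⟨0, 0⟩, 0⟩ 0 0)) (.cut .d 9549533 (.pos 87 .pm ⟨0, 92771735, 0, 0, 0, 0, 0, 0, 0, ⟨0, 0⟩, 0⟩ 0 0) (.pos 87 .pm ⟨0, 99034930, 0, 0, 0, 0, 0, 0, 0, ⟨0, 0⟩, 0⟩ 0 0))) (.pos 87 .pm ⟨0, 90224227, 0, 0, 0, 0, 0, 0, 0, ⟨0, 0⟩, 0⟩ 0 0)) (.pos 87 .pm ⟨0, 89715102, 0, 0, 0, 0, 0, 0, 0, ⟨0, 0⟩, 0⟩ 0 0)) (.pos 88 .pm ⟨0, 96058160, 0, 0, 0, 0, 0, 0, 0, ⟨0,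 0⟩, 0⟩ 0 0)))) (.pos 11 .pm ⟨0, 86643344, 0, 0, 0, 0, 0, 0, 0, ⟨0, 0⟩, 0⟩ 0 0))) (.pos 9 .pm ⟨0, 90181456, 0, 0, 0, 0, 0, 0, 0, ⟨0, 0⟩, 0⟩ 0 0)) (.cut .v 12582912 (.cut .d 10417673 (.cut .s 10289152 (.cut .v 10485760 (.cut .d 10070417 (.cut .l 796917 (.cut .s 10190848 (.cut .v 9437184 (.pos 87 .pm ⟨0, 75370019, 0, 0, 0, 0, 0, 0, 0, ⟨0, 0⟩, 0⟩ 0 0) (.pos 88 .pm ⟨0, 79099621, 0, 0, 0, 0, 0, 0, 0, ⟨0, 0⟩, 0⟩ 0 0)) (.cut .v 9437184 (.pos 87 .pm ⟨0, 85603348, 0, 0, 0, 0, 0, 0, 0, ⟨0, 0⟩, 0⟩ 0 0) (.pos 88 .pm ⟨0, 89740160, 0, 0, 0, 0, 0, 0, 0, ⟨0, 0⟩, 0⟩ 0 0))) (.pos 10 .pm ⟨0, 81406706, 0, 0, 0, 0, 0, 0, 0, ⟨0, 0⟩, 0⟩ 0 0)) (.cut .v 9437184 (.cut .s 10190848 (.pos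 87 .pm ⟨0, 85517838, 0, 0, 0, 0, 0, 0, 0, ⟨0, 0⟩, 0⟩ 0 0) (.void 87 ⟨0, 100000, 0, 0, 0, 0, 0, 0, 0, ⟨0, 0⟩, 0⟩ 0 0)) (.pos 88 .pm ⟨0, 94984346, 0, 0, 0, 0, 0, 0, 0, ⟨0, 0⟩, 0⟩ 0 0))) (.pos 11 .pm ⟨0, 97059701, 0, 0, 0, 0, 0, 0, 0, ⟨0, 0⟩, 0⟩ 0 0)) (.cut .v 10485760 (.cut .v 9437184 (.cut .s 10387456 (.pos 87 .pm ⟨0, 101617032, 0, 0, 0, 0, 0, 0, 0, ⟨0, 0⟩, 0⟩ 0 0) (.void 87 ⟨0, 100000, 0, 0, 0, 0, 0, 0, 0, ⟨0, 0⟩, 0⟩ 0 0)) (.pos 88 .pm ⟨0, 113908678, 0, 0, 0, 0, 0, 0, 0, ⟨0, 0⟩, 0⟩ 0 0)) (.void 11 ⟨0, 100000, 0, 0, 0, 0, 0, 0, 0, ⟨0, 0⟩, 0⟩ 0 0))) (.void 8 ⟨0, 100000, 0, 0, 0, 0, 0, 0, 0, ⟨0, 0⟩, 0⟩ 0 0)) (.pos 9 .pm ⟨0, 140095102, 0, 0, 0, 0, 0, 0, 0, ⟨0,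 0⟩, 0⟩ 0 0)))))) (.cut .v 268435456 (.cut .d 5556092 (.cut .v 67108864 (.cut .d 2778046 (.cut .v 33554432 (.cut .d 1389023 (.cut .v 25165824 (.cut .v 20971520 (.pos 33 .pp ⟨80773719, 0, 0, 0, 0, 0, 0, 0, 0, ⟨0, 0⟩, 0⟩ 0 0) (.pos 34 .pp ⟨161975331, 0, 0, 0, 0, 0, 0, 0, 0, ⟨0, 0⟩, 0⟩ 0 0)) (.pos 32 .pp ⟨260676694, 0, 0, 0, 0, 0, 0, 0, 0, ⟨0, 0⟩, 0⟩ 0 0)) (.pos 30 .pp ⟨0, 0, 0, 0, 0, 0, 0, 0, 0, ⟨0, 0⟩, 0⟩ 0 0)) (.cut .d 1389023 (.cut .v 50331648 (.pos 64 .pp ⟨616255092, 0, 0, 0, 0, 0, 0, 0, 0, ⟨0, 0⟩, 0⟩ 0 0) (.void 65 ⟨100000, 0, 0, 0, 0, 0, 0, 0, 0, ⟨0, 0⟩, 0⟩ 0 0)) (.cut .v 50331648 (.pos 64 .pp ⟨228027093, 0, 0, 0, 0, 0, 0, 0, 0, ⟨0, 0⟩, 0⟩ 0 0) (.pos 65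 .pp ⟨680549483, 0, 0, 0, 0, 0, 0, 0, 0, ⟨0, 0⟩, 0⟩ 0 0)))) (.pos 62 .pp ⟨0, 0, 0, 0, 0, 0, 0, 0, 0, ⟨0, 0⟩, 0⟩ 0 0)) (.cut .v 134217728 (.cut .d 2778046 (.cut .v 100663296 (.cut .v 83886080 (.cut .d 1389023 (.void 81 ⟨100000, 0, 0, 0, 0, 0, 0, 0, 0, ⟨0, 0⟩, 0⟩ 0 0) (.pos 81 .pp ⟨1356179127, 0, 0, 0, 0, 0, 0, 0, 0, ⟨0, 0⟩, 0⟩ 0 0)) (.pos 82 .pp ⟨2486543328, 0, 0, 0, 0, 0, 0, 0, 0, ⟨0, 0⟩, 0⟩ 0 0)) (.void 78 ⟨42490, 57510, 0, 0, 0, 0, 0, 0, 0, ⟨0, 0⟩, 0⟩ 0 0)) (.pos 75 .pp ⟨0, 377152027, 0, 0, 0, 0, 4460789, 0, 0, ⟨0, 0⟩, 0⟩ 0 0)) (.void 76 ⟨40700, 59300, 0, 0, 0, 0, 0, 0, 0, ⟨0, 0⟩, 0⟩ 0 0))) (.pos 73 .pp ⟨0, 100165395, 0, 0, 0, 0, 0, 0, 0, ⟨0, 0⟩, 0⟩ 0 0))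 (.void 103 ⟨0, 0, 0, 100000, 0, 0, 0, 0, 0, ⟨0, 0⟩, 0⟩ 0 0)))),
    by decide +kernel⟩

def covers14 : cell.Covers table row14.1 :=
  ⟨(.cut .d 0 (.cut .v 16777216 (.cut .d (-8388608) (.void 1 ⟨0, 0, 0, 0, 0, 100000, 0, 0, 0, ⟨0, 0⟩, 0⟩ 0 0) (.cut .d (-4194304) (.void 1 ⟨0, 0, 0, 0, 0, 100000, 0, 0, 0, ⟨0, 0⟩, 0⟩ 0 0) (.cut .d (-2097152) (.void 1 ⟨0, 0, 0, 0, 0, 100000, 0, 0, 0, ⟨0, 0⟩, 0⟩ 0 0) (.cut .d (-1048576) (.void 1 ⟨0, 0, 0, 0, 0, 100000, 0, 0, 0, ⟨0, 0⟩, 0⟩ 0 0) (.cut .d (-524288) (.void 1 ⟨0, 0, 0, 0, 0, 100000, 0, 0, 0, ⟨0, 0⟩, 0⟩ 0 0) (.cut .d (-262144) (.void 1 ⟨0, 0, 0, 0, 0, 100000, 0, 0, 0, ⟨0, 0⟩, 0⟩ 0 0) (.cut .d (-131072) (.void 1 ⟨0, 0,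 0, 0, 0, 100000, 0, 0, 0, ⟨0, 0⟩, 0⟩ 0 0) (.cut .v 8388608 (.cut .v 4194304 (.void 4 ⟨0, 0, 100000, 0, 0, 0, 0, 0, 0, ⟨0, 0⟩, 0⟩ 0 0) (.pos 5 .mm ⟨0, 0, 0, 0, 0, 105015413, 0, 0, 0, ⟨0, 0⟩, 0⟩ 0 0)) (.cut .v 12582912 (.pos 8 .mm ⟨0, 0, 0, 0, 0, 154032045, 0, 0, 0, ⟨0, 0⟩, 0⟩ 0 0) (.cut .v 14680064 (.pos 12 .mm ⟨0, 0, 0, 0, 0, 192998549, 0, 0, 0, ⟨0, 0⟩, 0⟩ 0 0) (.cut .v 15728640 (.pos 16 .mm ⟨0, 0, 0, 0, 0, 212998549, 0, 0, 0, ⟨0, 0⟩, 0⟩ 0 0) (.cut .v 16252928 (.pos 20 .mm ⟨0, 0, 0, 0, 0, 223633871, 0, 0, 0, ⟨0, 0⟩, 0⟩ 0 0) (.cut .v 16515072 (.pos 24 .mm ⟨0, 0, 0, 0, 0, 229111356, 0, 0, 0, ⟨0, 0⟩, 0⟩ 0 0) (.cut .s 10682368 (.cut .s 10584064 (.pos 25 .mm ⟨0,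 0, 0, 0, 0, 213419938, 0, 0, 0, ⟨0, 0⟩, 0⟩ 0 0) (.pos 25 .mm ⟨0, 0, 0, 0, 0, 225899835, 0, 0, 0, ⟨0, 0⟩, 0⟩ 0 0)) (.cut .s 10780672 (.pos 25 .mm ⟨0, 0, 0, 0, 0, 239006187, 0, 0, 0, ⟨0, 0⟩, 0⟩ 0 0) (.pos 25 .mm ⟨0, 0, 0, 0, 0, 252722106, 0, 0, 0, ⟨0, 0⟩, 0⟩ 0 0)))))))))))))))) (.cut .v 268435456 (.cut .v 67108864 (.cut .v 33554432 (.cut .v 25165824 (.cut .d (-8388608) (.void 31 ⟨0, 0, 0, 0, 0, 100000, 0, 0, 0, ⟨0, 0⟩, 0⟩ 0 0) (.cut .v 20971520 (.cut .d (-4194304) (.void 33 ⟨100000, 0, 0, 0, 0, 0, 0, 0, 0, ⟨0, 0⟩, 0⟩ 0 0) (.cut .d (-2097152) (.void 33 ⟨100000, 0, 0, 0, 0, 0, 0, 0, 0, ⟨0, 0⟩, 0⟩ 0 0) (.cut .d (-1048576) (.void 33 ⟨100000, 0, 0, 0, 0, 0, 0, 0,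 0, ⟨0, 0⟩, 0⟩ 0 0) (.cut .d (-524288) (.void 33 ⟨100000, 0, 0, 0, 0, 0, 0, 0, 0, ⟨0, 0⟩, 0⟩ 0 0) (.cut .d (-262144) (.void 33 ⟨100000, 0, 0, 0, 0, 0, 0, 0, 0, ⟨0, 0⟩, 0⟩ 0 0) (.cut .d (-131072) (.void 33 ⟨0, 0, 0, 0, 0, 100000, 0, 0, 0, ⟨0, 0⟩, 0⟩ 0 0) (.cut .v 18874368 (.cut .v 17825792 (.cut .v 17301504 (.cut .s 10682368 (.cut .v 17039360 (.cut .d (-65536) (.cut .l 796917 (.cut .s 10584064 (.pos 41 .mp ⟨60044744, 0, 0, 0, 0, 145969777, 0, 0, 0, ⟨0, 0⟩, 0⟩ 0 0) (.pos 41 .mp ⟨62473825, 0, 0, 0, 0, 155184730, 0, 0, 0, ⟨0, 0⟩, 0⟩ 0 0)) (.cut .s 10584064 (.cut .v 16908288 (.pos 43 .mp ⟨3576037, 0, 0, 0, 0, 214411639, 0, 0, 0, ⟨0, 0⟩, 0⟩ 0 0) (.cut .s 10534912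 (.cut .s 10510336 (.pos 44 .mp ⟨69033946, 0, 0, 0, 0, 121719924, 0, 0, 0, ⟨0, 0⟩, 0⟩ 0 0) (.pos 44 .mp ⟨69520982, 0, 0, 0, 0, 123877915, 0, 0, 0, ⟨0, 0⟩, 0⟩ 0 0)) (.cut .d (-98304) (.cut .s 10559488 (.pos 44 .mp ⟨62045339, 0, 0, 0, 0, 139265843, 0, 0, 0, ⟨0, 0⟩, 0⟩ 0 0) (.pos 44 .mp ⟨63417198, 0, 0, 0, 0, 140164822, 0, 0, 0, ⟨0, 0⟩, 0⟩ 0 0)) (.pos 44 .mp ⟨67342998, 0, 0, 0, 0, 129583983, 0, 0, 0, ⟨0, 0⟩, 0⟩ 0 0)))) (.cut .v 16908288 (.cut .s 10633216 (.pos 43 .mp ⟨29671086, 0, 0, 0, 0, 187785480, 0, 0, 0, ⟨0, 0⟩, 0⟩ 0 0) (.pos 43 .mp ⟨29310625, 0, 0, 0, 0, 194498176, 0, 0, 0, ⟨0, 0⟩, 0⟩ 0 0)) (.cut .d (-98304) (.cut .d (-114688) (.pos 44 .mp ⟨64355622, 0,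 0, 0, 0, 154073269, 0, 0, 0, ⟨0, 0⟩, 0⟩ 0 0) (.cut .v 16973824 (.cut .s 10633216 (.pos 70 .mp ⟨61295211, 0, 0, 0, 0, 147255031, 0, 0, 0, ⟨0, 0⟩, 0⟩ 0 0) (.cut .s 10657792 (.pos 70 .mp ⟨62923858, 0, 0, 0, 0, 148722305, 0, 0, 0, ⟨0, 0⟩, 0⟩ 0 0) (.pos 70 .mp ⟨63745523, 0, 0, 0, 0, 150695602, 0, 0, 0, ⟨0, 0⟩, 0⟩ 0 0))) (.pos 71 .mp ⟨108519162, 0, 0, 0, 0, 84959366, 0, 0, 0, ⟨0, 0⟩, 0⟩ 0 0))) (.cut .l 1080033 (.cut .s 10633216 (.pos 44 .mp ⟨69119705, 0, 0, 0, 0, 134096133, 0, 0, 0, ⟨0, 0⟩, 0⟩ 0 0) (.pos 44 .mp ⟨70922765, 0, 0, 0, 0, 137616384, 0, 0, 0, ⟨0, 0⟩, 0⟩ 0 0)) (.pos 44 .mp ⟨67968094, 0, 0, 0, 0, 133992811, 0, 0, 0, ⟨0, 0⟩, 0⟩ 0 0)))))) (.cut .l 796917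 (.cut .v 16908288 (.cut .s 10584064 (.cut .d (-32768) (.cut .s 10534912 (.cut .s 10510336 (.pos 43 .mp ⟨56810367, 0, 0, 0, 0, 136717516, 0, 0, 0, ⟨0, 0⟩, 0⟩ 0 0) (.pos 43 .mp ⟨56959264, 0, 0, 0, 0, 139355969, 0, 0, 0, ⟨0, 0⟩, 0⟩ 0 0)) (.cut .l 513801 (.pos 43 .mp ⟨57696436, 0, 0, 0, 0, 144843333, 0, 0, 0, ⟨0, 0⟩, 0⟩ 0 0) (.cut .s 10559488 (.pos 43 .mp ⟨55955851, 0, 0, 0, 0, 142834550, 0, 0, 0, ⟨0, 0⟩, 0⟩ 0 0) (.pos 43 .mp ⟨56418617, 0, 0, 0, 0, 145123564, 0, 0, 0, ⟨0, 0⟩, 0⟩ 0 0)))) (.cut .d (-16384) (.cut .l 513801 (.cut .v 16842752 (.cut .v 16809984 (.pos 83 .mp ⟨0, 0, 0, 0, 0, 212561127, 0, 0, 0, ⟨0, 0⟩, 0⟩ 0 0) (.cut .l 372243 (.cut .s 10534912 (.cut .s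 10510336 (.pos 84 .mp ⟨56634961, 0, 0, 0, 0, 134577790, 0, 0, 0, ⟨0, 0⟩, 0⟩ 0 0) (.pos 84 .mp ⟨57317214, 0, 0, 0, 0, 136483411, 0, 0, 0, ⟨0, 0⟩, 0⟩ 0 0)) (.cut .s 10559488 (.pos 84 .mp ⟨58003081, 0, 0, 0, 0, 138420582, 0, 0, 0, ⟨0, 0⟩, 0⟩ 0 0) (.cut .s 10571776 (.pos 84 .mp ⟨58692610, 0, 0, 0, 0, 139065458, 0, 0, 0, ⟨0, 0⟩, 0⟩ 0 0) (.pos 84 .mp ⟨59038763, 0, 0, 0, 0, 140059229, 0, 0, 0, ⟨0, 0⟩, 0⟩ 0 0)))) (.pos 84 .mp ⟨60299932, 0, 0, 0, 0, 128502715, 0, 0, 0, ⟨0, 0⟩, 0⟩ 0 0))) (.pos 67 .mp ⟨154660554, 0, 0, 0, 0, 0, 0, 0, 0, ⟨0, 0⟩, 0⟩ 0 0)) (.pos 43 .mp ⟨0, 0, 0, 0, 0, 0, 0, 0, 0, ⟨0, 0⟩, 0⟩ 0 0)) (.pos 43 .mp ⟨59587846, 0, 0, 0, 0, 0, 0, 0, 0, ⟨0, 0⟩, 0⟩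 0 0))) (.cut .d (-32768) (.cut .s 10633216 (.cut .d (-49152) (.pos 43 .mp ⟨58637072, 0, 0, 0, 0, 149262127, 0, 0, 0, ⟨0, 0⟩, 0⟩ 0 0) (.cut .l 513801 (.cut .s 10608640 (.pos 43 .mp ⟨59108556, 0, 0, 0, 0, 146583219, 0, 0, 0, ⟨0, 0⟩, 0⟩ 0 0) (.pos 43 .mp ⟨59820276, 0, 0, 0, 0, 148528617, 0, 0, 0, ⟨0, 0⟩, 0⟩ 0 0)) (.pos 43 .mp ⟨62940400, 0, 0, 0, 0, 136445680, 0, 0, 0, ⟨0, 0⟩, 0⟩ 0 0))) (.cut .l 513801 (.cut .s 10657792 (.pos 43 .mp ⟨60535836, 0, 0, 0, 0, 150542871, 0, 0, 0, ⟨0, 0⟩, 0⟩ 0 0) (.pos 43 .mp ⟨61255287, 0, 0, 0, 0, 152626939, 0, 0, 0, ⟨0, 0⟩, 0⟩ 0 0)) (.cut .s 10657792 (.pos 43 .mp ⟨58078458, 0, 0, 0, 0, 151870405, 0, 0, 0, ⟨0, 0⟩, 0⟩ 0 0) (.pos 43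 .mp ⟨58726884, 0, 0, 0, 0, 154071171, 0, 0, 0, ⟨0, 0⟩, 0⟩ 0 0)))) (.cut .d (-16384) (.cut .l 513801 (.cut .v 16842752 (.cut .l 372243 (.cut .v 16809984 (.pos 83 .mp ⟨0, 0, 0, 0, 0, 224617261, 0, 0, 0, ⟨0, 0⟩, 0⟩ 0 0) (.cut .s 10633216 (.cut .d (-24576) (.pos 84 .mp ⟨60361648, 0, 0, 0, 0, 144540896, 0, 0, 0, ⟨0, 0⟩, 0⟩ 0 0) (.cut .v 16826368 (.cut .l 301464 (.cut .d (-20480) (.pos 91 .mp ⟨59164434, 0, 0, 0, 0, 145359080, 0, 0, 0, ⟨0, 0⟩, 0⟩ 0 0) (.cut .s 10608640 (.pos 91 .mp ⟨60568277, 0, 0, 0, 0, 138635496, 0, 0, 0, ⟨0, 0⟩, 0⟩ 0 0) (.pos 91 .mp ⟨61278568, 0, 0, 0, 0, 140544284, 0, 0, 0, ⟨0, 0⟩, 0⟩ 0 0))) (.pos 91 .mp ⟨0, 0, 0, 0, 0, 0, 0, 0, 0, ⟨0, 0⟩, 0⟩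 0 0)) (.pos 92 .mp ⟨158853614, 0, 0, 0, 0, 0, 0, 0, 0, ⟨0, 0⟩, 0⟩ 0 0))) (.cut .d (-24576) (.pos 84 .mp ⟨61187224, 0, 0, 0, 0, 149493465, 0, 0, 0, ⟨0, 0⟩, 0⟩ 0 0) (.cut .v 16826368 (.cut .l 301464 (.cut .l 266075 (.cut .d (-20480) (.pos 91 .mp ⟨60921454, 0, 0, 0, 0, 150155956, 0, 0, 0, ⟨0, 0⟩, 0⟩ 0 0) (.cut .d (-18432) (.cut .s 10657792 (.pos 91 .mp ⟨60979071, 0, 0, 0, 0, 145812614, 0, 0, 0, ⟨0, 0⟩, 0⟩ 0 0) (.pos 91 .mp ⟨61687727, 0, 0, 0, 0, 147724146, 0, 0, 0, ⟨0, 0⟩, 0⟩ 0 0)) (.pos 91 .mp ⟨62400383, 0, 0, 0, 0, 0, 0, 0, 0, ⟨0, 0⟩, 0⟩ 0 0))) (.pos 91 .mp ⟨60322721, 0, 0, 0, 0, 146016323, 0, 0, 0, ⟨0, 0⟩, 0⟩ 0 0)) (.pos 91 .mp ⟨0, 0, 0, 0, 0, 0, 0, 0, 0,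 ⟨0, 0⟩, 0⟩ 0 0)) (.pos 92 .mp ⟨162534269, 0, 0, 0, 0, 0, 0, 0, 0, ⟨0, 0⟩, 0⟩ 0 0))))) (.pos 66 .mp ⟨57792016, 0, 0, 0, 0, 143617650, 0, 0, 0, ⟨0, 0⟩, 0⟩ 0 0)) (.pos 67 .mp ⟨161678346, 0, 0, 0, 0, 0, 0, 0, 0, ⟨0, 0⟩, 0⟩ 0 0)) (.pos 43 .mp ⟨0, 0, 0, 0, 0, 0, 0, 0, 0, ⟨0, 0⟩, 0⟩ 0 0)) (.pos 43 .mp ⟨62412414, 0, 0, 0, 0, 0, 0, 0, 0, ⟨0, 0⟩, 0⟩ 0 0)))) (.pos 44 .mp ⟨164532585, 0, 0, 0, 0, 0, 0, 0, 0, ⟨0, 0⟩, 0⟩ 0 0)) (.pos 41 .mp ⟨64941463, 0, 0, 0, 0, 0, 0, 0, 0, ⟨0, 0⟩, 0⟩ 0 0))) (.pos 42 .mp ⟨169701559, 0, 0, 0, 0, 0, 0, 0, 0, ⟨0, 0⟩, 0⟩ 0 0)) (.cut .v 17039360 (.cut .d (-65536) (.cut .l 796917 (.pos 41 .mp ⟨64941463, 0, 0, 0, 0, 178297734, 0, 0, 0, ⟨0, 0⟩,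 0⟩ 0 0) (.cut .s 10780672 (.cut .v 16908288 (.cut .s 10731520 (.pos 43 .mp ⟨29730602, 0, 0, 0, 0, 200380635, 0, 0, 0, ⟨0, 0⟩, 0⟩ 0 0) (.pos 43 .mp ⟨30989308, 0, 0, 0, 0, 205342436, 0, 0, 0, ⟨0, 0⟩, 0⟩ 0 0)) (.cut .d (-98304) (.cut .d (-114688) (.void 44 ⟨0, 0, 0, 0, 0, 100000, 0, 0, 0, ⟨0, 0⟩, 0⟩ 0 0) (.cut .v 16973824 (.cut .s 10731520 (.cut .s 10706944 (.pos 70 .mp ⟨64572166, 0, 0, 0, 0, 152727938, 0, 0, 0, ⟨0, 0⟩, 0⟩ 0 0) (.pos 70 .mp ⟨65403853, 0, 0, 0, 0, 154819765, 0, 0, 0, ⟨0, 0⟩, 0⟩ 0 0)) (.pos 70 .mp ⟨66240650, 0, 0, 0, 0, 159395470, 0, 0, 0, ⟨0, 0⟩, 0⟩ 0 0)) (.pos 71 .mp ⟨115232275, 0, 0, 0, 0, 87585875, 0, 0, 0, ⟨0, 0⟩, 0⟩ 0 0))) (.cut .l 1080033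 (.cut .s 10731520 (.pos 44 .mp ⟨72752832, 0, 0, 0, 0, 141305506, 0, 0, 0, ⟨0, 0⟩, 0⟩ 0 0) (.pos 44 .mp ⟨74610584, 0, 0, 0, 0, 145162876, 0, 0, 0, ⟨0, 0⟩, 0⟩ 0 0)) (.pos 44 .mp ⟨71505478, 0, 0, 0, 0, 140942207, 0, 0, 0, ⟨0, 0⟩, 0⟩ 0 0)))) (.cut .v 16908288 (.pos 43 .mp ⟨886989, 0, 0, 0, 0, 257322083, 0, 0, 0, ⟨0, 0⟩, 0⟩ 0 0) (.cut .d (-98304) (.cut .s 10829824 (.pos 44 .mp ⟨68414282, 0, 0, 0, 0, 165385417, 0, 0, 0, ⟨0, 0⟩, 0⟩ 0 0) (.pos 44 .mp ⟨70140056, 0, 0, 0, 0, 170140039, 0, 0, 0, ⟨0, 0⟩, 0⟩ 0 0)) (.cut .s 10829824 (.pos 44 .mp ⟨76496719, 0, 0, 0, 0, 147901540, 0, 0, 0, ⟨0, 0⟩, 0⟩ 0 0) (.pos 44 .mp ⟨78411959, 0, 0, 0, 0, 152159759, 0, 0, 0, ⟨0, 0⟩, 0⟩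 0 0)))))) (.cut .l 796917 (.cut .v 16908288 (.cut .s 10780672 (.cut .d (-32768) (.cut .s 10731520 (.cut .l 513801 (.cut .s 10706944 (.pos 43 .mp ⟨61978682, 0, 0, 0, 0, 154781795, 0, 0, 0, ⟨0, 0⟩, 0⟩ 0 0) (.pos 43 .mp ⟨62706074, 0, 0, 0, 0, 157008427, 0, 0, 0, ⟨0, 0⟩, 0⟩ 0 0)) (.cut .s 10706944 (.pos 43 .mp ⟨59425223, 0, 0, 0, 0, 156243724, 0, 0, 0, ⟨0, 0⟩, 0⟩ 0 0) (.pos 43 .mp ⟨60174894, 0, 0, 0, 0, 158385550, 0, 0, 0, ⟨0, 0⟩, 0⟩ 0 0))) (.cut .l 513801 (.pos 43 .mp ⟨63437515, 0, 0, 0, 0, 161461943, 0, 0, 0, ⟨0, 0⟩, 0⟩ 0 0) (.cut .s 10756096 (.pos 43 .mp ⟨60977326, 0, 0, 0, 0, 160494109, 0, 0, 0, ⟨0, 0⟩, 0⟩ 0 0) (.pos 43 .mp ⟨61833959, 0, 0, 0, 0, 162566831,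 0, 0, 0, ⟨0, 0⟩, 0⟩ 0 0)))) (.cut .d (-16384) (.cut .l 513801 (.cut .v 16842752 (.cut .l 372243 (.cut .v 16809984 (.pos 83 .mp ⟨0, 0, 0, 0, 0, 237282931, 0, 0, 0, ⟨0, 0⟩, 0⟩ 0 0) (.cut .s 10731520 (.cut .d (-24576) (.pos 84 .mp ⟨61978648, 0, 0, 0, 0, 154815740, 0, 0, 0, ⟨0, 0⟩, 0⟩ 0 0) (.cut .v 16826368 (.cut .l 301464 (.cut .d (-20480) (.pos 91 .mp ⟨61980043, 0, 0, 0, 0, 153427967, 0, 0, 0, ⟨0, 0⟩, 0⟩ 0 0) (.cut .d (-18432) (.pos 91 .mp ⟨64160765, 0, 0, 0, 0, 148025805, 0, 0, 0, ⟨0, 0⟩, 0⟩ 0 0) (.pos 91 .mp ⟨63837912, 0, 0, 0, 0, 0, 0, 0, 0, ⟨0, 0⟩, 0⟩ 0 0))) (.pos 91 .mp ⟨0, 0, 0, 0, 0, 223876019, 0, 0, 0, ⟨0, 0⟩, 0⟩ 0 0)) (.pos 92 .mp ⟨93856679, 0, 0, 0,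 0, 107215044, 0, 0, 0, ⟨0, 0⟩, 0⟩ 0 0))) (.cut .s 10756096 (.cut .s 10743808 (.pos 84 .mp ⟨63625998, 0, 0, 0, 0, 153663142, 0, 0, 0, ⟨0, 0⟩, 0⟩ 0 0) (.pos 84 .mp ⟨63985800, 0, 0, 0, 0, 154760679, 0, 0, 0, ⟨0, 0⟩, 0⟩ 0 0)) (.pos 84 .mp ⟨64346626, 0, 0, 0, 0, 157214497, 0, 0, 0, ⟨0, 0⟩, 0⟩ 0 0)))) (.pos 66 .mp ⟨60522183, 0, 0, 0, 0, 151491214, 0, 0, 0, ⟨0, 0⟩, 0⟩ 0 0)) (.pos 67 .mp ⟨169410850, 0, 0, 0, 0, 0, 0, 0, 0, ⟨0, 0⟩, 0⟩ 0 0)) (.pos 43 .mp ⟨0, 0, 0, 0, 0, 0, 0, 0, 0, ⟨0, 0⟩, 0⟩ 0 0)) (.pos 43 .mp ⟨65300815, 0, 0, 0, 0, 0, 0, 0, 0, ⟨0, 0⟩, 0⟩ 0 0))) (.cut .d (-32768) (.cut .s 10829824 (.cut .s 10805248 (.pos 43 .mp ⟨63397063, 0, 0, 0, 0, 164790601, 0,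 0, 0, ⟨0, 0⟩, 0⟩ 0 0) (.pos 43 .mp ⟨64479910, 0, 0, 0, 0, 166674168, 0, 0, 0, ⟨0, 0⟩, 0⟩ 0 0)) (.cut .s 10854400 (.pos 43 .mp ⟨65656188, 0, 0, 0, 0, 168468456, 0, 0, 0, ⟨0, 0⟩, 0⟩ 0 0) (.pos 43 .mp ⟨66928396, 0, 0, 0, 0, 170169161, 0, 0, 0, ⟨0, 0⟩, 0⟩ 0 0))) (.cut .d (-16384) (.cut .l 513801 (.cut .v 16842752 (.cut .v 16809984 (.pos 83 .mp ⟨0, 0, 0, 0, 0, 250542455, 0, 0, 0, ⟨0, 0⟩, 0⟩ 0 0) (.cut .l 372243 (.cut .s 10829824 (.cut .s 10805248 (.pos 84 .mp ⟨65071379, 0, 0, 0, 0, 159447096, 0, 0, 0, ⟨0, 0⟩, 0⟩ 0 0) (.pos 84 .mp ⟨65800314, 0, 0, 0, 0, 161707248, 0, 0, 0, ⟨0, 0⟩, 0⟩ 0 0)) (.pos 84 .mp ⟨64957924, 0, 0, 0, 0, 168504152, 0, 0, 0, ⟨0, 0⟩, 0⟩ 0 0))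 (.pos 84 .mp ⟨63535369, 0, 0, 0, 0, 159534669, 0, 0, 0, ⟨0, 0⟩, 0⟩ 0 0))) (.pos 67 .mp ⟨177886479, 0, 0, 0, 0, 0, 0, 0, 0, ⟨0, 0⟩, 0⟩ 0 0)) (.pos 43 .mp ⟨0, 0, 0, 0, 0, 0, 0, 0, 0, ⟨0, 0⟩, 0⟩ 0 0)) (.pos 43 .mp ⟨68256552, 0, 0, 0, 0, 0, 0, 0, 0, ⟨0, 0⟩, 0⟩ 0 0)))) (.pos 44 .mp ⟨180814402, 0, 0, 0, 0, 0, 0, 0, 0, ⟨0, 0⟩, 0⟩ 0 0)) (.pos 41 .mp ⟨67487930, 0, 0, 0, 0, 140454071, 0, 0, 0, ⟨0, 0⟩, 0⟩ 0 0))) (.pos 42 .mp ⟨185693507, 0, 0, 0, 0, 0, 0, 0, 0, ⟨0, 0⟩, 0⟩ 0 0))) (.pos 40 .mp ⟨183176243, 0, 0, 0, 0, 0, 0, 0, 0, ⟨0, 0⟩, 0⟩ 0 0)) (.pos 38 .mp ⟨194409154, 0, 0, 0, 0, 0, 0, 0, 0, ⟨0, 0⟩, 0⟩ 0 0)) (.void 36 ⟨100000, 0, 0, 0, 0, 0, 0, 0, 0, ⟨0, 0⟩, 0⟩ 0 0))))))))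 (.void 34 ⟨100000, 0, 0, 0, 0, 0, 0, 0, 0, ⟨0, 0⟩, 0⟩ 0 0))) (.void 32 ⟨100000, 0, 0, 0, 0, 0, 0, 0, 0, ⟨0, 0⟩, 0⟩ 0 0)) (.void 63 ⟨100000, 0, 0, 0, 0, 0, 0, 0, 0, ⟨0, 0⟩, 0⟩ 0 0)) (.void 74 ⟨100000, 0, 0, 0, 0, 0, 0, 0, 0, ⟨0, 0⟩, 0⟩ 0 0)) (.void 103 ⟨96349, 0, 0, 3651, 0, 0, 0, 0, 0, ⟨0, 0⟩, 0⟩ 0 0))) (.cut .v 16777216 (.cut .v 8388608 (.cut .v 4194304 (.cut .v 2097152 (.cut .v 1048576 (.void 106 ⟨0, 0, 19122, 0, 0, 0, 0, 0, 80878, ⟨0, 0⟩, 1983364⟩ 0 0) (.void 107 ⟨0, 0, 37288, 0, 0, 0, 0, 0, 62712, ⟨0, 0⟩, 4987896⟩ 0 0)) (.pos 7 .pm ⟨0, 8319104, 0, 0, 0, 0, 0, 0, 0, ⟨0, 0⟩, 0⟩ 0 0)) (.cut .d 5033166 (.pos 5 .pm ⟨0, 0, 0, 0, 0, 0, 0, 0, 0, ⟨0, 0⟩, 0⟩ 0 0)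 (.cut .d 7549749 (.pos 5 .pm ⟨0, 0, 0, 0, 0, 0, 0, 0, 0, ⟨0, 0⟩, 0⟩ 0 0) (.cut .d 8808040 (.cut .d 8178894 (.pos 5 .pm ⟨0, 0, 0, 0, 0, 0, 0, 0, 0, ⟨0, 0⟩, 0⟩ 0 0) (.cut .s 10682368 (.pos 5 .pm ⟨0, 0, 0, 0, 0, 0, 0, 0, 0, ⟨0, 0⟩, 0⟩ 0 0) (.cut .d 8493467 (.pos 5 .pm ⟨0, 41891310, 0, 0, 0, 0, 0, 0, 0, ⟨0, 0⟩, 0⟩ 0 0) (.cut .v 6291456 (.pos 79 .pm ⟨0, 82311837, 0, 0, 0, 0, 0, 0, 0, ⟨0, 0⟩, 0⟩ 0 0) (.cut .l 796917 (.cut .s 10780672 (.cut .v 7340032 (.pos 93 .pm ⟨0, 88535856, 0, 0, 0, 0, 0, 0, 0, ⟨0, 0⟩, 0⟩ 0 0) (.cut .v 7864320 (.pos 108 .pm ⟨0, 92978139, 0, 0, 0, 0, 0, 0, 0, ⟨0, 0⟩, 0⟩ 0 0) (.cut .s 10731520 (.pos 109 .pm ⟨0, 90596514, 0, 0, 0, 0, 0, 0, 0, ⟨0,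 0⟩, 0⟩ 0 0) (.pos 109 .pm ⟨0, 98204889, 0, 0, 0, 0, 0, 0, 0, ⟨0, 0⟩, 0⟩ 0 0)))) (.cut .v 7340032 (.pos 93 .pm ⟨0, 98878699, 0, 0, 0, 0, 0, 0, 0, ⟨0, 0⟩, 0⟩ 0 0) (.cut .l 513801 (.cut .d 8650753 (.cut .s 10829824 (.pos 94 .pm ⟨0, 98942854, 0, 0, 0, 0, 0, 0, 0, ⟨0, 0⟩, 0⟩ 0 0) (.cut .v 7864320 (.pos 108 .pm ⟨0, 104329026, 0, 0, 0, 0, 0, 0, 0, ⟨0, 0⟩, 0⟩ 0 0) (.pos 109 .pm ⟨0, 106348632, 0, 0, 0, 0, 0, 0, 0, ⟨0, 0⟩, 0⟩ 0 0))) (.cut .v 7864320 (.pos 108 .pm ⟨0, 108030653, 0, 0, 0, 0, 0, 0, 0, ⟨0, 0⟩, 0⟩ 0 0) (.pos 109 .pm ⟨0, 110582732, 0, 0, 0, 0, 0, 0, 0, ⟨0, 0⟩, 0⟩ 0 0))) (.pos 94 .pm ⟨0, 105210123, 0, 0, 0, 0, 0, 0, 0, ⟨0, 0⟩, 0⟩ 0 0)))) (.pos 80 .pm ⟨0, 96681219,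 0, 0, 0, 0, 0, 0, 0, ⟨0, 0⟩, 0⟩ 0 0)))))) (.cut .d 9437186 (.cut .v 6291456 (.pos 79 .pm ⟨0, 86472677, 0, 0, 0, 0, 0, 0, 0, ⟨0, 0⟩, 0⟩ 0 0) (.cut .s 10682368 (.cut .v 7340032 (.pos 93 .pm ⟨0, 86121173, 0, 0, 0, 0, 0, 0, 0, ⟨0, 0⟩, 0⟩ 0 0) (.cut .d 9122613 (.cut .s 10584064 (.pos 94 .pm ⟨0, 82940374, 0, 0, 0, 0, 0, 0, 0, ⟨0, 0⟩, 0⟩ 0 0) (.cut .d 8965326 (.pos 94 .pm ⟨0, 91515872, 0, 0, 0, 0, 0, 0, 0, ⟨0, 0⟩, 0⟩ 0 0) (.pos 94 .pm ⟨0, 98048648, 0, 0, 0, 0, 0, 0, 0, ⟨0, 0⟩, 0⟩ 0 0))) (.cut .s 10584064 (.cut .s 10534912 (.pos 94 .pm ⟨0, 91029792, 0, 0, 0, 0, 0, 0, 0, ⟨0, 0⟩, 0⟩ 0 0) (.pos 94 .pm ⟨0, 96780959, 0, 0, 0, 0, 0, 0, 0, ⟨0, 0⟩, 0⟩ 0 0)) (.pos 94 .pm ⟨0,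 106836957, 0, 0, 0, 0, 0, 0, 0, ⟨0, 0⟩, 0⟩ 0 0)))) (.cut .s 10780672 (.cut .v 7340032 (.pos 93 .pm ⟨0, 100458589, 0, 0, 0, 0, 0, 0, 0, ⟨0, 0⟩, 0⟩ 0 0) (.cut .d 9122613 (.cut .s 10731520 (.cut .d 8965326 (.pos 94 .pm ⟨0, 100651008, 0, 0, 0, 0, 0, 0, 0, ⟨0, 0⟩, 0⟩ 0 0) (.pos 94 .pm ⟨0, 185112132, 0, 0, 0, 0, 0, 0, 0, ⟨0, 0⟩, 0⟩ 0 0)) (.pos 94 .pm ⟨0, 109800446, 0, 0, 0, 0, 0, 0, 0, ⟨0, 0⟩, 0⟩ 0 0)) (.void 94 ⟨0, 100000, 0, 0, 0, 0, 0, 0, 0, ⟨0, 0⟩, 0⟩ 0 0))) (.pos 80 .pm ⟨0, 305826716, 0, 0, 0, 0, 0, 0, 0, ⟨0, 0⟩, 0⟩ 0 0)))) (.pos 5 .pm ⟨0, 133589965, 0, 0, 0, 0, 0, 0, 0, ⟨0, 0⟩, 0⟩ 0 0)))))) (.cut .d 5033166 (.pos 3 .pm ⟨0, 0, 0, 0, 0, 0, 0, 0, 0, ⟨0, 0⟩, 0⟩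 0 0) (.cut .d 7549749 (.pos 3 .pm ⟨0, 0, 0, 0, 0, 0, 0, 0, 0, ⟨0, 0⟩, 0⟩ 0 0) (.cut .v 12582912 (.cut .d 8808040 (.cut .s 10682368 (.pos 8 .pm ⟨0, 73567930, 0, 0, 0, 0, 0, 0, 0, ⟨0, 0⟩, 0⟩ 0 0) (.cut .d 8178894 (.pos 8 .pm ⟨0, 0, 0, 0, 0, 0, 0, 0, 0, ⟨0, 0⟩, 0⟩ 0 0) (.cut .s 10780672 (.pos 8 .pm ⟨0, 96058081, 0, 0, 0, 0, 0, 0, 0, ⟨0, 0⟩, 0⟩ 0 0) (.cut .d 8493467 (.pos 8 .pm ⟨0, 100445192, 0, 0, 0, 0, 0, 0, 0, ⟨0, 0⟩, 0⟩ 0 0) (.pos 8 .pm ⟨0, 113084990, 0, 0, 0, 0, 0, 0, 0, ⟨0, 0⟩, 0⟩ 0 0))))) (.cut .d 9437186 (.cut .v 10485760 (.cut .s 10682368 (.cut .v 9437184 (.cut .l 796917 (.cut .d 9122613 (.cut .s 10584064 (.pos 87 .pm ⟨0, 86620943, 0, 0, 0, 0, 0, 0, 0,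 ⟨0, 0⟩, 0⟩ 0 0) (.cut .s 10633216 (.pos 87 .pm ⟨0, 95606505, 0, 0, 0, 0, 0, 0, 0, ⟨0, 0⟩, 0⟩ 0 0) (.pos 87 .pm ⟨0, 101535793, 0, 0, 0, 0, 0, 0, 0, ⟨0, 0⟩, 0⟩ 0 0))) (.cut .s 10584064 (.cut .s 10534912 (.pos 87 .pm ⟨0, 94592210, 0, 0, 0, 0, 0, 0, 0, ⟨0, 0⟩, 0⟩ 0 0) (.pos 87 .pm ⟨0, 100549058, 0, 0, 0, 0, 0, 0, 0, ⟨0, 0⟩, 0⟩ 0 0)) (.void 87 ⟨0, 100000, 0, 0, 0, 0, 0, 0, 0, ⟨0, 0⟩, 0⟩ 0 0))) (.pos 87 .pm ⟨0, 98511534, 0, 0, 0, 0, 0, 0, 0, ⟨0, 0⟩, 0⟩ 0 0)) (.pos 88 .pm ⟨0, 107475581, 0, 0, 0, 0, 0, 0, 0, ⟨0, 0⟩, 0⟩ 0 0)) (.cut .s 10780672 (.cut .d 9122613 (.pos 10 .pm ⟨0, 113033253, 0, 0, 0, 0, 0, 0, 0, ⟨0, 0⟩, 0⟩ 0 0) (.void 10 ⟨0, 100000, 0, 0, 0, 0, 0, 0, 0,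 ⟨0, 0⟩, 0⟩ 0 0)) (.void 10 ⟨0, 100000, 0, 0, 0, 0, 0, 0, 0, ⟨0, 0⟩, 0⟩ 0 0))) (.pos 11 .pm ⟨0, 131582050, 0, 0, 0, 0, 0, 0, 0, ⟨0, 0⟩, 0⟩ 0 0)) (.void 8 ⟨0, 100000, 0, 0, 0, 0, 0, 0, 0, ⟨0, 0⟩, 0⟩ 0 0))) (.pos 9 .pm ⟨0, 144044524, 0, 0, 0, 0, 0, 0, 0, ⟨0, 0⟩, 0⟩ 0 0))))) (.cut .v 268435456 (.cut .d 5033166 (.cut .v 67108864 (.cut .d 2516583 (.cut .v 33554432 (.cut .d 1258291 (.cut .v 25165824 (.cut .v 20971520 (.pos 33 .pp ⟨98726037, 0, 0, 0, 0, 0, 0, 0, 0, ⟨0, 0⟩, 0⟩ 0 0) (.pos 34 .pp ⟨197505808, 0, 0, 0, 0, 0, 0, 0, 0, ⟨0, 0⟩, 0⟩ 0 0)) (.pos 32 .pp ⟨316155765, 0, 0, 0, 0, 0, 0, 0, 0, ⟨0, 0⟩, 0⟩ 0 0)) (.pos 30 .pp ⟨0, 0, 0, 0, 0, 0, 0, 0, 0, ⟨0, 0⟩, 0⟩ 0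 0)) (.cut .d 1258291 (.cut .v 50331648 (.pos 64 .pp ⟨738286190, 0, 0, 0, 0, 0, 0, 0, 0, ⟨0, 0⟩, 0⟩ 0 0) (.void 65 ⟨100000, 0, 0, 0, 0, 0, 0, 0, 0, ⟨0, 0⟩, 0⟩ 0 0)) (.cut .v 50331648 (.pos 64 .pp ⟨298860912, 0, 0, 0, 0, 0, 0, 0, 0, ⟨0, 0⟩, 0⟩ 0 0) (.pos 65 .pp ⟨817630093, 0, 0, 0, 0, 0, 0, 0, 0, ⟨0, 0⟩, 0⟩ 0 0)))) (.pos 62 .pp ⟨0, 0, 0, 0, 0, 0, 0, 0, 0, ⟨0, 0⟩, 0⟩ 0 0)) (.cut .v 134217728 (.cut .d 2516583 (.cut .v 100663296 (.cut .d 1258291 (.void 77 ⟨100000, 0, 0, 0, 0, 0, 0, 0, 0, ⟨0, 0⟩, 0⟩ 0 0) (.cut .v 83886080 (.pos 81 .pp ⟨1607160625, 0, 0, 0, 0, 0, 0, 0, 0, ⟨0, 0⟩, 0⟩ 0 0) (.pos 82 .pp ⟨2555927604, 0, 0, 0, 0, 0, 0, 0, 0, ⟨0, 0⟩, 0⟩ 0 0))) (.void 78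 ⟨41769, 58231, 0, 0, 0, 0, 0, 0, 0, ⟨0, 0⟩, 0⟩ 0 0)) (.pos 75 .pp ⟨0, 467238313, 0, 0, 0, 0, 3675489, 0, 0, ⟨0, 0⟩, 0⟩ 0 0)) (.void 76 ⟨40138, 59862, 0, 0, 0, 0, 0, 0, 0, ⟨0, 0⟩, 0⟩ 0 0))) (.pos 73 .pp ⟨0, 118904407, 0, 0, 0, 0, 0, 0, 0, ⟨0, 0⟩, 0⟩ 0 0)) (.void 103 ⟨0, 0, 0, 100000, 0, 0, 0, 0, 0, ⟨0, 0⟩, 0⟩ 0 0)))),
    by decide +kernel⟩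

def covers15 : cell.Covers table row15.1 :=
  ⟨(.cut .d 0 (.cut .v 16777216 (.cut .d (-8388608) (.void 1 ⟨0, 0, 0, 0, 0, 100000, 0, 0, 0, ⟨0, 0⟩, 0⟩ 0 0) (.cut .d (-4194304) (.void 1 ⟨0, 0, 0, 0, 0, 100000, 0, 0, 0, ⟨0, 0⟩, 0⟩ 0 0) (.cut .d (-2097152) (.void 1 ⟨0, 0, 0, 0, 0, 100000, 0, 0, 0, ⟨0, 0⟩, 0⟩ 0 0) (.cut .d (-1048576) (.void 1 ⟨0, 0, 0, 0, 0, 100000, 0, 0, 0, ⟨0, 0⟩, 0⟩ 0 0) (.cut .d (-524288) (.void 1 ⟨0, 0, 0, 0, 0, 100000, 0, 0, 0, ⟨0, 0⟩, 0⟩ 0 0) (.cut .d (-262144) (.void 1 ⟨0, 0, 0, 0, 0, 100000, 0, 0, 0, ⟨0, 0⟩, 0⟩ 0 0) (.cut .d (-131072) (.void 1 ⟨0, 0, 0, 0, 0, 100000, 0, 0, 0, ⟨0, 0⟩, 0⟩ 0 0) (.cut .v 8388608 (.cut .v 4194304 (.void 4 ⟨0,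 0, 100000, 0, 0, 0, 0, 0, 0, ⟨0, 0⟩, 0⟩ 0 0) (.pos 5 .mm ⟨0, 0, 0, 0, 0, 136811235, 0, 0, 0, ⟨0, 0⟩, 0⟩ 0 0)) (.cut .v 12582912 (.pos 8 .mm ⟨0, 0, 0, 0, 0, 204411689, 0, 0, 0, ⟨0, 0⟩, 0⟩ 0 0) (.cut .v 14680064 (.pos 12 .mm ⟨0, 0, 0, 0, 0, 248351069, 0, 0, 0, ⟨0, 0⟩, 0⟩ 0 0) (.cut .v 15728640 (.pos 16 .mm ⟨0, 0, 0, 0, 0, 273345863, 0, 0, 0, ⟨0, 0⟩, 0⟩ 0 0) (.cut .v 16252928 (.pos 20 .mm ⟨0, 0, 0, 0, 0, 286611614, 0, 0, 0, ⟨0, 0⟩, 0⟩ 0 0) (.cut .s 11108352 (.cut .s 10993664 (.pos 21 .mm ⟨0, 0, 0, 0, 0, 269640166, 0, 0, 0, ⟨0, 0⟩, 0⟩ 0 0) (.pos 21 .mm ⟨0, 0, 0, 0, 0, 287491822, 0, 0, 0, ⟨0, 0⟩, 0⟩ 0 0)) (.cut .s 11223040 (.pos 21 .mm ⟨0, 0, 0, 0, 0, 306378469,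 0, 0, 0, ⟨0, 0⟩, 0⟩ 0 0) (.pos 21 .mm ⟨0, 0, 0, 0, 0, 326268880, 0, 0, 0, ⟨0, 0⟩, 0⟩ 0 0))))))))))))))) (.cut .v 268435456 (.cut .v 67108864 (.cut .v 33554432 (.cut .v 25165824 (.cut .d (-8388608) (.void 31 ⟨0, 0, 0, 0, 0, 100000, 0, 0, 0, ⟨0, 0⟩, 0⟩ 0 0) (.cut .d (-4194304) (.void 31 ⟨100000, 0, 0, 0, 0, 0, 0, 0, 0, ⟨0, 0⟩, 0⟩ 0 0) (.cut .v 20971520 (.cut .d (-2097152) (.void 33 ⟨100000, 0, 0, 0, 0, 0, 0, 0, 0, ⟨0, 0⟩, 0⟩ 0 0) (.cut .d (-1048576) (.void 33 ⟨100000, 0, 0, 0, 0, 0, 0, 0, 0, ⟨0, 0⟩, 0⟩ 0 0) (.cut .d (-524288) (.void 33 ⟨100000, 0, 0, 0, 0, 0, 0, 0, 0, ⟨0, 0⟩, 0⟩ 0 0) (.cut .d (-262144) (.void 33 ⟨100000, 0, 0, 0, 0, 0, 0, 0, 0, ⟨0, 0⟩, 0⟩ 0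 0) (.cut .d (-131072) (.void 33 ⟨0, 0, 0, 0, 0, 100000, 0, 0, 0, ⟨0, 0⟩, 0⟩ 0 0) (.cut .v 18874368 (.cut .v 17825792 (.cut .v 17301504 (.cut .s 11108352 (.cut .v 17039360 (.cut .d (-65536) (.cut .l 796917 (.void 41 ⟨0, 0, 0, 0, 0, 100000, 0, 0, 0, ⟨0, 0⟩, 0⟩ 0 0) (.cut .d (-98304) (.cut .s 10993664 (.pos 41 .mp ⟨71093202, 0, 0, 0, 0, 188162935, 0, 0, 0, ⟨0, 0⟩, 0⟩ 0 0) (.cut .s 11051008 (.pos 41 .mp ⟨75155812, 0, 0, 0, 0, 191097965, 0, 0, 0, ⟨0, 0⟩, 0⟩ 0 0) (.pos 41 .mp ⟨77335120, 0, 0, 0, 0, 196667576, 0, 0, 0, ⟨0, 0⟩, 0⟩ 0 0))) (.cut .s 10993664 (.cut .v 16908288 (.pos 43 .mp ⟨7338515, 0, 0, 0, 0, 266204169, 0, 0, 0, ⟨0, 0⟩, 0⟩ 0 0) (.cut .s 10936320 (.pos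 44 .mp ⟨80748322, 0, 0, 0, 0, 157940346, 0, 0, 0, ⟨0, 0⟩, 0⟩ 0 0) (.cut .s 10964992 (.pos 44 .mp ⟨81926101, 0, 0, 0, 0, 161764506, 0, 0, 0, ⟨0, 0⟩, 0⟩ 0 0) (.pos 44 .mp ⟨83112716, 0, 0, 0, 0, 164050429, 0, 0, 0, ⟨0, 0⟩, 0⟩ 0 0)))) (.cut .v 16908288 (.cut .s 11051008 (.pos 43 .mp ⟨34803378, 0, 0, 0, 0, 239187594, 0, 0, 0, ⟨0, 0⟩, 0⟩ 0 0) (.pos 43 .mp ⟨32274008, 0, 0, 0, 0, 251589008, 0, 0, 0, ⟨0, 0⟩, 0⟩ 0 0)) (.cut .v 16973824 (.cut .s 11051008 (.cut .s 11022336 (.pos 70 .mp ⟨83728699, 0, 0, 0, 0, 167249768, 0, 0, 0, ⟨0, 0⟩, 0⟩ 0 0) (.pos 70 .mp ⟨84923481, 0, 0, 0, 0, 169727508, 0, 0, 0, ⟨0, 0⟩, 0⟩ 0 0)) (.cut .s 11079680 (.pos 70 .mp ⟨86127443, 0, 0, 0, 0,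 172293968, 0, 0, 0, ⟨0, 0⟩, 0⟩ 0 0) (.pos 70 .mp ⟨87340731, 0, 0, 0, 0, 174949511, 0, 0, 0, ⟨0, 0⟩, 0⟩ 0 0))) (.pos 71 .mp ⟨203295417, 0, 0, 0, 0, 0, 0, 0, 0, ⟨0, 0⟩, 0⟩ 0 0)))))) (.cut .l 796917 (.cut .v 16908288 (.cut .d (-32768) (.cut .s 10993664 (.cut .l 513801 (.pos 43 .mp ⟨67919604, 0, 0, 0, 0, 185168585, 0, 0, 0, ⟨0, 0⟩, 0⟩ 0 0) (.cut .s 10936320 (.pos 43 .mp ⟨64693944, 0, 0, 0, 0, 179136563, 0, 0, 0, ⟨0, 0⟩, 0⟩ 0 0) (.cut .s 10964992 (.pos 43 .mp ⟨66433102, 0, 0, 0, 0, 182326676, 0, 0, 0, ⟨0, 0⟩, 0⟩ 0 0) (.pos 43 .mp ⟨67306542, 0, 0, 0, 0, 185136146, 0, 0, 0, ⟨0, 0⟩, 0⟩ 0 0)))) (.cut .s 11051008 (.cut .s 11022336 (.pos 43 .mp ⟨68497869, 0, 0, 0, 0,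 188539542, 0, 0, 0, ⟨0, 0⟩, 0⟩ 0 0) (.cut .s 11036672 (.pos 43 .mp ⟨71272309, 0, 0, 0, 0, 187029145, 0, 0, 0, ⟨0, 0⟩, 0⟩ 0 0) (.pos 43 .mp ⟨71560496, 0, 0, 0, 0, 188791516, 0, 0, 0, ⟨0, 0⟩, 0⟩ 0 0))) (.cut .s 11079680 (.cut .s 11065344 (.pos 43 .mp ⟨71884060, 0, 0, 0, 0, 190522784, 0, 0, 0, ⟨0, 0⟩, 0⟩ 0 0) (.pos 43 .mp ⟨72243617, 0, 0, 0, 0, 192221895, 0, 0, 0, ⟨0, 0⟩, 0⟩ 0 0)) (.pos 43 .mp ⟨70827388, 0, 0, 0, 0, 198296801, 0, 0, 0, ⟨0, 0⟩, 0⟩ 0 0)))) (.cut .d (-16384) (.cut .l 513801 (.cut .s 10993664 (.cut .v 16842752 (.cut .l 372243 (.cut .s 10936320 (.pos 66 .mp ⟨66159999, 0, 0, 0, 0, 175402041, 0, 0, 0, ⟨0, 0⟩, 0⟩ 0 0) (.cut .s 10964992 (.pos 66 .mp ⟨68796519,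 0, 0, 0, 0, 176803094, 0, 0, 0, ⟨0, 0⟩, 0⟩ 0 0) (.pos 66 .mp ⟨69240150, 0, 0, 0, 0, 180283948, 0, 0, 0, ⟨0, 0⟩, 0⟩ 0 0))) (.pos 66 .mp ⟨64548903, 0, 0, 0, 0, 176467086, 0, 0, 0, ⟨0, 0⟩, 0⟩ 0 0)) (.pos 67 .mp ⟨189569628, 0, 0, 0, 0, 0, 0, 0, 0, ⟨0, 0⟩, 0⟩ 0 0)) (.cut .v 16842752 (.cut .v 16809984 (.pos 83 .mp ⟨0, 0, 0, 0, 0, 286724011, 0, 0, 0, ⟨0, 0⟩, 0⟩ 0 0) (.cut .s 11051008 (.cut .s 11022336 (.pos 84 .mp ⟨69483979, 0, 0, 0, 0, 184066850, 0, 0, 0, ⟨0, 0⟩, 0⟩ 0 0) (.pos 84 .mp ⟨69879158, 0, 0, 0, 0, 187713892, 0, 0, 0, ⟨0, 0⟩, 0⟩ 0 0)) (.cut .s 11079680 (.pos 84 .mp ⟨70479910, 0, 0, 0, 0, 191151501, 0, 0, 0, ⟨0, 0⟩, 0⟩ 0 0) (.pos 84 .mp ⟨71293728, 0, 0, 0,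 0, 194367161, 0, 0, 0, ⟨0, 0⟩, 0⟩ 0 0)))) (.pos 67 .mp ⟨148702954, 0, 0, 0, 0, 76322161, 0, 0, 0, ⟨0, 0⟩, 0⟩ 0 0))) (.pos 43 .mp ⟨0, 0, 0, 0, 0, 0, 0, 0, 0, ⟨0, 0⟩, 0⟩ 0 0)) (.pos 43 .mp ⟨75431680, 0, 0, 0, 0, 0, 0, 0, 0, ⟨0, 0⟩, 0⟩ 0 0))) (.pos 44 .mp ⟨201453526, 0, 0, 0, 0, 0, 0, 0, 0, ⟨0, 0⟩, 0⟩ 0 0)) (.cut .s 10993664 (.pos 41 .mp ⟨75582883, 0, 0, 0, 0, 156786673, 0, 0, 0, ⟨0, 0⟩, 0⟩ 0 0) (.cut .s 11051008 (.pos 41 .mp ⟨77660273, 0, 0, 0, 0, 168881363, 0, 0, 0, ⟨0, 0⟩, 0⟩ 0 0) (.pos 41 .mp ⟨79761718, 0, 0, 0, 0, 174275845, 0, 0, 0, ⟨0, 0⟩, 0⟩ 0 0))))) (.pos 42 .mp ⟨207927386, 0, 0, 0, 0, 0, 0, 0, 0, ⟨0, 0⟩, 0⟩ 0 0)) (.cut .v 17039360 (.cut .d (-65536)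 (.cut .l 796917 (.void 41 ⟨0, 0, 0, 0, 0, 100000, 0, 0, 0, ⟨0, 0⟩, 0⟩ 0 0) (.cut .d (-98304) (.cut .s 11223040 (.pos 41 .mp ⟨79539426, 0, 0, 0, 0, 209914007, 0, 0, 0, ⟨0, 0⟩, 0⟩ 0 0) (.void 41 ⟨0, 0, 0, 0, 0, 100000, 0, 0, 0, ⟨0, 0⟩, 0⟩ 0 0)) (.cut .s 11223040 (.cut .v 16908288 (.pos 43 .mp ⟨0, 0, 0, 0, 0, 311905784, 0, 0, 0, ⟨0, 0⟩, 0⟩ 0 0) (.cut .v 16973824 (.cut .s 11165696 (.cut .s 11137024 (.pos 70 .mp ⟨88563498, 0, 0, 0, 0, 177694493, 0, 0, 0, ⟨0, 0⟩, 0⟩ 0 0) (.pos 70 .mp ⟨89795898, 0, 0, 0, 0, 180529264, 0, 0, 0, ⟨0, 0⟩, 0⟩ 0 0)) (.cut .s 11194368 (.pos 70 .mp ⟨91038088, 0, 0, 0, 0, 183454170, 0, 0, 0, ⟨0, 0⟩, 0⟩ 0 0) (.pos 70 .mp ⟨92290227, 0, 0, 0,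 0, 186469552, 0, 0, 0, ⟨0, 0⟩, 0⟩ 0 0))) (.pos 71 .mp ⟨214036752, 0, 0, 0, 0, 0, 0, 0, 0, ⟨0, 0⟩, 0⟩ 0 0))) (.cut .s 11280384 (.cut .s 11251712 (.pos 41 .mp ⟨76457136, 0, 0, 0, 0, 217504432, 0, 0, 0, ⟨0, 0⟩, 0⟩ 0 0) (.pos 41 .mp ⟨77431028, 0, 0, 0, 0, 221233633, 0, 0, 0, ⟨0, 0⟩, 0⟩ 0 0)) (.pos 41 .mp ⟨78408608, 0, 0, 0, 0, 227550606, 0, 0, 0, ⟨0, 0⟩, 0⟩ 0 0))))) (.cut .l 796917 (.cut .v 16908288 (.cut .d (-32768) (.cut .s 11223040 (.cut .l 513801 (.pos 43 .mp ⟨75288161, 0, 0, 0, 0, 209749294, 0, 0, 0, ⟨0, 0⟩, 0⟩ 0 0) (.cut .s 11165696 (.cut .s 11137024 (.pos 43 .mp ⟨71714671, 0, 0, 0, 0, 200478117, 0, 0, 0, ⟨0, 0⟩, 0⟩ 0 0) (.pos 43 .mp ⟨72604906, 0, 0, 0,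 0, 203805828, 0, 0, 0, ⟨0, 0⟩, 0⟩ 0 0)) (.pos 43 .mp ⟨73498158, 0, 0, 0, 0, 209480742, 0, 0, 0, ⟨0, 0⟩, 0⟩ 0 0))) (.cut .s 11280384 (.pos 43 .mp ⟨75293974, 0, 0, 0, 0, 218869201, 0, 0, 0, ⟨0, 0⟩, 0⟩ 0 0) (.pos 43 .mp ⟨77102655, 0, 0, 0, 0, 226645292, 0, 0, 0, ⟨0, 0⟩, 0⟩ 0 0))) (.cut .d (-16384) (.cut .l 513801 (.cut .s 11223040 (.cut .v 16842752 (.cut .s 11165696 (.cut .s 11137024 (.pos 66 .mp ⟨71914014, 0, 0, 0, 0, 197897179, 0, 0, 0, ⟨0, 0⟩, 0⟩ 0 0) (.pos 66 .mp ⟨73045079, 0, 0, 0, 0, 200807009, 0, 0, 0, ⟨0, 0⟩, 0⟩ 0 0)) (.pos 66 .mp ⟨73016818, 0, 0, 0, 0, 207569019, 0, 0, 0, ⟨0, 0⟩, 0⟩ 0 0)) (.pos 67 .mp ⟨154294316, 0, 0, 0, 0, 84835817, 0, 0, 0, ⟨0, 0⟩,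 0⟩ 0 0)) (.cut .s 11280384 (.pos 43 .mp ⟨84909714, 0, 0, 0, 0, 198219346, 0, 0, 0, ⟨0, 0⟩, 0⟩ 0 0) (.pos 43 .mp ⟨86971202, 0, 0, 0, 0, 205302040, 0, 0, 0, ⟨0, 0⟩, 0⟩ 0 0))) (.pos 43 .mp ⟨82938916, 0, 0, 0, 0, 0, 0, 0, 0, ⟨0, 0⟩, 0⟩ 0 0)) (.pos 43 .mp ⟨76867299, 0, 0, 0, 0, 184513245, 0, 0, 0, ⟨0, 0⟩, 0⟩ 0 0))) (.pos 44 .mp ⟨223954016, 0, 0, 0, 0, 0, 0, 0, 0, ⟨0, 0⟩, 0⟩ 0 0)) (.cut .s 11223040 (.pos 41 .mp ⟨84040201, 0, 0, 0, 0, 177272084, 0, 0, 0, ⟨0, 0⟩, 0⟩ 0 0) (.pos 41 .mp ⟨88384143, 0, 0, 0, 0, 188718074, 0, 0, 0, ⟨0, 0⟩, 0⟩ 0 0)))) (.pos 42 .mp ⟨229775636, 0, 0, 0, 0, 0, 0, 0, 0, ⟨0, 0⟩, 0⟩ 0 0))) (.pos 40 .mp ⟨227018025, 0, 0, 0, 0, 0, 0, 0, 0, ⟨0, 0⟩,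 0⟩ 0 0)) (.pos 38 .mp ⟨240941482, 0, 0, 0, 0, 0, 0, 0, 0, ⟨0, 0⟩, 0⟩ 0 0)) (.void 36 ⟨100000, 0, 0, 0, 0, 0, 0, 0, 0, ⟨0, 0⟩, 0⟩ 0 0))))))) (.void 34 ⟨100000, 0, 0, 0, 0, 0, 0, 0, 0, ⟨0, 0⟩, 0⟩ 0 0)))) (.void 32 ⟨100000, 0, 0, 0, 0, 0, 0, 0, 0, ⟨0, 0⟩, 0⟩ 0 0)) (.void 63 ⟨100000, 0, 0, 0, 0, 0, 0, 0, 0, ⟨0, 0⟩, 0⟩ 0 0)) (.void 74 ⟨100000, 0, 0, 0, 0, 0, 0, 0, 0, ⟨0, 0⟩, 0⟩ 0 0)) (.void 103 ⟨96196, 0, 0, 3804, 0, 0, 0, 0, 0, ⟨0, 0⟩, 0⟩ 0 0))) (.cut .v 16777216 (.cut .v 8388608 (.cut .v 4194304 (.cut .v 2097152 (.cut .v 1048576 (.pos 106 .pm ⟨0, 0, 28216098, 0, 0, 0, 0, 0, 56069817, ⟨0, 0⟩, 1983364⟩ 0 0) (.pos 107 .pm ⟨0, 0, 2054474, 0, 0, 0, 0, 0, 0, ⟨0, 0⟩,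 0⟩ 0 0)) (.cut .d 4548041 (.pos 7 .pm ⟨0, 0, 25079757, 0, 0, 0, 0, 0, 0, ⟨0, 0⟩, 0⟩ 0 0) (.cut .d 6822062 (.pos 7 .pm ⟨0, 0, 0, 0, 0, 0, 0, 0, 0, ⟨0, 0⟩, 0⟩ 0 0) (.pos 7 .pm ⟨0, 63431917, 0, 0, 0, 0, 0, 0, 0, ⟨0, 0⟩, 0⟩ 0 0)))) (.cut .d 4548041 (.pos 5 .pm ⟨0, 0, 0, 0, 0, 0, 0, 0, 0, ⟨0, 0⟩, 0⟩ 0 0) (.cut .d 6822062 (.pos 5 .pm ⟨0, 0, 0, 0, 0, 0, 0, 0, 0, ⟨0, 0⟩, 0⟩ 0 0) (.cut .d 7959072 (.cut .s 11108352 (.pos 5 .pm ⟨0, 0, 0, 0, 0, 0, 0, 0, 0, ⟨0, 0⟩, 0⟩ 0 0) (.cut .d 7390567 (.pos 5 .pm ⟨0, 0, 0, 0, 0, 0, 0, 0, 0, ⟨0, 0⟩, 0⟩ 0 0) (.cut .v 6291456 (.cut .s 11223040 (.pos 79 .pm ⟨0, 92761269, 0, 0, 0, 0, 0, 0, 0, ⟨0, 0⟩, 0⟩ 0 0) (.pos 79 .pm ⟨0, 105155916,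 0, 0, 0, 0, 0, 0, 0, ⟨0, 0⟩, 0⟩ 0 0)) (.cut .d 7674819 (.cut .s 11223040 (.pos 80 .pm ⟨0, 0, 0, 0, 0, 0, 0, 0, 0, ⟨0, 0⟩, 0⟩ 0 0) (.cut .v 7340032 (.cut .s 11280384 (.pos 93 .pm ⟨0, 0, 0, 0, 0, 0, 0, 0, 0, ⟨0, 0⟩, 0⟩ 0 0) (.cut .d 7532693 (.pos 93 .pm ⟨0, 0, 0, 0, 0, 0, 0, 0, 0, ⟨0, 0⟩, 0⟩ 0 0) (.pos 93 .pm ⟨0, 116044244, 0, 0, 0, 0, 0, 0, 0, ⟨0, 0⟩, 0⟩ 0 0))) (.pos 94 .pm ⟨0, 114971640, 0, 0, 0, 0, 0, 0, 0, ⟨0, 0⟩, 0⟩ 0 0))) (.cut .s 11223040 (.cut .l 796917 (.cut .v 7340032 (.cut .s 11165696 (.pos 93 .pm ⟨0, 104527181, 0, 0, 0, 0, 0, 0, 0, ⟨0, 0⟩, 0⟩ 0 0) (.cut .d 7816945 (.pos 93 .pm ⟨0, 103887655, 0, 0, 0, 0, 0, 0, 0, ⟨0, 0⟩, 0⟩ 0 0) (.cut .s 11194368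 (.pos 93 .pm ⟨0, 113662028, 0, 0, 0, 0, 0, 0, 0, ⟨0, 0⟩, 0⟩ 0 0) (.pos 93 .pm ⟨0, 117921896, 0, 0, 0, 0, 0, 0, 0, ⟨0, 0⟩, 0⟩ 0 0)))) (.cut .s 11165696 (.pos 94 .pm ⟨0, 109811366, 0, 0, 0, 0, 0, 0, 0, ⟨0, 0⟩, 0⟩ 0 0) (.cut .d 7816945 (.pos 94 .pm ⟨0, 112917412, 0, 0, 0, 0, 0, 0, 0, ⟨0, 0⟩, 0⟩ 0 0) (.cut .d 7888008 (.pos 94 .pm ⟨0, 117971024, 0, 0, 0, 0, 0, 0, 0, ⟨0, 0⟩, 0⟩ 0 0) (.pos 94 .pm ⟨0, 122981690, 0, 0, 0, 0, 0, 0, 0, ⟨0, 0⟩, 0⟩ 0 0))))) (.pos 80 .pm ⟨0, 107779667, 0, 0, 0, 0, 0, 0, 0, ⟨0, 0⟩, 0⟩ 0 0)) (.cut .l 796917 (.cut .v 7340032 (.cut .s 11280384 (.cut .d 7816945 (.cut .s 11251712 (.pos 93 .pm ⟨0, 113687913, 0, 0, 0, 0, 0, 0, 0, ⟨0, 0⟩, 0⟩ 0 0)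 (.pos 93 .pm ⟨0, 117910806, 0, 0, 0, 0, 0, 0, 0, ⟨0, 0⟩, 0⟩ 0 0)) (.pos 93 .pm ⟨0, 124719113, 0, 0, 0, 0, 0, 0, 0, ⟨0, 0⟩, 0⟩ 0 0)) (.pos 93 .pm ⟨0, 128800646, 0, 0, 0, 0, 0, 0, 0, ⟨0, 0⟩, 0⟩ 0 0)) (.cut .d 7816945 (.cut .s 11280384 (.pos 94 .pm ⟨0, 120909356, 0, 0, 0, 0, 0, 0, 0, ⟨0, 0⟩, 0⟩ 0 0) (.pos 94 .pm ⟨0, 129753806, 0, 0, 0, 0, 0, 0, 0, ⟨0, 0⟩, 0⟩ 0 0)) (.void 94 ⟨0, 100000, 0, 0, 0, 0, 0, 0, 0, ⟨0, 0⟩, 0⟩ 0 0))) (.pos 80 .pm ⟨0, 124910061, 0, 0, 0, 0, 0, 0, 0, ⟨0, 0⟩, 0⟩ 0 0))))))) (.cut .d 8527577 (.cut .s 11108352 (.cut .v 6291456 (.pos 79 .pm ⟨0, 92186342, 0, 0, 0, 0, 0, 0, 0, ⟨0, 0⟩, 0⟩ 0 0) (.cut .s 10993664 (.cut .d 8243324 (.pos 80 .pm ⟨0,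 19089954, 0, 0, 0, 0, 0, 0, 0, ⟨0, 0⟩, 0⟩ 0 0) (.cut .l 796917 (.cut .v 7340032 (.cut .s 10936320 (.pos 93 .pm ⟨0, 99093183, 0, 0, 0, 0, 0, 0, 0, ⟨0, 0⟩, 0⟩ 0 0) (.pos 93 .pm ⟨0, 106335397, 0, 0, 0, 0, 0, 0, 0, ⟨0, 0⟩, 0⟩ 0 0)) (.cut .l 513801 (.cut .s 10936320 (.cut .d 8385450 (.pos 94 .pm ⟨0, 84907083, 0, 0, 0, 0, 0, 0, 0, ⟨0, 0⟩, 0⟩ 0 0) (.cut .v 7864320 (.pos 108 .pm ⟨0, 105828456, 0, 0, 0, 0, 0, 0, 0, ⟨0, 0⟩, 0⟩ 0 0) (.pos 109 .pm ⟨0, 108044284, 0, 0, 0, 0, 0, 0, 0, ⟨0, 0⟩, 0⟩ 0 0))) (.cut .d 8385450 (.cut .v 7864320 (.pos 108 .pm ⟨0, 107592607, 0, 0, 0, 0, 0, 0, 0, ⟨0, 0⟩, 0⟩ 0 0) (.pos 109 .pm ⟨0, 110718198, 0, 0, 0, 0, 0, 0, 0, ⟨0, 0⟩, 0⟩ 0 0)) (.pos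 94 .pm ⟨0, 115474143, 0, 0, 0, 0, 0, 0, 0, ⟨0, 0⟩, 0⟩ 0 0))) (.pos 94 .pm ⟨0, 107616117, 0, 0, 0, 0, 0, 0, 0, ⟨0, 0⟩, 0⟩ 0 0))) (.pos 80 .pm ⟨0, 104526338, 0, 0, 0, 0, 0, 0, 0, ⟨0, 0⟩, 0⟩ 0 0))) (.cut .d 8243324 (.cut .l 796917 (.cut .v 7340032 (.cut .d 8101198 (.pos 93 .pm ⟨0, 103217819, 0, 0, 0, 0, 0, 0, 0, ⟨0, 0⟩, 0⟩ 0 0) (.cut .s 11051008 (.pos 93 .pm ⟨0, 106416596, 0, 0, 0, 0, 0, 0, 0, ⟨0, 0⟩, 0⟩ 0 0) (.pos 93 .pm ⟨0, 114722434, 0, 0, 0, 0, 0, 0, 0, ⟨0, 0⟩, 0⟩ 0 0))) (.cut .l 513801 (.cut .s 11051008 (.cut .d 8101198 (.pos 94 .pm ⟨0, 3070711, 0, 0, 0, 0, 0, 0, 0, ⟨0, 0⟩, 0⟩ 0 0) (.cut .s 11022336 (.pos 94 .pm ⟨0, 109063194, 0, 0, 0, 0, 0, 0, 0, ⟨0, 0⟩,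 0⟩ 0 0) (.pos 94 .pm ⟨0, 113267208, 0, 0, 0, 0, 0, 0, 0, ⟨0, 0⟩, 0⟩ 0 0))) (.cut .d 8101198 (.cut .v 7864320 (.pos 108 .pm ⟨0, 110407030, 0, 0, 0, 0, 0, 0, 0, ⟨0, 0⟩, 0⟩ 0 0) (.pos 109 .pm ⟨0, 115963425, 0, 0, 0, 0, 0, 0, 0, ⟨0, 0⟩, 0⟩ 0 0)) (.pos 94 .pm ⟨0, 119589440, 0, 0, 0, 0, 0, 0, 0, ⟨0, 0⟩, 0⟩ 0 0))) (.pos 94 .pm ⟨0, 110619770, 0, 0, 0, 0, 0, 0, 0, ⟨0, 0⟩, 0⟩ 0 0))) (.pos 80 .pm ⟨0, 106842439, 0, 0, 0, 0, 0, 0, 0, ⟨0, 0⟩, 0⟩ 0 0)) (.cut .v 7340032 (.pos 93 .pm ⟨0, 119082860, 0, 0, 0, 0, 0, 0, 0, ⟨0, 0⟩, 0⟩ 0 0) (.pos 94 .pm ⟨0, 126407592, 0, 0, 0, 0, 0, 0, 0, ⟨0, 0⟩, 0⟩ 0 0))))) (.cut .v 6291456 (.pos 79 .pm ⟨0, 120403507, 0, 0, 0, 0, 0, 0, 0, ⟨0, 0⟩,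 0⟩ 0 0) (.cut .s 11223040 (.cut .d 8243324 (.cut .s 11165696 (.cut .d 8101198 (.cut .v 7340032 (.pos 93 .pm ⟨0, 115681954, 0, 0, 0, 0, 0, 0, 0, ⟨0, 0⟩, 0⟩ 0 0) (.cut .s 11137024 (.pos 94 .pm ⟨0, 118242981, 0, 0, 0, 0, 0, 0, 0, ⟨0, 0⟩, 0⟩ 0 0) (.pos 94 .pm ⟨0, 122668980, 0, 0, 0, 0, 0, 0, 0, ⟨0, 0⟩, 0⟩ 0 0))) (.pos 80 .pm ⟨0, 273563306, 0, 0, 0, 0, 0, 0, 0, ⟨0, 0⟩, 0⟩ 0 0)) (.pos 80 .pm ⟨0, 261143561, 0, 0, 0, 0, 0, 0, 0, ⟨0, 0⟩, 0⟩ 0 0)) (.void 80 ⟨0, 100000, 0, 0, 0, 0, 0, 0, 0, ⟨0, 0⟩, 0⟩ 0 0)) (.void 80 ⟨0, 100000, 0, 0, 0, 0, 0, 0, 0, ⟨0, 0⟩, 0⟩ 0 0)))) (.cut .v 6291456 (.pos 79 .pm ⟨0, 131456871, 0, 0, 0, 0, 0, 0, 0, ⟨0, 0⟩, 0⟩ 0 0) (.cut .v 7340032 (.pos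 93 .pm ⟨0, 150796091, 0, 0, 0, 0, 0, 0, 0, ⟨0, 0⟩, 0⟩ 0 0) (.pos 94 .pm ⟨0, 165762310, 0, 0, 0, 0, 0, 0, 0, ⟨0, 0⟩, 0⟩ 0 0)))))))) (.cut .d 4548041 (.pos 3 .pm ⟨0, 0, 0, 0, 0, 0, 0, 0, 0, ⟨0, 0⟩, 0⟩ 0 0) (.cut .d 6822062 (.pos 3 .pm ⟨0, 0, 0, 0, 0, 0, 0, 0, 0, ⟨0, 0⟩, 0⟩ 0 0) (.cut .v 12582912 (.cut .d 7959072 (.cut .s 11108352 (.pos 8 .pm ⟨0, 6314777, 0, 0, 0, 0, 0, 0, 0, ⟨0, 0⟩, 0⟩ 0 0) (.cut .s 11223040 (.pos 8 .pm ⟨0, 113016266, 0, 0, 0, 0, 0, 0, 0, ⟨0, 0⟩, 0⟩ 0 0) (.pos 8 .pm ⟨0, 127927023, 0, 0, 0, 0, 0, 0, 0, ⟨0, 0⟩, 0⟩ 0 0))) (.cut .s 11108352 (.cut .d 8527577 (.cut .s 10993664 (.cut .s 10936320 (.pos 8 .pm ⟨0, 108892858, 0, 0, 0, 0, 0, 0, 0, ⟨0, 0⟩,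 0⟩ 0 0) (.pos 8 .pm ⟨0, 116288757, 0, 0, 0, 0, 0, 0, 0, ⟨0, 0⟩, 0⟩ 0 0)) (.pos 8 .pm ⟨0, 128953264, 0, 0, 0, 0, 0, 0, 0, ⟨0, 0⟩, 0⟩ 0 0)) (.void 8 ⟨0, 100000, 0, 0, 0, 0, 0, 0, 0, ⟨0, 0⟩, 0⟩ 0 0)) (.pos 8 .pm ⟨0, 183619994, 0, 0, 0, 0, 0, 0, 0, ⟨0, 0⟩, 0⟩ 0 0))) (.pos 9 .pm ⟨0, 179558256, 0, 0, 0, 0, 0, 0, 0, ⟨0, 0⟩, 0⟩ 0 0))))) (.cut .v 268435456 (.cut .d 4548041 (.cut .v 67108864 (.cut .d 2274020 (.cut .v 33554432 (.cut .d 1137010 (.cut .v 25165824 (.cut .v 20971520 (.pos 33 .pp ⟨121239126, 0, 0, 0, 0, 0, 0, 0, 0, ⟨0, 0⟩, 0⟩ 0 0) (.pos 34 .pp ⟨240644282, 0, 0, 0, 0, 0, 0, 0, 0, ⟨0, 0⟩, 0⟩ 0 0)) (.pos 32 .pp ⟨385564931, 0, 0, 0, 0, 0, 0, 0, 0, ⟨0, 0⟩, 0⟩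 0 0)) (.pos 30 .pp ⟨0, 0, 0, 0, 0, 0, 0, 0, 0, ⟨0, 0⟩, 0⟩ 0 0)) (.cut .d 1137010 (.cut .v 50331648 (.pos 64 .pp ⟨894640964, 0, 0, 0, 0, 0, 0, 0, 0, ⟨0, 0⟩, 0⟩ 0 0) (.void 65 ⟨100000, 0, 0, 0, 0, 0, 0, 0, 0, ⟨0, 0⟩, 0⟩ 0 0)) (.cut .v 50331648 (.pos 64 .pp ⟨370157188, 0, 0, 0, 0, 0, 0, 0, 0, ⟨0, 0⟩, 0⟩ 0 0) (.pos 65 .pp ⟨975629020, 0, 0, 0, 0, 0, 0, 0, 0, ⟨0, 0⟩, 0⟩ 0 0)))) (.pos 62 .pp ⟨0, 0, 0, 0, 0, 0, 0, 0, 0, ⟨0, 0⟩, 0⟩ 0 0)) (.cut .v 134217728 (.cut .d 2274020 (.cut .v 100663296 (.cut .d 1137010 (.void 77 ⟨100000, 0, 0, 0, 0, 0, 0, 0, 0, ⟨0, 0⟩, 0⟩ 0 0) (.cut .v 83886080 (.pos 81 .pp ⟨1905647232, 0, 0, 0, 0, 0, 0, 0, 0, ⟨0, 0⟩, 0⟩ 0 0) (.cut .d 1705515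 (.void 82 ⟨100000, 0, 0, 0, 0, 0, 0, 0, 0, ⟨0, 0⟩, 0⟩ 0 0) (.pos 82 .pp ⟨2537968882, 129965750, 0, 0, 0, 0, 0, 0, 0, ⟨0, 0⟩, 0⟩ 0 0)))) (.void 78 ⟨40931, 59069, 0, 0, 0, 0, 0, 0, 0, ⟨0, 0⟩, 0⟩ 0 0)) (.pos 75 .pp ⟨0, 584037372, 0, 0, 0, 0, 0, 0, 0, ⟨0, 0⟩, 0⟩ 0 0)) (.void 76 ⟨39452, 60548, 0, 0, 0, 0, 0, 0, 0, ⟨0, 0⟩, 0⟩ 0 0))) (.pos 73 .pp ⟨0, 147154509, 0, 0, 0, 0, 0, 0, 0, ⟨0, 0⟩, 0⟩ 0 0)) (.void 103 ⟨0, 0, 0, 100000, 0, 0, 0, 0, 0, ⟨0, 0⟩, 0⟩ 0 0)))),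
    by decide +kernel⟩

def covers16 : cell.Covers table row16.1 :=
  ⟨(.cut .d 0 (.cut .v 16777216 (.cut .d (-8388608) (.void 1 ⟨0, 0, 0, 0, 0, 100000, 0, 0, 0, ⟨0, 0⟩, 0⟩ 0 0) (.cut .d (-4194304) (.void 1 ⟨0, 0, 0, 0, 0, 100000, 0, 0, 0, ⟨0, 0⟩, 0⟩ 0 0) (.cut .d (-2097152) (.void 1 ⟨0, 0, 0, 0, 0, 100000, 0, 0, 0, ⟨0, 0⟩, 0⟩ 0 0) (.cut .d (-1048576) (.void 1 ⟨0, 0, 0, 0, 0, 100000, 0, 0, 0, ⟨0, 0⟩, 0⟩ 0 0) (.cut .d (-524288) (.void 1 ⟨0, 0, 0, 0, 0, 100000, 0, 0, 0, ⟨0, 0⟩, 0⟩ 0 0) (.cut .d (-262144) (.void 1 ⟨0, 0, 0, 0, 0, 100000, 0, 0, 0, ⟨0, 0⟩, 0⟩ 0 0) (.cut .d (-131072) (.void 1 ⟨0, 0, 0, 0, 0, 100000, 0, 0, 0, ⟨0, 0⟩, 0⟩ 0 0) (.cut .v 8388608 (.cut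 .v 4194304 (.void 4 ⟨0, 0, 100000, 0, 0, 0, 0, 0, 0, ⟨0, 0⟩, 0⟩ 0 0) (.pos 5 .mm ⟨0, 0, 420220, 0, 0, 170248333, 0, 0, 0, ⟨0, 0⟩, 0⟩ 0 0)) (.cut .d (-65536) (.pos 3 .mm ⟨0, 0, 0, 0, 0, 404998372, 0, 0, 0, ⟨0, 0⟩, 0⟩ 0 0) (.cut .l 796917 (.cut .v 12582912 (.pos 8 .mm ⟨0, 0, 0, 0, 0, 250694487, 0, 0, 0, ⟨0, 0⟩, 0⟩ 0 0) (.cut .v 14680064 (.pos 12 .mm ⟨0, 0, 0, 0, 0, 308169860, 0, 0, 0, ⟨0, 0⟩, 0⟩ 0 0) (.cut .v 15728640 (.pos 16 .mm ⟨0, 0, 0, 0, 0, 339385729, 0, 0, 0, ⟨0, 0⟩, 0⟩ 0 0) (.cut .v 16252928 (.pos 20 .mm ⟨0, 0, 0, 0, 0, 356193031, 0, 0, 0, ⟨0, 0⟩, 0⟩ 0 0) (.cut .v 16515072 (.pos 24 .mm ⟨0, 0, 0, 0, 0, 364899145, 0, 0, 0, ⟨0, 0⟩, 0⟩ 0 0) (.cut .v 16646144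 (.pos 28 .mm ⟨0, 0, 0, 0, 0, 369328122, 0, 0, 0, ⟨0, 0⟩, 0⟩ 0 0) (.cut .s 11534336 (.cut .s 11436032 (.pos 29 .mm ⟨0, 0, 0, 0, 0, 340959105, 0, 0, 0, ⟨0, 0⟩, 0⟩ 0 0) (.pos 29 .mm ⟨0, 0, 0, 0, 0, 359452723, 0, 0, 0, ⟨0, 0⟩, 0⟩ 0 0)) (.cut .s 11632640 (.pos 29 .mm ⟨0, 0, 0, 0, 0, 378858108, 0, 0, 0, ⟨0, 0⟩, 0⟩ 0 0) (.pos 29 .mm ⟨0, 0, 0, 0, 0, 399152552, 0, 0, 0, ⟨0, 0⟩, 0⟩ 0 0))))))))) (.pos 3 .mm ⟨0, 0, 0, 0, 0, 346588172, 0, 0, 0, ⟨0, 0⟩, 0⟩ 0 0))))))))))) (.cut .v 268435456 (.cut .v 67108864 (.cut .v 33554432 (.cut .d (-8388608) (.void 30 ⟨100000, 0, 0, 0, 0, 0, 0, 0, 0, ⟨0, 0⟩, 0⟩ 0 0) (.cut .v 25165824 (.cut .d (-4194304) (.void 31 ⟨100000, 0, 0, 0, 0,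 0, 0, 0, 0, ⟨0, 0⟩, 0⟩ 0 0) (.cut .v 20971520 (.cut .d (-2097152) (.void 33 ⟨100000, 0, 0, 0, 0, 0, 0, 0, 0, ⟨0, 0⟩, 0⟩ 0 0) (.cut .d (-1048576) (.void 33 ⟨100000, 0, 0, 0, 0, 0, 0, 0, 0, ⟨0, 0⟩, 0⟩ 0 0) (.cut .d (-524288) (.void 33 ⟨100000, 0, 0, 0, 0, 0, 0, 0, 0, ⟨0, 0⟩, 0⟩ 0 0) (.cut .d (-262144) (.void 33 ⟨100000, 0, 0, 0, 0, 0, 0, 0, 0, ⟨0, 0⟩, 0⟩ 0 0) (.cut .d (-131072) (.void 33 ⟨0, 0, 0, 0, 0, 100000, 0, 0, 0, ⟨0, 0⟩, 0⟩ 0 0) (.cut .v 18874368 (.cut .v 17825792 (.cut .v 17301504 (.cut .d (-65536) (.cut .v 17039360 (.cut .d (-98304) (.void 41 ⟨0, 0, 0, 0, 0, 100000, 0, 0, 0, ⟨0, 0⟩, 0⟩ 0 0) (.cut .l 796917 (.void 41 ⟨0, 0, 0, 0, 0, 100000, 0, 0, 0,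 ⟨0, 0⟩, 0⟩ 0 0) (.cut .s 11534336 (.cut .l 1080033 (.pos 41 .mp ⟨85894884, 0, 0, 0, 0, 257862804, 0, 0, 0, ⟨0, 0⟩, 0⟩ 0 0) (.cut .s 11436032 (.pos 41 .mp ⟨80372463, 0, 0, 0, 0, 242743597, 0, 0, 0, ⟨0, 0⟩, 0⟩ 0 0) (.cut .d (-81920) (.pos 41 .mp ⟨88515326, 0, 0, 0, 0, 253644637, 0, 0, 0, ⟨0, 0⟩, 0⟩ 0 0) (.cut .s 11485184 (.pos 41 .mp ⟨94811095, 0, 0, 0, 0, 222311066, 0, 0, 0, ⟨0, 0⟩, 0⟩ 0 0) (.pos 41 .mp ⟨96939309, 0, 0, 0, 0, 227498299, 0, 0, 0, ⟨0, 0⟩, 0⟩ 0 0))))) (.cut .s 11632640 (.cut .v 16908288 (.pos 43 .mp ⟨0, 0, 0, 0, 0, 395505498, 0, 0, 0, ⟨0, 0⟩, 0⟩ 0 0) (.cut .l 1080033 (.pos 44 .mp ⟨101625951, 0, 0, 0, 0, 251152154, 0, 0, 0, ⟨0, 0⟩, 0⟩ 0 0) (.cut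 .v 16973824 (.cut .d (-81920) (.pos 70 .mp ⟨93306708, 0, 0, 0, 0, 260780508, 0, 0, 0, ⟨0, 0⟩, 0⟩ 0 0) (.cut .s 11583488 (.pos 70 .mp ⟨99842599, 0, 0, 0, 0, 236108913, 0, 0, 0, ⟨0, 0⟩, 0⟩ 0 0) (.pos 70 .mp ⟨102022894, 0, 0, 0, 0, 242057589, 0, 0, 0, ⟨0, 0⟩, 0⟩ 0 0))) (.pos 71 .mp ⟨276769046, 0, 0, 0, 0, 0, 0, 0, 0, ⟨0, 0⟩, 0⟩ 0 0)))) (.cut .d (-81920) (.pos 41 .mp ⟨96681936, 0, 0, 0, 0, 278551520, 0, 0, 0, ⟨0, 0⟩, 0⟩ 0 0) (.cut .s 11681792 (.cut .s 11657216 (.pos 41 .mp ⟨91543755, 0, 0, 0, 0, 270723523, 0, 0, 0, ⟨0, 0⟩, 0⟩ 0 0) (.pos 41 .mp ⟨92481278, 0, 0, 0, 0, 274531940, 0, 0, 0, ⟨0, 0⟩, 0⟩ 0 0)) (.pos 41 .mp ⟨93419978, 0, 0, 0, 0, 281435659, 0, 0, 0, ⟨0,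 0⟩, 0⟩ 0 0))))))) (.pos 42 .mp ⟨286178812, 0, 0, 0, 0, 0, 0, 0, 0, ⟨0, 0⟩, 0⟩ 0 0)) (.cut .v 17039360 (.cut .s 11534336 (.cut .s 11436032 (.cut .l 796917 (.cut .v 16908288 (.cut .d (-32768) (.pos 43 .mp ⟨78922567, 0, 0, 0, 0, 241222344, 0, 0, 0, ⟨0, 0⟩, 0⟩ 0 0) (.cut .s 11386880 (.pos 43 .mp ⟨88783018, 0, 0, 0, 0, 210404654, 0, 0, 0, ⟨0, 0⟩, 0⟩ 0 0) (.cut .s 11411456 (.pos 43 .mp ⟨89694215, 0, 0, 0, 0, 215010190, 0, 0, 0, ⟨0, 0⟩, 0⟩ 0 0) (.pos 43 .mp ⟨90608350, 0, 0, 0, 0, 218004643, 0, 0, 0, ⟨0, 0⟩, 0⟩ 0 0)))) (.pos 44 .mp ⟨248308521, 0, 0, 0, 0, 0, 0, 0, 0, ⟨0, 0⟩, 0⟩ 0 0)) (.pos 41 .mp ⟨92446478, 0, 0, 0, 0, 206538415, 0, 0, 0, ⟨0, 0⟩, 0⟩ 0 0)) (.cut .s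 11485184 (.cut .l 796917 (.cut .v 16908288 (.cut .d (-32768) (.pos 43 .mp ⟨82249094, 0, 0, 0, 0, 246379193, 0, 0, 0, ⟨0, 0⟩, 0⟩ 0 0) (.cut .s 11460608 (.pos 43 .mp ⟨91525479, 0, 0, 0, 0, 221047465, 0, 0, 0, ⟨0, 0⟩, 0⟩ 0 0) (.pos 43 .mp ⟨92445657, 0, 0, 0, 0, 224138184, 0, 0, 0, ⟨0, 0⟩, 0⟩ 0 0))) (.pos 44 .mp ⟨257565305, 0, 0, 0, 0, 0, 0, 0, 0, ⟨0, 0⟩, 0⟩ 0 0)) (.pos 41 .mp ⟨94478969, 0, 0, 0, 0, 218134249, 0, 0, 0, ⟨0, 0⟩, 0⟩ 0 0)) (.cut .v 16908288 (.cut .l 796917 (.cut .d (-32768) (.pos 43 .mp ⟨83914396, 0, 0, 0, 0, 252806155, 0, 0, 0, ⟨0, 0⟩, 0⟩ 0 0) (.cut .d (-16384) (.cut .s 11509760 (.pos 43 .mp ⟨93368941, 0, 0, 0, 0, 229542881, 0, 0, 0, ⟨0, 0⟩, 0⟩ 0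 0) (.pos 43 .mp ⟨94295390, 0, 0, 0, 0, 232557849, 0, 0, 0, ⟨0, 0⟩, 0⟩ 0 0)) (.pos 43 .mp ⟨89553981, 0, 0, 0, 0, 230314425, 0, 0, 0, ⟨0, 0⟩, 0⟩ 0 0))) (.pos 43 .mp ⟨74828817, 0, 0, 0, 0, 257827602, 0, 0, 0, ⟨0, 0⟩, 0⟩ 0 0)) (.pos 44 .mp ⟨135689498, 0, 0, 0, 0, 172259437, 0, 0, 0, ⟨0, 0⟩, 0⟩ 0 0)))) (.cut .s 11632640 (.cut .s 11583488 (.cut .v 16908288 (.cut .d (-32768) (.cut .l 796917 (.cut .s 11558912 (.pos 43 .mp ⟨85581315, 0, 0, 0, 0, 256052534, 0, 0, 0, ⟨0, 0⟩, 0⟩ 0 0) (.pos 43 .mp ⟨86415443, 0, 0, 0, 0, 259565793, 0, 0, 0, ⟨0, 0⟩, 0⟩ 0 0)) (.pos 43 .mp ⟨76945300, 0, 0, 0, 0, 267380682, 0, 0, 0, ⟨0, 0⟩, 0⟩ 0 0)) (.cut .d (-16384) (.cut .s 11558912 (.pos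 43 .mp ⟨95225062, 0, 0, 0, 0, 235443883, 0, 0, 0, ⟨0, 0⟩, 0⟩ 0 0) (.pos 43 .mp ⟨96158017, 0, 0, 0, 0, 238655881, 0, 0, 0, ⟨0, 0⟩, 0⟩ 0 0)) (.pos 43 .mp ⟨91239003, 0, 0, 0, 0, 236779232, 0, 0, 0, ⟨0, 0⟩, 0⟩ 0 0))) (.cut .s 11558912 (.pos 44 .mp ⟨119759675, 0, 0, 0, 0, 202978554, 0, 0, 0, ⟨0, 0⟩, 0⟩ 0 0) (.pos 44 .mp ⟨120374874, 0, 0, 0, 0, 206694383, 0, 0, 0, ⟨0, 0⟩, 0⟩ 0 0))) (.cut .v 16908288 (.cut .d (-32768) (.cut .l 796917 (.cut .s 11608064 (.pos 43 .mp ⟨87250052, 0, 0, 0, 0, 263178018, 0, 0, 0, ⟨0, 0⟩, 0⟩ 0 0) (.pos 43 .mp ⟨88085167, 0, 0, 0, 0, 266889689, 0, 0, 0, ⟨0, 0⟩, 0⟩ 0 0)) (.pos 43 .mp ⟨78421883, 0, 0, 0, 0, 274652761, 0, 0, 0, ⟨0, 0⟩, 0⟩ 0 0))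 (.cut .d (-16384) (.cut .s 11608064 (.pos 43 .mp ⟨97094317, 0, 0, 0, 0, 241986169, 0, 0, 0, ⟨0, 0⟩, 0⟩ 0 0) (.pos 43 .mp ⟨98034025, 0, 0, 0, 0, 245436115, 0, 0, 0, ⟨0, 0⟩, 0⟩ 0 0)) (.pos 43 .mp ⟨92930877, 0, 0, 0, 0, 243437549, 0, 0, 0, ⟨0, 0⟩, 0⟩ 0 0))) (.cut .s 11608064 (.pos 44 .mp ⟨121434333, 0, 0, 0, 0, 209851266, 0, 0, 0, ⟨0, 0⟩, 0⟩ 0 0) (.pos 44 .mp ⟨122952379, 0, 0, 0, 0, 212425157, 0, 0, 0, ⟨0, 0⟩, 0⟩ 0 0)))) (.cut .s 11681792 (.cut .v 16908288 (.cut .l 796917 (.cut .d (-32768) (.pos 43 .mp ⟨88920815, 0, 0, 0, 0, 274438881, 0, 0, 0, ⟨0, 0⟩, 0⟩ 0 0) (.cut .d (-16384) (.cut .s 11657216 (.pos 43 .mp ⟨98977203, 0, 0, 0, 0, 249230096, 0, 0, 0, ⟨0, 0⟩,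 0⟩ 0 0) (.pos 43 .mp ⟨99923916, 0, 0, 0, 0, 252890333, 0, 0, 0, ⟨0, 0⟩, 0⟩ 0 0)) (.pos 43 .mp ⟨94629934, 0, 0, 0, 0, 250286032, 0, 0, 0, ⟨0, 0⟩, 0⟩ 0 0))) (.pos 43 .mp ⟨78776216, 0, 0, 0, 0, 280332996, 0, 0, 0, ⟨0, 0⟩, 0⟩ 0 0)) (.cut .s 11657216 (.pos 44 .mp ⟨124943577, 0, 0, 0, 0, 214391517, 0, 0, 0, ⟨0, 0⟩, 0⟩ 0 0) (.pos 44 .mp ⟨127422736, 0, 0, 0, 0, 215725302, 0, 0, 0, ⟨0, 0⟩, 0⟩ 0 0))) (.cut .l 796917 (.cut .v 16908288 (.cut .d (-32768) (.pos 43 .mp ⟨90593818, 0, 0, 0, 0, 282446470, 0, 0, 0, ⟨0, 0⟩, 0⟩ 0 0) (.cut .s 11706368 (.pos 43 .mp ⟨100874231, 0, 0, 0, 0, 254032574, 0, 0, 0, ⟨0, 0⟩, 0⟩ 0 0) (.pos 43 .mp ⟨101828214, 0, 0, 0, 0, 257576491, 0, 0, 0,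 ⟨0, 0⟩, 0⟩ 0 0))) (.pos 44 .mp ⟨287188900, 0, 0, 0, 0, 0, 0, 0, 0, ⟨0, 0⟩, 0⟩ 0 0)) (.pos 41 .mp ⟨104870611, 0, 0, 0, 0, 249234904, 0, 0, 0, ⟨0, 0⟩, 0⟩ 0 0))))) (.pos 42 .mp ⟨256700925, 0, 0, 0, 0, 0, 0, 0, 0, ⟨0, 0⟩, 0⟩ 0 0))) (.pos 40 .mp ⟨277879042, 0, 0, 0, 0, 0, 0, 0, 0, ⟨0, 0⟩, 0⟩ 0 0)) (.pos 38 .mp ⟨296890446, 0, 0, 0, 0, 0, 0, 0, 0, ⟨0, 0⟩, 0⟩ 0 0)) (.void 36 ⟨100000, 0, 0, 0, 0, 0, 0, 0, 0, ⟨0, 0⟩, 0⟩ 0 0))))))) (.void 34 ⟨100000, 0, 0, 0, 0, 0, 0, 0, 0, ⟨0, 0⟩, 0⟩ 0 0))) (.void 32 ⟨100000, 0, 0, 0, 0, 0, 0, 0, 0, ⟨0, 0⟩, 0⟩ 0 0))) (.void 63 ⟨100000, 0, 0, 0, 0, 0, 0, 0, 0, ⟨0, 0⟩, 0⟩ 0 0)) (.void 74 ⟨100000, 0, 0, 0, 0, 0, 0, 0, 0, ⟨0, 0⟩, 0⟩ 0 0))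 (.void 103 ⟨96060, 0, 0, 3940, 0, 0, 0, 0, 0, ⟨0, 0⟩, 0⟩ 0 0))) (.cut .v 16777216 (.cut .v 8388608 (.cut .v 4194304 (.cut .v 2097152 (.cut .v 1048576 (.pos 106 .pm ⟨0, 0, 25243904, 0, 0, 0, 0, 0, 48357759, ⟨0, 0⟩, 1983364⟩ 0 0) (.pos 107 .pm ⟨0, 0, 137628, 0, 0, 0, 0, 0, 0, ⟨0, 0⟩, 0⟩ 0 0)) (.cut .d 4024593 (.pos 7 .pm ⟨0, 0, 31481690, 0, 0, 0, 0, 0, 0, ⟨0, 0⟩, 0⟩ 0 0) (.cut .d 6036890 (.pos 7 .pm ⟨0, 0, 0, 0, 0, 0, 0, 0, 0, ⟨0, 0⟩, 0⟩ 0 0) (.pos 7 .pm ⟨0, 77008950, 0, 0, 0, 0, 0, 0, 0, ⟨0, 0⟩, 0⟩ 0 0)))) (.cut .d 4024593 (.pos 5 .pm ⟨0, 0, 0, 0, 0, 0, 0, 0, 0, ⟨0, 0⟩, 0⟩ 0 0) (.cut .d 6036890 (.pos 5 .pm ⟨0, 0, 0, 0, 0, 0, 0, 0, 0, ⟨0, 0⟩, 0⟩ 0 0) (.cut .d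 7043038 (.cut .s 11534336 (.pos 5 .pm ⟨0, 0, 0, 0, 0, 0, 0, 0, 0, ⟨0, 0⟩, 0⟩ 0 0) (.cut .d 6539964 (.pos 5 .pm ⟨0, 0, 0, 0, 0, 0, 0, 0, 0, ⟨0, 0⟩, 0⟩ 0 0) (.cut .v 6291456 (.cut .s 11632640 (.pos 79 .pm ⟨0, 103050142, 0, 0, 0, 0, 0, 0, 0, ⟨0, 0⟩, 0⟩ 0 0) (.cut .d 6791501 (.pos 79 .pm ⟨0, 0, 0, 0, 0, 0, 0, 0, 0, ⟨0, 0⟩, 0⟩ 0 0) (.pos 79 .pm ⟨0, 124745049, 0, 0, 0, 0, 0, 0, 0, ⟨0, 0⟩, 0⟩ 0 0))) (.cut .v 7340032 (.cut .s 11632640 (.pos 93 .pm ⟨0, 112423212, 0, 0, 0, 0, 0, 0, 0, ⟨0, 0⟩, 0⟩ 0 0) (.cut .d 6791501 (.pos 93 .pm ⟨0, 0, 0, 0, 0, 0, 0, 0, 0, ⟨0, 0⟩, 0⟩ 0 0) (.pos 93 .pm ⟨0, 133040305, 0, 0, 0, 0, 0, 0, 0, ⟨0, 0⟩, 0⟩ 0 0))) (.pos 94 .pm ⟨0, 132442479,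 0, 0, 0, 0, 0, 0, 0, ⟨0, 0⟩, 0⟩ 0 0))))) (.cut .d 7546112 (.cut .v 6291456 (.cut .v 5242880 (.pos 114 .pm ⟨0, 107725575, 0, 0, 0, 0, 0, 0, 0, ⟨0, 0⟩, 0⟩ 0 0) (.cut .s 11534336 (.cut .s 11436032 (.pos 115 .pm ⟨0, 103697581, 0, 0, 0, 0, 0, 0, 0, ⟨0, 0⟩, 0⟩ 0 0) (.pos 115 .pm ⟨0, 117001163, 0, 0, 0, 0, 0, 0, 0, ⟨0, 0⟩, 0⟩ 0 0)) (.cut .s 11632640 (.pos 115 .pm ⟨0, 131141627, 0, 0, 0, 0, 0, 0, 0, ⟨0, 0⟩, 0⟩ 0 0) (.pos 115 .pm ⟨0, 178585783, 0, 0, 0, 0, 0, 0, 0, ⟨0, 0⟩, 0⟩ 0 0)))) (.cut .s 11534336 (.cut .d 7294575 (.cut .v 7340032 (.cut .s 11436032 (.pos 93 .pm ⟨0, 0, 0, 0, 0, 0, 0, 0, 0, ⟨0, 0⟩, 0⟩ 0 0) (.pos 93 .pm ⟨0, 118226373, 0, 0, 0, 0, 0, 0, 0, ⟨0, 0⟩,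 0⟩ 0 0)) (.pos 94 .pm ⟨0, 119368529, 0, 0, 0, 0, 0, 0, 0, ⟨0, 0⟩, 0⟩ 0 0)) (.cut .l 796917 (.cut .s 11436032 (.cut .v 7340032 (.cut .s 11386880 (.pos 93 .pm ⟨0, 114029166, 0, 0, 0, 0, 0, 0, 0, ⟨0, 0⟩, 0⟩ 0 0) (.pos 93 .pm ⟨0, 121628370, 0, 0, 0, 0, 0, 0, 0, ⟨0, 0⟩, 0⟩ 0 0)) (.pos 94 .pm ⟨0, 125314828, 0, 0, 0, 0, 0, 0, 0, ⟨0, 0⟩, 0⟩ 0 0)) (.cut .v 7340032 (.cut .v 6815744 (.pos 116 .pm ⟨0, 131896760, 0, 0, 0, 0, 0, 0, 0, ⟨0, 0⟩, 0⟩ 0 0) (.pos 117 .pm ⟨0, 136498956, 0, 0, 0, 0, 0, 0, 0, ⟨0, 0⟩, 0⟩ 0 0)) (.pos 94 .pm ⟨0, 142336882, 0, 0, 0, 0, 0, 0, 0, ⟨0, 0⟩, 0⟩ 0 0))) (.pos 80 .pm ⟨0, 127636863, 0, 0, 0, 0, 0, 0, 0, ⟨0, 0⟩, 0⟩ 0 0))) (.cut .d 7294575 (.cut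 .s 11632640 (.cut .v 7340032 (.cut .d 7168806 (.pos 93 .pm ⟨0, 129736574, 0, 0, 0, 0, 0, 0, 0, ⟨0, 0⟩, 0⟩ 0 0) (.pos 93 .pm ⟨0, 139109531, 0, 0, 0, 0, 0, 0, 0, ⟨0, 0⟩, 0⟩ 0 0)) (.pos 94 .pm ⟨0, 144898432, 0, 0, 0, 0, 0, 0, 0, ⟨0, 0⟩, 0⟩ 0 0)) (.void 80 ⟨0, 100000, 0, 0, 0, 0, 0, 0, 0, ⟨0, 0⟩, 0⟩ 0 0)) (.void 80 ⟨0, 100000, 0, 0, 0, 0, 0, 0, 0, ⟨0, 0⟩, 0⟩ 0 0)))) (.cut .v 6291456 (.pos 79 .pm ⟨0, 153086329, 0, 0, 0, 0, 0, 0, 0, ⟨0, 0⟩, 0⟩ 0 0) (.cut .v 7340032 (.cut .s 11534336 (.cut .s 11436032 (.cut .v 6815744 (.pos 116 .pm ⟨0, 132924998, 0, 0, 0, 0, 0, 0, 0, ⟨0, 0⟩, 0⟩ 0 0) (.pos 117 .pm ⟨0, 140855948, 0, 0, 0, 0, 0, 0, 0, ⟨0, 0⟩, 0⟩ 0 0)) (.void 93 ⟨0,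 100000, 0, 0, 0, 0, 0, 0, 0, ⟨0, 0⟩, 0⟩ 0 0)) (.void 93 ⟨0, 0, 0, 100000, 0, 0, 0, 0, 0, ⟨0, 0⟩, 0⟩ 0 0)) (.pos 94 .pm ⟨0, 186637059, 0, 0, 0, 0, 0, 0, 0, ⟨0, 0⟩, 0⟩ 0 0)))))))) (.cut .d 4024593 (.pos 3 .pm ⟨0, 0, 0, 0, 0, 0, 0, 0, 0, ⟨0, 0⟩, 0⟩ 0 0) (.cut .d 6036890 (.pos 3 .pm ⟨0, 0, 0, 0, 0, 0, 0, 0, 0, ⟨0, 0⟩, 0⟩ 0 0) (.cut .d 7043038 (.pos 3 .pm ⟨0, 119165016, 0, 0, 0, 0, 0, 0, 0, ⟨0, 0⟩, 0⟩ 0 0) (.cut .d 7546112 (.cut .s 11534336 (.pos 3 .pm ⟨0, 143054377, 0, 0, 0, 0, 0, 0, 0, ⟨0, 0⟩, 0⟩ 0 0) (.pos 3 .pm ⟨0, 180592521, 0, 0, 0, 0, 0, 0, 0, ⟨0, 0⟩, 0⟩ 0 0)) (.void 3 ⟨0, 100000, 0, 0, 0, 0, 0, 0, 0, ⟨0, 0⟩, 0⟩ 0 0)))))) (.cut .v 268435456 (.cut .d 4024593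 (.cut .v 67108864 (.cut .d 2012296 (.cut .v 33554432 (.cut .d 1006148 (.cut .v 25165824 (.cut .v 20971520 (.pos 33 .pp ⟨143208980, 0, 0, 0, 0, 0, 0, 0, 0, ⟨0, 0⟩, 0⟩ 0 0) (.pos 34 .pp ⟨294482351, 0, 0, 0, 0, 0, 0, 0, 0, ⟨0, 0⟩, 0⟩ 0 0)) (.pos 32 .pp ⟨464489723, 0, 0, 0, 0, 0, 0, 0, 0, ⟨0, 0⟩, 0⟩ 0 0)) (.pos 30 .pp ⟨0, 0, 0, 0, 0, 0, 0, 0, 0, ⟨0, 0⟩, 0⟩ 0 0)) (.cut .d 1006148 (.cut .v 50331648 (.pos 64 .pp ⟨1059110593, 0, 0, 0, 0, 0, 0, 0, 0, ⟨0, 0⟩, 0⟩ 0 0) (.void 65 ⟨100000, 0, 0, 0, 0, 0, 0, 0, 0, ⟨0, 0⟩, 0⟩ 0 0)) (.cut .v 50331648 (.pos 64 .pp ⟨461345207, 0, 0, 0, 0, 0, 0, 0, 0, ⟨0, 0⟩, 0⟩ 0 0) (.pos 65 .pp ⟨1181637058, 0, 0, 0, 0, 0, 0, 0, 0, ⟨0, 0⟩, 0⟩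 0 0)))) (.pos 62 .pp ⟨0, 0, 0, 0, 0, 0, 0, 0, 0, ⟨0, 0⟩, 0⟩ 0 0)) (.cut .v 134217728 (.cut .d 2012296 (.cut .v 100663296 (.cut .d 1006148 (.void 77 ⟨100000, 0, 0, 0, 0, 0, 0, 0, 0, ⟨0, 0⟩, 0⟩ 0 0) (.cut .v 83886080 (.pos 81 .pp ⟨2263032520, 0, 0, 0, 0, 0, 0, 0, 0, ⟨0, 0⟩, 0⟩ 0 0) (.cut .d 1509222 (.void 82 ⟨100000, 0, 0, 0, 0, 0, 0, 0, 0, ⟨0, 0⟩, 0⟩ 0 0) (.pos 82 .pp ⟨3158321419, 0, 0, 0, 0, 0, 0, 0, 0, ⟨0, 0⟩, 0⟩ 0 0)))) (.void 78 ⟨40285, 59715, 0, 0, 0, 0, 0, 0, 0, ⟨0, 0⟩, 0⟩ 0 0)) (.pos 75 .pp ⟨0, 750970946, 0, 0, 0, 0, 0, 0, 0, ⟨0, 0⟩, 0⟩ 0 0)) (.void 76 ⟨38969, 61031, 0, 0, 0, 0, 0, 0, 0, ⟨0, 0⟩, 0⟩ 0 0))) (.pos 73 .pp ⟨0, 170210740, 0, 0, 0, 0, 0, 0,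 0, ⟨0, 0⟩, 0⟩ 0 0)) (.void 103 ⟨0, 0, 0, 100000, 0, 0, 0, 0, 0, ⟨0, 0⟩, 0⟩ 0 0)))),
    by decide +kernel⟩

def covers17 : cell.Covers table row17.1 :=
  ⟨(.cut .d 0 (.cut .v 16777216 (.cut .d (-8388608) (.void 1 ⟨0, 0, 0, 0, 0, 100000, 0, 0, 0, ⟨0, 0⟩, 0⟩ 0 0) (.cut .d (-4194304) (.void 1 ⟨0, 0, 0, 0, 0, 100000, 0, 0, 0, ⟨0, 0⟩, 0⟩ 0 0) (.cut .d (-2097152) (.void 1 ⟨0, 0, 0, 0, 0, 100000, 0, 0, 0, ⟨0, 0⟩, 0⟩ 0 0) (.cut .d (-1048576) (.void 1 ⟨0, 0, 0, 0, 0, 100000, 0, 0, 0, ⟨0, 0⟩, 0⟩ 0 0) (.cut .d (-524288) (.void 1 ⟨0, 0, 0, 0, 0, 100000, 0, 0, 0, ⟨0, 0⟩, 0⟩ 0 0) (.cut .d (-262144) (.void 1 ⟨0, 0, 0, 0, 0, 100000, 0, 0, 0, ⟨0, 0⟩, 0⟩ 0 0) (.cut .d (-131072)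 (.void 1 ⟨0, 0, 0, 0, 0, 100000, 0, 0, 0, ⟨0, 0⟩, 0⟩ 0 0) (.cut .v 8388608 (.cut .v 4194304 (.void 4 ⟨0, 0, 100000, 0, 0, 0, 0, 0, 0, ⟨0, 0⟩, 0⟩ 0 0) (.pos 5 .mm ⟨0, 0, 2887512, 0, 0, 224919951, 0, 0, 0, ⟨0, 0⟩, 0⟩ 0 0)) (.cut .v 12582912 (.pos 8 .mm ⟨0, 0, 0, 0, 0, 342705711, 0, 0, 0, ⟨0, 0⟩, 0⟩ 0 0) (.cut .v 14680064 (.pos 12 .mm ⟨0, 0, 0, 0, 0, 414476210, 0, 0, 0, ⟨0, 0⟩, 0⟩ 0 0) (.cut .v 15728640 (.pos 16 .mm ⟨0, 0, 0, 0, 0, 451928881, 0, 0, 0, ⟨0, 0⟩, 0⟩ 0 0) (.cut .d (-65536) (.cut .s 11993088 (.pos 17 .mm ⟨0, 0, 0, 0, 0, 473392613, 0, 0, 0, ⟨0, 0⟩, 0⟩ 0 0) (.pos 17 .mm ⟨0, 0, 0, 0, 0, 542605980, 0, 0, 0, ⟨0, 0⟩, 0⟩ 0 0)) (.cut .v 16252928 (.pos 20 .mm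 ⟨0, 0, 0, 0, 0, 447672141, 0, 0, 0, ⟨0, 0⟩, 0⟩ 0 0) (.cut .s 11993088 (.cut .s 11862016 (.pos 21 .mm ⟨0, 0, 0, 0, 0, 427622800, 0, 0, 0, ⟨0, 0⟩, 0⟩ 0 0) (.cut .s 11927552 (.pos 21 .mm ⟨0, 0, 0, 0, 0, 445357006, 0, 0, 0, ⟨0, 0⟩, 0⟩ 0 0) (.pos 21 .mm ⟨0, 0, 0, 0, 0, 460975791, 0, 0, 0, ⟨0, 0⟩, 0⟩ 0 0))) (.cut .s 12124160 (.pos 21 .mm ⟨0, 0, 0, 0, 0, 489641777, 0, 0, 0, ⟨0, 0⟩, 0⟩ 0 0) (.pos 21 .mm ⟨0, 0, 0, 0, 0, 524519215, 0, 0, 0, ⟨0, 0⟩, 0⟩ 0 0)))))))))))))))) (.cut .v 268435456 (.cut .v 67108864 (.cut .v 33554432 (.cut .d (-8388608) (.void 30 ⟨100000, 0, 0, 0, 0, 0, 0, 0, 0, ⟨0, 0⟩, 0⟩ 0 0) (.cut .v 25165824 (.cut .d (-4194304) (.void 31 ⟨100000, 0, 0, 0,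 0, 0, 0, 0, 0, ⟨0, 0⟩, 0⟩ 0 0) (.cut .v 20971520 (.cut .d (-2097152) (.void 33 ⟨100000, 0, 0, 0, 0, 0, 0, 0, 0, ⟨0, 0⟩, 0⟩ 0 0) (.cut .d (-1048576) (.void 33 ⟨100000, 0, 0, 0, 0, 0, 0, 0, 0, ⟨0, 0⟩, 0⟩ 0 0) (.cut .d (-524288) (.void 33 ⟨100000, 0, 0, 0, 0, 0, 0, 0, 0, ⟨0, 0⟩, 0⟩ 0 0) (.cut .d (-262144) (.void 33 ⟨100000, 0, 0, 0, 0, 0, 0, 0, 0, ⟨0, 0⟩, 0⟩ 0 0) (.cut .d (-131072) (.void 33 ⟨100000, 0, 0, 0, 0, 0, 0, 0, 0, ⟨0, 0⟩, 0⟩ 0 0) (.cut .v 18874368 (.cut .v 17825792 (.cut .v 17301504 (.cut .d (-65536) (.cut .v 17039360 (.cut .l 796917 (.void 41 ⟨0, 0, 0, 0, 0, 100000, 0, 0, 0, ⟨0, 0⟩, 0⟩ 0 0) (.cut .d (-98304) (.void 41 ⟨0, 0, 0, 0, 0, 100000, 0, 0,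 0, ⟨0, 0⟩, 0⟩ 0 0) (.cut .d (-81920) (.pos 41 .mp ⟨100858352, 0, 0, 0, 0, 394049892, 0, 0, 0, ⟨0, 0⟩, 0⟩ 0 0) (.cut .l 1080033 (.pos 41 .mp ⟨100099585, 0, 0, 0, 0, 393981463, 0, 0, 0, ⟨0, 0⟩, 0⟩ 0 0) (.cut .s 11993088 (.cut .s 11862016 (.cut .s 11796480 (.pos 41 .mp ⟨95326843, 0, 0, 0, 0, 294391161, 0, 0, 0, ⟨0, 0⟩, 0⟩ 0 0) (.cut .v 16908288 (.pos 43 .mp ⟨0, 0, 0, 0, 0, 448789337, 0, 0, 0, ⟨0, 0⟩, 0⟩ 0 0) (.cut .s 11829248 (.pos 44 .mp ⟨111355413, 0, 0, 0, 0, 273838293, 0, 0, 0, ⟨0, 0⟩, 0⟩ 0 0) (.pos 44 .mp ⟨113200404, 0, 0, 0, 0, 277705513, 0, 0, 0, ⟨0, 0⟩, 0⟩ 0 0)))) (.cut .v 16908288 (.pos 43 .mp ⟨0, 0, 0, 0, 0, 468074178, 0, 0, 0, ⟨0, 0⟩, 0⟩ 0 0) (.cut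 .v 16973824 (.cut .s 11927552 (.cut .s 11894784 (.pos 70 .mp ⟨101553770, 0, 0, 0, 0, 304440855, 0, 0, 0, ⟨0, 0⟩, 0⟩ 0 0) (.pos 70 .mp ⟨102903631, 0, 0, 0, 0, 309673609, 0, 0, 0, ⟨0, 0⟩, 0⟩ 0 0)) (.cut .s 11960320 (.pos 70 .mp ⟨104249576, 0, 0, 0, 0, 315139836, 0, 0, 0, ⟨0, 0⟩, 0⟩ 0 0) (.pos 70 .mp ⟨105591601, 0, 0, 0, 0, 320841176, 0, 0, 0, ⟨0, 0⟩, 0⟩ 0 0))) (.pos 71 .mp ⟨317505293, 0, 0, 0, 0, 0, 0, 0, 0, ⟨0, 0⟩, 0⟩ 0 0)))) (.cut .s 12124160 (.cut .s 12058624 (.pos 41 .mp ⟨106034000, 0, 0, 0, 0, 334526592, 0, 0, 0, ⟨0, 0⟩, 0⟩ 0 0) (.pos 41 .mp ⟨108670687, 0, 0, 0, 0, 346868575, 0, 0, 0, ⟨0, 0⟩, 0⟩ 0 0)) (.pos 41 .mp ⟨111291224, 0, 0, 0, 0, 365999802, 0, 0,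 0, ⟨0, 0⟩, 0⟩ 0 0))))))) (.pos 42 .mp ⟨356956220, 0, 0, 0, 0, 0, 0, 0, 0, ⟨0, 0⟩, 0⟩ 0 0)) (.cut .s 11993088 (.cut .v 17039360 (.cut .s 11862016 (.cut .s 11796480 (.cut .v 16908288 (.cut .d (-32768) (.cut .l 796917 (.pos 43 .mp ⟨92290272, 0, 0, 0, 0, 294184771, 0, 0, 0, ⟨0, 0⟩, 0⟩ 0 0) (.pos 43 .mp ⟨82819559, 0, 0, 0, 0, 302041833, 0, 0, 0, ⟨0, 0⟩, 0⟩ 0 0)) (.cut .d (-16384) (.cut .s 11763712 (.pos 43 .mp ⟨103142697, 0, 0, 0, 0, 264504804, 0, 0, 0, ⟨0, 0⟩, 0⟩ 0 0) (.pos 43 .mp ⟨104439690, 0, 0, 0, 0, 268639088, 0, 0, 0, ⟨0, 0⟩, 0⟩ 0 0)) (.pos 43 .mp ⟨98672282, 0, 0, 0, 0, 266888490, 0, 0, 0, ⟨0, 0⟩, 0⟩ 0 0))) (.pos 44 .mp ⟨171362667, 0, 0, 0, 0, 169113415,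 0, 0, 0, ⟨0, 0⟩, 0⟩ 0 0)) (.cut .v 16908288 (.cut .d (-32768) (.cut .v 16842752 (.pos 66 .mp ⟨0, 0, 0, 0, 0, 447715385, 0, 0, 0, ⟨0, 0⟩, 0⟩ 0 0) (.cut .l 796917 (.cut .s 11829248 (.pos 67 .mp ⟨95429746, 0, 0, 0, 0, 297189590, 0, 0, 0, ⟨0, 0⟩, 0⟩ 0 0) (.pos 67 .mp ⟨96607227, 0, 0, 0, 0, 302426184, 0, 0, 0, ⟨0, 0⟩, 0⟩ 0 0)) (.cut .s 11829248 (.pos 67 .mp ⟨85689705, 0, 0, 0, 0, 308439055, 0, 0, 0, ⟨0, 0⟩, 0⟩ 0 0) (.pos 67 .mp ⟨86734956, 0, 0, 0, 0, 313758774, 0, 0, 0, ⟨0, 0⟩, 0⟩ 0 0)))) (.cut .d (-16384) (.cut .l 796917 (.cut .l 513801 (.cut .s 11829248 (.pos 43 .mp ⟨93772358, 0, 0, 0, 0, 297084385, 0, 0, 0, ⟨0, 0⟩, 0⟩ 0 0) (.pos 43 .mp ⟨94861060, 0, 0, 0, 0,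 302354896, 0, 0, 0, ⟨0, 0⟩, 0⟩ 0 0)) (.pos 43 .mp ⟨101987109, 0, 0, 0, 0, 277169672, 0, 0, 0, ⟨0, 0⟩, 0⟩ 0 0)) (.pos 43 .mp ⟨0, 0, 0, 0, 0, 0, 0, 0, 0, ⟨0, 0⟩, 0⟩ 0 0)) (.pos 43 .mp ⟨100979702, 0, 0, 0, 0, 276665387, 0, 0, 0, ⟨0, 0⟩, 0⟩ 0 0))) (.cut .s 11829248 (.pos 44 .mp ⟨140560127, 0, 0, 0, 0, 225421789, 0, 0, 0, ⟨0, 0⟩, 0⟩ 0 0) (.pos 44 .mp ⟨139847782, 0, 0, 0, 0, 233283443, 0, 0, 0, ⟨0, 0⟩, 0⟩ 0 0)))) (.cut .s 11927552 (.cut .d (-32768) (.cut .l 796917 (.cut .v 16908288 (.cut .s 11894784 (.pos 43 .mp ⟨96960299, 0, 0, 0, 0, 309138007, 0, 0, 0, ⟨0, 0⟩, 0⟩ 0 0) (.pos 43 .mp ⟨98114424, 0, 0, 0, 0, 314870609, 0, 0, 0, ⟨0, 0⟩, 0⟩ 0 0)) (.pos 44 .mp ⟨317131077,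 0, 0, 0, 0, 0, 0, 0, 0, ⟨0, 0⟩, 0⟩ 0 0)) (.cut .d (-49152) (.cut .l 1080033 (.cut .v 16908288 (.pos 43 .mp ⟨97991965, 0, 0, 0, 0, 310890501, 0, 0, 0, ⟨0, 0⟩, 0⟩ 0 0) (.pos 44 .mp ⟨157264773, 0, 0, 0, 0, 221221052, 0, 0, 0, ⟨0, 0⟩, 0⟩ 0 0)) (.pos 41 .mp ⟨108564634, 0, 0, 0, 0, 282346648, 0, 0, 0, ⟨0, 0⟩, 0⟩ 0 0)) (.pos 41 .mp ⟨107354302, 0, 0, 0, 0, 283443769, 0, 0, 0, ⟨0, 0⟩, 0⟩ 0 0))) (.cut .d (-16384) (.cut .v 16908288 (.cut .l 796917 (.cut .l 513801 (.cut .s 11894784 (.pos 43 .mp ⟨95943846, 0, 0, 0, 0, 307861027, 0, 0, 0, ⟨0, 0⟩, 0⟩ 0 0) (.pos 43 .mp ⟨97020667, 0, 0, 0, 0, 313604507, 0, 0, 0, ⟨0, 0⟩, 0⟩ 0 0)) (.pos 43 .mp ⟨104438873, 0, 0, 0, 0, 286779277,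 0, 0, 0, ⟨0, 0⟩, 0⟩ 0 0)) (.pos 43 .mp ⟨0, 0, 0, 0, 0, 0, 0, 0, 0, ⟨0, 0⟩, 0⟩ 0 0)) (.pos 44 .mp ⟨288416489, 0, 0, 0, 0, 0, 0, 0, 0, ⟨0, 0⟩, 0⟩ 0 0)) (.pos 41 .mp ⟨104981303, 0, 0, 0, 0, 284519243, 0, 0, 0, ⟨0, 0⟩, 0⟩ 0 0))) (.cut .d (-32768) (.cut .l 796917 (.cut .v 16908288 (.cut .s 11960320 (.pos 43 .mp ⟨99263124, 0, 0, 0, 0, 320842972, 0, 0, 0, ⟨0, 0⟩, 0⟩ 0 0) (.pos 43 .mp ⟨100406360, 0, 0, 0, 0, 327056820, 0, 0, 0, ⟨0, 0⟩, 0⟩ 0 0)) (.pos 44 .mp ⟨325970838, 0, 0, 0, 0, 0, 0, 0, 0, ⟨0, 0⟩, 0⟩ 0 0)) (.cut .d (-49152) (.cut .l 1080033 (.cut .s 11960320 (.pos 41 .mp ⟨102161972, 0, 0, 0, 0, 319823373, 0, 0, 0, ⟨0, 0⟩, 0⟩ 0 0) (.pos 41 .mp ⟨103410567, 0, 0,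 0, 0, 325747693, 0, 0, 0, ⟨0, 0⟩, 0⟩ 0 0)) (.pos 41 .mp ⟨110911175, 0, 0, 0, 0, 292299217, 0, 0, 0, ⟨0, 0⟩, 0⟩ 0 0)) (.pos 41 .mp ⟨109970851, 0, 0, 0, 0, 293632700, 0, 0, 0, ⟨0, 0⟩, 0⟩ 0 0))) (.cut .d (-16384) (.cut .v 16908288 (.cut .l 796917 (.cut .l 513801 (.cut .s 11960320 (.pos 43 .mp ⟨98091473, 0, 0, 0, 0, 319587068, 0, 0, 0, ⟨0, 0⟩, 0⟩ 0 0) (.pos 43 .mp ⟨99156211, 0, 0, 0, 0, 325810449, 0, 0, 0, ⟨0, 0⟩, 0⟩ 0 0)) (.pos 43 .mp ⟨106882221, 0, 0, 0, 0, 296872134, 0, 0, 0, ⟨0, 0⟩, 0⟩ 0 0)) (.pos 43 .mp ⟨0, 0, 0, 0, 0, 0, 0, 0, 0, ⟨0, 0⟩, 0⟩ 0 0)) (.pos 44 .mp ⟨297011066, 0, 0, 0, 0, 0, 0, 0, 0, ⟨0, 0⟩, 0⟩ 0 0)) (.pos 41 .mp ⟨107318680, 0, 0, 0, 0, 295191629,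 0, 0, 0, ⟨0, 0⟩, 0⟩ 0 0))))) (.pos 42 .mp ⟨299103911, 0, 0, 0, 0, 0, 0, 0, 0, ⟨0, 0⟩, 0⟩ 0 0)) (.cut .v 17039360 (.cut .s 12124160 (.cut .s 12058624 (.cut .v 16908288 (.cut .d (-32768) (.cut .l 796917 (.pos 43 .mp ⟨101544095, 0, 0, 0, 0, 339931530, 0, 0, 0, ⟨0, 0⟩, 0⟩ 0 0) (.pos 43 .mp ⟨90939584, 0, 0, 0, 0, 347370589, 0, 0, 0, ⟨0, 0⟩, 0⟩ 0 0)) (.cut .d (-16384) (.cut .s 12025856 (.cut .s 12009472 (.pos 43 .mp ⟨112896944, 0, 0, 0, 0, 305621101, 0, 0, 0, ⟨0, 0⟩, 0⟩ 0 0) (.pos 43 .mp ⟨113373164, 0, 0, 0, 0, 309107345, 0, 0, 0, ⟨0, 0⟩, 0⟩ 0 0)) (.pos 43 .mp ⟨114856666, 0, 0, 0, 0, 311903112, 0, 0, 0, ⟨0, 0⟩, 0⟩ 0 0)) (.pos 43 .mp ⟨107836991, 0, 0, 0, 0, 308935930,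 0, 0, 0, ⟨0, 0⟩, 0⟩ 0 0))) (.cut .s 12025856 (.pos 44 .mp ⟨152361422, 0, 0, 0, 0, 251698911, 0, 0, 0, ⟨0, 0⟩, 0⟩ 0 0) (.pos 44 .mp ⟨158415165, 0, 0, 0, 0, 250627557, 0, 0, 0, ⟨0, 0⟩, 0⟩ 0 0))) (.cut .v 16908288 (.cut .l 796917 (.cut .d (-32768) (.pos 43 .mp ⟨103802889, 0, 0, 0, 0, 353777789, 0, 0, 0, ⟨0, 0⟩, 0⟩ 0 0) (.cut .s 12091392 (.cut .d (-16384) (.pos 43 .mp ⟨116165145, 0, 0, 0, 0, 319111170, 0, 0, 0, ⟨0, 0⟩, 0⟩ 0 0) (.pos 43 .mp ⟨108970475, 0, 0, 0, 0, 321518523, 0, 0, 0, ⟨0, 0⟩, 0⟩ 0 0)) (.pos 43 .mp ⟨117475327, 0, 0, 0, 0, 321838250, 0, 0, 0, ⟨0, 0⟩, 0⟩ 0 0))) (.pos 43 .mp ⟨89850909, 0, 0, 0, 0, 360506804, 0, 0, 0, ⟨0, 0⟩, 0⟩ 0 0)) (.pos 44 .mp ⟨198918851,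 0, 0, 0, 0, 200209779, 0, 0, 0, ⟨0, 0⟩, 0⟩ 0 0))) (.cut .s 12189696 (.cut .v 16908288 (.cut .d (-32768) (.pos 43 .mp ⟨94705434, 0, 0, 0, 0, 383084942, 0, 0, 0, ⟨0, 0⟩, 0⟩ 0 0) (.cut .s 12156928 (.pos 43 .mp ⟨118787307, 0, 0, 0, 0, 327914930, 0, 0, 0, ⟨0, 0⟩, 0⟩ 0 0) (.pos 43 .mp ⟨120101180, 0, 0, 0, 0, 334098391, 0, 0, 0, ⟨0, 0⟩, 0⟩ 0 0))) (.pos 44 .mp ⟨218960421, 0, 0, 0, 0, 186742772, 0, 0, 0, ⟨0, 0⟩, 0⟩ 0 0)) (.cut .d (-32768) (.pos 41 .mp ⟨98359626, 0, 0, 0, 0, 402445693, 0, 0, 0, ⟨0, 0⟩, 0⟩ 0 0) (.pos 41 .mp ⟨124758212, 0, 0, 0, 0, 339886909, 0, 0, 0, ⟨0, 0⟩, 0⟩ 0 0)))) (.pos 42 .mp ⟨335955716, 0, 0, 0, 0, 0, 0, 0, 0, ⟨0, 0⟩, 0⟩ 0 0)))) (.pos 40 .mp ⟨347160524,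 0, 0, 0, 0, 0, 0, 0, 0, ⟨0, 0⟩, 0⟩ 0 0)) (.pos 38 .mp ⟨367370959, 0, 0, 0, 0, 0, 0, 0, 0, ⟨0, 0⟩, 0⟩ 0 0)) (.void 36 ⟨100000, 0, 0, 0, 0, 0, 0, 0, 0, ⟨0, 0⟩, 0⟩ 0 0))))))) (.void 34 ⟨100000, 0, 0, 0, 0, 0, 0, 0, 0, ⟨0, 0⟩, 0⟩ 0 0))) (.void 32 ⟨100000, 0, 0, 0, 0, 0, 0, 0, 0, ⟨0, 0⟩, 0⟩ 0 0))) (.void 63 ⟨100000, 0, 0, 0, 0, 0, 0, 0, 0, ⟨0, 0⟩, 0⟩ 0 0)) (.void 74 ⟨100000, 0, 0, 0, 0, 0, 0, 0, 0, ⟨0, 0⟩, 0⟩ 0 0)) (.void 103 ⟨95884, 0, 0, 4116, 0, 0, 0, 0, 0, ⟨0, 0⟩, 0⟩ 0 0))) (.cut .v 16777216 (.cut .v 8388608 (.cut .v 4194304 (.cut .v 2097152 (.cut .v 1048576 (.pos 106 .pm ⟨0, 0, 11646139, 0, 0, 0, 0, 0, 0, ⟨0, 0⟩, 0⟩ 0 0) (.pos 107 .pm ⟨0, 5557424, 0, 0, 0,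 0, 0, 0, 0, ⟨0, 0⟩, 0⟩ 0 0)) (.cut .d 3608508 (.pos 7 .pm ⟨0, 0, 39338246, 0, 0, 0, 0, 0, 0, ⟨0, 0⟩, 0⟩ 0 0) (.cut .d 5412762 (.pos 7 .pm ⟨0, 0, 0, 0, 0, 0, 0, 0, 0, ⟨0, 0⟩, 0⟩ 0 0) (.cut .d 6314889 (.pos 7 .pm ⟨0, 82677146, 0, 0, 0, 0, 0, 0, 0, ⟨0, 0⟩, 0⟩ 0 0) (.pos 7 .pm ⟨0, 122719706, 0, 0, 0, 0, 0, 0, 0, ⟨0, 0⟩, 0⟩ 0 0))))) (.cut .d 3608508 (.pos 5 .pm ⟨0, 0, 1989857, 0, 0, 0, 0, 0, 0, ⟨0, 0⟩, 0⟩ 0 0) (.cut .d 5412762 (.pos 5 .pm ⟨0, 0, 0, 0, 0, 0, 0, 0, 0, ⟨0, 0⟩, 0⟩ 0 0) (.cut .d 6314889 (.cut .s 11993088 (.cut .v 6291456 (.pos 79 .pm ⟨0, 0, 0, 0, 0, 0, 0, 0, 0, ⟨0, 0⟩, 0⟩ 0 0) (.pos 80 .pm ⟨0, 0, 0, 0, 0, 0, 0, 0, 0, ⟨0, 0⟩, 0⟩ 0 0)) (.cut .d 5863825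 (.cut .v 6291456 (.pos 79 .pm ⟨0, 0, 0, 0, 0, 0, 0, 0, 0, ⟨0, 0⟩, 0⟩ 0 0) (.pos 80 .pm ⟨0, 3825434, 0, 0, 0, 0, 0, 0, 0, ⟨0, 0⟩, 0⟩ 0 0)) (.cut .v 6291456 (.cut .s 12124160 (.cut .d 6089357 (.pos 79 .pm ⟨0, 0, 0, 0, 0, 0, 0, 0, 0, ⟨0, 0⟩, 0⟩ 0 0) (.pos 79 .pm ⟨0, 134967121, 0, 0, 0, 0, 0, 0, 0, ⟨0, 0⟩, 0⟩ 0 0)) (.cut .d 6089357 (.pos 79 .pm ⟨0, 136587205, 0, 0, 0, 0, 0, 0, 0, ⟨0, 0⟩, 0⟩ 0 0) (.pos 79 .pm ⟨0, 162934839, 0, 0, 0, 0, 0, 0, 0, ⟨0, 0⟩, 0⟩ 0 0))) (.cut .s 12124160 (.pos 80 .pm ⟨0, 145393654, 0, 0, 0, 0, 0, 0, 0, ⟨0, 0⟩, 0⟩ 0 0) (.pos 80 .pm ⟨0, 171534570, 0, 0, 0, 0, 0, 0, 0, ⟨0, 0⟩, 0⟩ 0 0))))) (.cut .s 11993088 (.cut .d 6765953 (.cut .v 6291456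 (.cut .v 5242880 (.pos 114 .pm ⟨0, 116205082, 0, 0, 0, 0, 0, 0, 0, ⟨0, 0⟩, 0⟩ 0 0) (.cut .s 11862016 (.cut .d 6540421 (.pos 115 .pm ⟨0, 0, 0, 0, 0, 0, 0, 0, 0, ⟨0, 0⟩, 0⟩ 0 0) (.pos 115 .pm ⟨0, 126886819, 0, 0, 0, 0, 0, 0, 0, ⟨0, 0⟩, 0⟩ 0 0)) (.cut .d 6540421 (.pos 115 .pm ⟨0, 133993236, 0, 0, 0, 0, 0, 0, 0, ⟨0, 0⟩, 0⟩ 0 0) (.pos 115 .pm ⟨0, 153164839, 0, 0, 0, 0, 0, 0, 0, ⟨0, 0⟩, 0⟩ 0 0)))) (.cut .v 7340032 (.cut .s 11862016 (.cut .s 11796480 (.pos 93 .pm ⟨0, 124359349, 0, 0, 0, 0, 0, 0, 0, ⟨0, 0⟩, 0⟩ 0 0) (.pos 93 .pm ⟨0, 135163311, 0, 0, 0, 0, 0, 0, 0, ⟨0, 0⟩, 0⟩ 0 0)) (.cut .d 6540421 (.pos 93 .pm ⟨0, 142603302, 0, 0, 0, 0, 0, 0, 0, ⟨0, 0⟩, 0⟩ 0 0) (.pos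 93 .pm ⟨0, 161744263, 0, 0, 0, 0, 0, 0, 0, ⟨0, 0⟩, 0⟩ 0 0))) (.pos 94 .pm ⟨0, 156189776, 0, 0, 0, 0, 0, 0, 0, ⟨0, 0⟩, 0⟩ 0 0))) (.cut .s 11862016 (.cut .d 6991485 (.cut .v 6291456 (.pos 79 .pm ⟨0, 142267748, 0, 0, 0, 0, 0, 0, 0, ⟨0, 0⟩, 0⟩ 0 0) (.cut .s 11796480 (.pos 80 .pm ⟨0, 150734476, 0, 0, 0, 0, 0, 0, 0, ⟨0, 0⟩, 0⟩ 0 0) (.void 80 ⟨0, 100000, 0, 0, 0, 0, 0, 0, 0, ⟨0, 0⟩, 0⟩ 0 0))) (.void 5 ⟨0, 100000, 0, 0, 0, 0, 0, 0, 0, ⟨0, 0⟩, 0⟩ 0 0)) (.void 5 ⟨0, 100000, 0, 0, 0, 0, 0, 0, 0, ⟨0, 0⟩, 0⟩ 0 0))) (.cut .v 6291456 (.cut .v 5242880 (.pos 114 .pm ⟨0, 169180421, 0, 0, 0, 0, 0, 0, 0, ⟨0, 0⟩, 0⟩ 0 0) (.cut .s 12124160 (.pos 115 .pm ⟨0, 182954355, 0, 0, 0,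 0, 0, 0, 0, ⟨0, 0⟩, 0⟩ 0 0) (.void 115 ⟨0, 0, 0, 100000, 0, 0, 0, 0, 0, ⟨0, 0⟩, 0⟩ 0 0))) (.pos 80 .pm ⟨0, 235151215, 0, 0, 0, 0, 0, 0, 0, ⟨0, 0⟩, 0⟩ 0 0))))))) (.cut .d 3608508 (.pos 3 .pm ⟨0, 0, 0, 0, 0, 0, 0, 0, 0, ⟨0, 0⟩, 0⟩ 0 0) (.cut .d 5412762 (.pos 3 .pm ⟨0, 0, 0, 0, 0, 0, 0, 0, 0, ⟨0, 0⟩, 0⟩ 0 0) (.cut .d 6314889 (.pos 3 .pm ⟨0, 151256593, 0, 0, 0, 0, 0, 0, 0, ⟨0, 0⟩, 0⟩ 0 0) (.cut .s 11993088 (.pos 3 .pm ⟨0, 198828178, 0, 0, 0, 0, 0, 0, 0, ⟨0, 0⟩, 0⟩ 0 0) (.void 3 ⟨0, 100000, 0, 0, 0, 0, 0, 0, 0, ⟨0, 0⟩, 0⟩ 0 0)))))) (.cut .v 268435456 (.cut .d 3608508 (.cut .v 67108864 (.cut .d 1804254 (.cut .v 33554432 (.cut .d 902127 (.cut .v 25165824 (.cut .v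 20971520 (.pos 33 .pp ⟨171102228, 0, 0, 0, 0, 0, 0, 0, 0, ⟨0, 0⟩, 0⟩ 0 0) (.pos 34 .pp ⟨354807265, 0, 0, 0, 0, 0, 0, 0, 0, ⟨0, 0⟩, 0⟩ 0 0)) (.pos 32 .pp ⟨562258728, 0, 0, 0, 0, 0, 0, 0, 0, ⟨0, 0⟩, 0⟩ 0 0)) (.pos 30 .pp ⟨0, 0, 0, 0, 0, 0, 0, 0, 0, ⟨0, 0⟩, 0⟩ 0 0)) (.cut .d 902127 (.cut .v 50331648 (.pos 64 .pp ⟨1281003222, 0, 0, 0, 0, 0, 0, 0, 0, ⟨0, 0⟩, 0⟩ 0 0) (.void 65 ⟨100000, 0, 0, 0, 0, 0, 0, 0, 0, ⟨0, 0⟩, 0⟩ 0 0)) (.cut .v 50331648 (.pos 64 .pp ⟨550839657, 0, 0, 0, 0, 0, 0, 0, 0, ⟨0, 0⟩, 0⟩ 0 0) (.pos 65 .pp ⟨1394170683, 0, 0, 0, 0, 0, 0, 0, 0, ⟨0, 0⟩, 0⟩ 0 0)))) (.pos 62 .pp ⟨0, 0, 0, 0, 0, 0, 0, 0, 0, ⟨0, 0⟩, 0⟩ 0 0)) (.cut .v 134217728 (.cut .v 100663296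 (.cut .d 1804254 (.cut .d 902127 (.void 77 ⟨100000, 0, 0, 0, 0, 0, 0, 0, 0, ⟨0, 0⟩, 0⟩ 0 0) (.cut .v 83886080 (.cut .d 1353190 (.pos 81 .pp ⟨3182601191, 0, 0, 0, 0, 0, 0, 0, 0, ⟨0, 0⟩, 0⟩ 0 0) (.pos 81 .pp ⟨2145906601, 0, 0, 0, 0, 0, 0, 0, 0, ⟨0, 0⟩, 0⟩ 0 0)) (.cut .d 1353190 (.pos 82 .pp ⟨5512731509, 0, 0, 0, 0, 0, 0, 0, 0, ⟨0, 0⟩, 0⟩ 0 0) (.cut .v 92274688 (.pos 118 .pp ⟨3246402693, 0, 0, 0, 0, 0, 0, 0, 0, ⟨0, 0⟩, 0⟩ 0 0) (.pos 119 .pp ⟨3975949293, 701448316, 0, 0, 0, 0, 0, 0, 0, ⟨0, 0⟩, 0⟩ 0 0))))) (.pos 77 .pp ⟨0, 487402908, 0, 0, 0, 0, 0, 0, 0, ⟨0, 0⟩, 0⟩ 0 0)) (.void 78 ⟨38196, 61804, 0, 0, 0, 0, 0, 0, 0, ⟨0, 0⟩, 0⟩ 0 0)) (.void 76 ⟨38196, 61804, 0,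 0, 0, 0, 0, 0, 0, ⟨0, 0⟩, 0⟩ 0 0))) (.pos 73 .pp ⟨0, 220036500, 0, 0, 0, 0, 0, 0, 0, ⟨0, 0⟩, 0⟩ 0 0)) (.void 103 ⟨0, 0, 0, 100000, 0, 0, 0, 0, 0, ⟨0, 0⟩, 0⟩ 0 0)))),
    by decide +kernel⟩

def covers18 : cell.Covers table row18.1 :=
  ⟨(.cut .d 0 (.cut .v 16777216 (.cut .d (-8388608) (.void 1 ⟨0, 0, 0, 0, 0, 100000, 0, 0, 0, ⟨0, 0⟩, 0⟩ 0 0) (.cut .d (-4194304) (.void 1 ⟨0, 0, 0, 0, 0, 100000, 0, 0, 0, ⟨0, 0⟩, 0⟩ 0 0) (.cut .d (-2097152) (.void 1 ⟨0, 0, 0, 0, 0, 100000, 0, 0, 0, ⟨0, 0⟩, 0⟩ 0 0) (.cut .d (-1048576) (.void 1 ⟨0, 0, 0, 0, 0, 100000, 0, 0, 0, ⟨0, 0⟩, 0⟩ 0 0) (.cut .d (-524288) (.void 1 ⟨0, 0, 0, 0, 0, 100000, 0, 0, 0, ⟨0, 0⟩, 0⟩ 0 0) (.cut .d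 (-262144) (.void 1 ⟨0, 0, 0, 0, 0, 100000, 0, 0, 0, ⟨0, 0⟩, 0⟩ 0 0) (.cut .d (-131072) (.void 1 ⟨0, 0, 0, 0, 0, 100000, 0, 0, 0, ⟨0, 0⟩, 0⟩ 0 0) (.cut .v 8388608 (.cut .v 4194304 (.void 4 ⟨0, 0, 100000, 0, 0, 0, 0, 0, 0, ⟨0, 0⟩, 0⟩ 0 0) (.pos 5 .mm ⟨0, 0, 6076049, 0, 0, 285924938, 0, 0, 0, ⟨0, 0⟩, 0⟩ 0 0)) (.cut .d (-65536) (.pos 3 .mm ⟨0, 0, 0, 0, 0, 706158553, 0, 0, 0, ⟨0, 0⟩, 0⟩ 0 0) (.cut .v 12582912 (.pos 8 .mm ⟨0, 0, 0, 0, 0, 408417752, 0, 0, 0, ⟨0, 0⟩, 0⟩ 0 0) (.cut .v 14680064 (.pos 12 .mm ⟨0, 0, 0, 0, 0, 523432075, 0, 0, 0, ⟨0, 0⟩, 0⟩ 0 0) (.cut .v 15728640 (.pos 16 .mm ⟨0, 0, 0, 0, 0, 565437376, 0, 0, 0, ⟨0, 0⟩, 0⟩ 0 0) (.cut .v 16252928 (.pos 20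 .mm ⟨0, 0, 0, 0, 0, 587477838, 0, 0, 0, ⟨0, 0⟩, 0⟩ 0 0) (.cut .v 16515072 (.pos 24 .mm ⟨0, 0, 0, 0, 0, 598760859, 0, 0, 0, ⟨0, 0⟩, 0⟩ 0 0) (.cut .s 12484608 (.cut .s 12369920 (.pos 25 .mm ⟨0, 0, 0, 0, 0, 558000318, 0, 0, 0, ⟨0, 0⟩, 0⟩ 0 0) (.pos 25 .mm ⟨0, 0, 0, 0, 0, 591811580, 0, 0, 0, ⟨0, 0⟩, 0⟩ 0 0)) (.cut .s 12599296 (.pos 25 .mm ⟨0, 0, 0, 0, 0, 627235440, 0, 0, 0, ⟨0, 0⟩, 0⟩ 0 0) (.pos 25 .mm ⟨0, 0, 0, 0, 0, 664146190, 0, 0, 0, ⟨0, 0⟩, 0⟩ 0 0))))))))))))))))) (.cut .v 268435456 (.cut .v 67108864 (.cut .v 33554432 (.cut .d (-8388608) (.void 30 ⟨100000, 0, 0, 0, 0, 0, 0, 0, 0, ⟨0, 0⟩, 0⟩ 0 0) (.cut .v 25165824 (.cut .d (-4194304) (.void 31 ⟨100000, 0,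 0, 0, 0, 0, 0, 0, 0, ⟨0, 0⟩, 0⟩ 0 0) (.cut .v 20971520 (.cut .d (-2097152) (.void 33 ⟨100000, 0, 0, 0, 0, 0, 0, 0, 0, ⟨0, 0⟩, 0⟩ 0 0) (.cut .d (-1048576) (.void 33 ⟨100000, 0, 0, 0, 0, 0, 0, 0, 0, ⟨0, 0⟩, 0⟩ 0 0) (.cut .d (-524288) (.void 33 ⟨100000, 0, 0, 0, 0, 0, 0, 0, 0, ⟨0, 0⟩, 0⟩ 0 0) (.cut .d (-262144) (.void 33 ⟨100000, 0, 0, 0, 0, 0, 0, 0, 0, ⟨0, 0⟩, 0⟩ 0 0) (.cut .d (-131072) (.void 33 ⟨100000, 0, 0, 0, 0, 0, 0, 0, 0, ⟨0, 0⟩, 0⟩ 0 0) (.cut .v 18874368 (.cut .v 17825792 (.cut .v 17301504 (.cut .d (-65536) (.pos 39 .mp ⟨130325018, 0, 0, 0, 0, 512134533, 0, 0, 0, ⟨0, 0⟩, 0⟩ 0 0) (.cut .v 17039360 (.cut .s 12484608 (.cut .s 12369920 (.cut .v 16908288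 (.cut .d (-32768) (.pos 43 .mp ⟨98256702, 0, 0, 0, 0, 426795532, 0, 0, 0, ⟨0, 0⟩, 0⟩ 0 0) (.cut .s 12312576 (.pos 43 .mp ⟨125043278, 0, 0, 0, 0, 355812091, 0, 0, 0, ⟨0, 0⟩, 0⟩ 0 0) (.pos 43 .mp ⟨127333430, 0, 0, 0, 0, 367607494, 0, 0, 0, ⟨0, 0⟩, 0⟩ 0 0))) (.pos 44 .mp ⟨280215228, 0, 0, 0, 0, 134834537, 0, 0, 0, ⟨0, 0⟩, 0⟩ 0 0)) (.cut .v 16908288 (.cut .d (-32768) (.cut .s 12427264 (.pos 43 .mp ⟨102033175, 0, 0, 0, 0, 438318505, 0, 0, 0, ⟨0, 0⟩, 0⟩ 0 0) (.pos 43 .mp ⟨103808212, 0, 0, 0, 0, 450450115, 0, 0, 0, ⟨0, 0⟩, 0⟩ 0 0)) (.cut .s 12427264 (.pos 43 .mp ⟨129601588, 0, 0, 0, 0, 379908927, 0, 0, 0, ⟨0, 0⟩, 0⟩ 0 0) (.pos 43 .mp ⟨131847360, 0, 0, 0, 0, 391271301,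 0, 0, 0, ⟨0, 0⟩, 0⟩ 0 0))) (.pos 44 .mp ⟨281020958, 0, 0, 0, 0, 159679386, 0, 0, 0, ⟨0, 0⟩, 0⟩ 0 0))) (.cut .s 12599296 (.cut .d (-32768) (.cut .s 12541952 (.pos 41 .mp ⟨107602879, 0, 0, 0, 0, 466271031, 0, 0, 0, ⟨0, 0⟩, 0⟩ 0 0) (.pos 41 .mp ⟨109268058, 0, 0, 0, 0, 481026622, 0, 0, 0, ⟨0, 0⟩, 0⟩ 0 0)) (.pos 41 .mp ⟨138604528, 0, 0, 0, 0, 399160114, 0, 0, 0, ⟨0, 0⟩, 0⟩ 0 0)) (.cut .s 12656640 (.cut .s 12627968 (.pos 41 .mp ⟨161587981, 0, 0, 0, 0, 395488491, 0, 0, 0, ⟨0, 0⟩, 0⟩ 0 0) (.pos 41 .mp ⟨163185880, 0, 0, 0, 0, 402173877, 0, 0, 0, ⟨0, 0⟩, 0⟩ 0 0)) (.pos 41 .mp ⟨166397446, 0, 0, 0, 0, 410390275, 0, 0, 0, ⟨0, 0⟩, 0⟩ 0 0)))) (.pos 42 .mp ⟨398812453, 0,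 0, 0, 0, 0, 0, 0, 0, ⟨0, 0⟩, 0⟩ 0 0))) (.pos 40 .mp ⟨435319620, 0, 0, 0, 0, 0, 0, 0, 0, ⟨0, 0⟩, 0⟩ 0 0)) (.pos 38 .mp ⟨461899213, 0, 0, 0, 0, 0, 0, 0, 0, ⟨0, 0⟩, 0⟩ 0 0)) (.void 36 ⟨100000, 0, 0, 0, 0, 0, 0, 0, 0, ⟨0, 0⟩, 0⟩ 0 0))))))) (.void 34 ⟨100000, 0, 0, 0, 0, 0, 0, 0, 0, ⟨0, 0⟩, 0⟩ 0 0))) (.void 32 ⟨100000, 0, 0, 0, 0, 0, 0, 0, 0, ⟨0, 0⟩, 0⟩ 0 0))) (.void 63 ⟨100000, 0, 0, 0, 0, 0, 0, 0, 0, ⟨0, 0⟩, 0⟩ 0 0)) (.void 74 ⟨100000, 0, 0, 0, 0, 0, 0, 0, 0, ⟨0, 0⟩, 0⟩ 0 0)) (.void 103 ⟨95733, 0, 0, 4267, 0, 0, 0, 0, 0, ⟨0, 0⟩, 0⟩ 0 0))) (.cut .v 16777216 (.cut .v 8388608 (.cut .v 4194304 (.cut .v 2097152 (.cut .v 1048576 (.pos 106 .pm ⟨0, 0, 10325217, 0, 0,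 0, 0, 0, 0, ⟨0, 0⟩, 0⟩ 0 0) (.pos 107 .pm ⟨0, 7738452, 0, 0, 0, 0, 0, 0, 0, ⟨0, 0⟩, 0⟩ 0 0)) (.cut .d 3095263 (.pos 7 .pm ⟨0, 0, 52607803, 0, 0, 0, 0, 0, 0, ⟨0, 0⟩, 0⟩ 0 0) (.cut .d 4642894 (.pos 7 .pm ⟨0, 0, 0, 0, 0, 0, 0, 0, 0, ⟨0, 0⟩, 0⟩ 0 0) (.cut .d 5416710 (.pos 7 .pm ⟨0, 91079642, 0, 0, 0, 0, 0, 0, 0, ⟨0, 0⟩, 0⟩ 0 0) (.cut .s 12484608 (.pos 7 .pm ⟨0, 124108075, 0, 0, 0, 0, 0, 0, 0, ⟨0, 0⟩, 0⟩ 0 0) (.pos 7 .pm ⟨0, 160572584, 0, 0, 0, 0, 0, 0, 0, ⟨0, 0⟩, 0⟩ 0 0)))))) (.cut .d 3095263 (.pos 5 .pm ⟨0, 0, 4726503, 0, 0, 0, 0, 0, 0, ⟨0, 0⟩, 0⟩ 0 0) (.cut .d 4642894 (.pos 5 .pm ⟨0, 0, 0, 0, 0, 0, 0, 0, 0, ⟨0, 0⟩, 0⟩ 0 0) (.cut .d 5416710 (.cut .v 6291456 (.cut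 .s 12484608 (.pos 79 .pm ⟨0, 0, 0, 0, 0, 0, 0, 0, 0, ⟨0, 0⟩, 0⟩ 0 0) (.cut .d 5029802 (.pos 79 .pm ⟨0, 0, 0, 0, 0, 0, 0, 0, 0, ⟨0, 0⟩, 0⟩ 0 0) (.pos 79 .pm ⟨0, 146142700, 0, 0, 0, 0, 0, 0, 0, ⟨0, 0⟩, 0⟩ 0 0))) (.pos 80 .pm ⟨0, 141137818, 0, 0, 0, 0, 0, 0, 0, ⟨0, 0⟩, 0⟩ 0 0)) (.cut .s 12484608 (.cut .v 6291456 (.cut .d 5803618 (.cut .s 12369920 (.pos 79 .pm ⟨0, 127751798, 0, 0, 0, 0, 0, 0, 0, ⟨0, 0⟩, 0⟩ 0 0) (.pos 79 .pm ⟨0, 150922818, 0, 0, 0, 0, 0, 0, 0, ⟨0, 0⟩, 0⟩ 0 0)) (.cut .v 5242880 (.pos 114 .pm ⟨0, 167423127, 0, 0, 0, 0, 0, 0, 0, ⟨0, 0⟩, 0⟩ 0 0) (.pos 115 .pm ⟨0, 189098535, 0, 0, 0, 0, 0, 0, 0, ⟨0, 0⟩, 0⟩ 0 0))) (.cut .d 5803618 (.pos 80 .pm ⟨0, 164333539,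 0, 0, 0, 0, 0, 0, 0, ⟨0, 0⟩, 0⟩ 0 0) (.pos 80 .pm ⟨0, 206921693, 0, 0, 0, 0, 0, 0, 0, ⟨0, 0⟩, 0⟩ 0 0))) (.cut .v 6291456 (.cut .v 5242880 (.pos 114 .pm ⟨0, 198363145, 0, 0, 0, 0, 0, 0, 0, ⟨0, 0⟩, 0⟩ 0 0) (.pos 115 .pm ⟨0, 227174142, 0, 0, 0, 0, 0, 0, 0, ⟨0, 0⟩, 0⟩ 0 0)) (.pos 80 .pm ⟨0, 258712372, 0, 0, 0, 0, 0, 0, 0, ⟨0, 0⟩, 0⟩ 0 0))))))) (.cut .d 3095263 (.pos 3 .pm ⟨0, 0, 0, 0, 0, 0, 0, 0, 0, ⟨0, 0⟩, 0⟩ 0 0) (.cut .d 4642894 (.pos 3 .pm ⟨0, 0, 0, 0, 0, 0, 0, 0, 0, ⟨0, 0⟩, 0⟩ 0 0) (.cut .d 5416710 (.pos 3 .pm ⟨0, 176712583, 0, 0, 0, 0, 0, 0, 0, ⟨0, 0⟩, 0⟩ 0 0) (.pos 3 .pm ⟨0, 278059129, 0, 0, 0, 0, 0, 0, 0, ⟨0, 0⟩, 0⟩ 0 0))))) (.cut .v 268435456 (.cut .d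 3095263 (.cut .v 67108864 (.cut .d 1547631 (.cut .v 33554432 (.cut .d 773815 (.cut .v 25165824 (.pos 31 .pp ⟨305088848, 0, 0, 0, 0, 0, 0, 0, 0, ⟨0, 0⟩, 0⟩ 0 0) (.pos 32 .pp ⟨684272721, 0, 0, 0, 0, 0, 0, 0, 0, ⟨0, 0⟩, 0⟩ 0 0)) (.pos 30 .pp ⟨0, 0, 0, 0, 0, 0, 0, 0, 0, ⟨0, 0⟩, 0⟩ 0 0)) (.cut .d 773815 (.cut .v 50331648 (.pos 64 .pp ⟨1532885064, 0, 0, 0, 0, 0, 0, 0, 0, ⟨0, 0⟩, 0⟩ 0 0) (.pos 65 .pp ⟨3085628516, 0, 0, 0, 0, 0, 0, 0, 0, ⟨0, 0⟩, 0⟩ 0 0)) (.cut .v 50331648 (.pos 64 .pp ⟨688477534, 0, 0, 0, 0, 0, 0, 0, 0, ⟨0, 0⟩, 0⟩ 0 0) (.pos 65 .pp ⟨1705014689, 0, 0, 0, 0, 0, 0, 0, 0, ⟨0, 0⟩, 0⟩ 0 0)))) (.pos 62 .pp ⟨0, 0, 0, 0, 0, 0, 0, 0, 0, ⟨0, 0⟩, 0⟩ 0 0)) (.cut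 .v 134217728 (.cut .v 100663296 (.cut .d 1547631 (.cut .d 773815 (.void 77 ⟨100000, 0, 0, 0, 0, 0, 0, 0, 0, ⟨0, 0⟩, 0⟩ 0 0) (.cut .v 83886080 (.cut .d 1160723 (.pos 81 .pp ⟨3820507754, 0, 0, 0, 0, 0, 0, 0, 0, ⟨0, 0⟩, 0⟩ 0 0) (.pos 81 .pp ⟨2647592462, 0, 0, 0, 0, 0, 0, 0, 0, ⟨0, 0⟩, 0⟩ 0 0)) (.cut .d 1160723 (.pos 82 .pp ⟨6889360748, 0, 0, 0, 0, 0, 0, 0, 0, ⟨0, 0⟩, 0⟩ 0 0) (.cut .d 1354177 (.cut .v 92274688 (.pos 118 .pp ⟨4283905954, 0, 0, 0, 0, 0, 0, 0, 0, ⟨0, 0⟩, 0⟩ 0 0) (.pos 119 .pp ⟨5358434478, 8906688, 0, 0, 0, 0, 0, 0, 0, ⟨0, 0⟩, 0⟩ 0 0)) (.pos 82 .pp ⟨3817566011, 286925658, 0, 0, 0, 0, 0, 0, 0, ⟨0, 0⟩, 0⟩ 0 0))))) (.pos 77 .pp ⟨0, 660501451, 0, 0, 0,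 0, 0, 0, 0, ⟨0, 0⟩, 0⟩ 0 0)) (.void 78 ⟨37659, 62341, 0, 0, 0, 0, 0, 0, 0, ⟨0, 0⟩, 0⟩ 0 0)) (.void 76 ⟨37659, 62341, 0, 0, 0, 0, 0, 0, 0, ⟨0, 0⟩, 0⟩ 0 0))) (.pos 73 .pp ⟨0, 254790924, 0, 0, 0, 0, 0, 0, 0, ⟨0, 0⟩, 0⟩ 0 0)) (.void 103 ⟨0, 0, 0, 100000, 0, 0, 0, 0, 0, ⟨0, 0⟩, 0⟩ 0 0)))),
    by decide +kernel⟩

def covers19 : cell.Covers table row19.1 :=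
  ⟨(.cut .d 0 (.cut .v 16777216 (.cut .d (-8388608) (.void 1 ⟨0, 0, 0, 0, 0, 100000, 0, 0, 0, ⟨0, 0⟩, 0⟩ 0 0) (.cut .d (-4194304) (.void 1 ⟨0, 0, 0, 0, 0, 100000, 0, 0, 0, ⟨0, 0⟩, 0⟩ 0 0) (.cut .d (-2097152) (.void 1 ⟨0, 0, 0, 0, 0, 100000, 0, 0, 0, ⟨0, 0⟩, 0⟩ 0 0) (.cut .d (-1048576) (.void 1 ⟨0, 0, 0, 0, 0, 100000, 0, 0, 0, ⟨0, 0⟩, 0⟩ 0 0) (.cut .d (-524288) (.void 1 ⟨0, 0, 0, 0, 0, 100000, 0, 0, 0, ⟨0, 0⟩, 0⟩ 0 0) (.cut .d (-262144) (.void 1 ⟨0, 0, 0, 0, 0, 100000, 0, 0, 0, ⟨0, 0⟩, 0⟩ 0 0) (.cut .d (-131072) (.void 1 ⟨0, 0, 0, 0, 0, 100000, 0, 0, 0, ⟨0, 0⟩, 0⟩ 0 0) (.cut .d (-65536) (.void 1 ⟨0, 0, 0, 0, 0, 100000, 0, 0, 0, ⟨0, 0⟩, 0⟩ 0 0) (.cut .v 8388608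 (.cut .v 4194304 (.void 4 ⟨0, 0, 100000, 0, 0, 0, 0, 0, 0, ⟨0, 0⟩, 0⟩ 0 0) (.pos 5 .mm ⟨0, 0, 9162764, 0, 0, 372590934, 0, 0, 0, ⟨0, 0⟩, 0⟩ 0 0)) (.cut .l 796917 (.cut .s 12976128 (.cut .s 12845056 (.pos 3 .mm ⟨0, 0, 0, 0, 0, 707015856, 0, 0, 0, ⟨0, 0⟩, 0⟩ 0 0) (.pos 3 .mm ⟨0, 0, 0, 0, 0, 756665883, 0, 0, 0, ⟨0, 0⟩, 0⟩ 0 0)) (.pos 3 .mm ⟨0, 0, 0, 0, 0, 848014748, 0, 0, 0, ⟨0, 0⟩, 0⟩ 0 0)) (.pos 3 .mm ⟨0, 0, 0, 0, 0, 675022613, 0, 0, 0, ⟨0, 0⟩, 0⟩ 0 0))))))))))) (.cut .v 268435456 (.cut .v 67108864 (.cut .v 33554432 (.cut .d (-8388608) (.void 30 ⟨100000, 0, 0, 0, 0, 0, 0, 0, 0, ⟨0, 0⟩, 0⟩ 0 0) (.cut .v 25165824 (.cut .d (-4194304) (.void 31 ⟨100000, 0, 0, 0,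 0, 0, 0, 0, 0, ⟨0, 0⟩, 0⟩ 0 0) (.cut .d (-2097152) (.void 31 ⟨100000, 0, 0, 0, 0, 0, 0, 0, 0, ⟨0, 0⟩, 0⟩ 0 0) (.cut .v 20971520 (.cut .d (-1048576) (.void 33 ⟨100000, 0, 0, 0, 0, 0, 0, 0, 0, ⟨0, 0⟩, 0⟩ 0 0) (.cut .d (-524288) (.void 33 ⟨100000, 0, 0, 0, 0, 0, 0, 0, 0, ⟨0, 0⟩, 0⟩ 0 0) (.cut .d (-262144) (.void 33 ⟨100000, 0, 0, 0, 0, 0, 0, 0, 0, ⟨0, 0⟩, 0⟩ 0 0) (.cut .d (-131072) (.void 33 ⟨100000, 0, 0, 0, 0, 0, 0, 0, 0, ⟨0, 0⟩, 0⟩ 0 0) (.cut .s 12976128 (.cut .d (-65536) (.void 33 ⟨0, 0, 0, 0, 0, 100000, 0, 0, 0, ⟨0, 0⟩, 0⟩ 0 0) (.cut .s 12845056 (.cut .s 12779520 (.cut .v 18874368 (.cut .s 12746752 (.pos 35 .mp ⟨207303421, 0, 0, 0, 0, 361442026, 0, 0, 0,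 ⟨0, 0⟩, 0⟩ 0 0) (.pos 35 .mp ⟨209942969, 0, 0, 0, 0, 374348580, 0, 0, 0, ⟨0, 0⟩, 0⟩ 0 0)) (.void 36 ⟨100000, 0, 0, 0, 0, 0, 0, 0, 0, ⟨0, 0⟩, 0⟩ 0 0)) (.pos 33 .mp ⟨267551992, 0, 0, 0, 0, 304106699, 0, 0, 0, ⟨0, 0⟩, 0⟩ 0 0)) (.pos 33 .mp ⟨279675378, 0, 0, 0, 0, 325111621, 0, 0, 0, ⟨0, 0⟩, 0⟩ 0 0))) (.pos 33 .mp ⟨389034637, 0, 0, 0, 0, 264839764, 0, 0, 0, ⟨0, 0⟩, 0⟩ 0 0)))))) (.void 34 ⟨100000, 0, 0, 0, 0, 0, 0, 0, 0, ⟨0, 0⟩, 0⟩ 0 0)))) (.void 32 ⟨100000, 0, 0, 0, 0, 0, 0, 0, 0, ⟨0, 0⟩, 0⟩ 0 0))) (.void 63 ⟨100000, 0, 0, 0, 0, 0, 0, 0, 0, ⟨0, 0⟩, 0⟩ 0 0)) (.void 74 ⟨100000, 0, 0, 0, 0, 0, 0, 0, 0, ⟨0, 0⟩, 0⟩ 0 0)) (.void 103 ⟨95564, 0, 0, 4436, 0, 0, 0, 0, 0,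 ⟨0, 0⟩, 0⟩ 0 0))) (.cut .v 16777216 (.cut .v 8388608 (.cut .v 4194304 (.cut .v 2097152 (.cut .d 2680896 (.void 6 ⟨0, 0, 100000, 0, 0, 0, 0, 0, 0, ⟨0, 0⟩, 0⟩ 0 0) (.cut .v 1048576 (.cut .v 524288 (.pos 126 .pm ⟨0, 0, 8726538, 0, 0, 0, 0, 0, 0, ⟨0, 0⟩, 0⟩ 0 0) (.pos 127 .pm ⟨0, 20541742, 0, 0, 0, 0, 0, 0, 0, ⟨0, 0⟩, 0⟩ 0 0)) (.pos 107 .pm ⟨0, 51593067, 0, 0, 0, 0, 0, 0, 0, ⟨0, 0⟩, 0⟩ 0 0))) (.cut .d 2680896 (.pos 7 .pm ⟨0, 0, 68790499, 0, 0, 0, 0, 0, 0, ⟨0, 0⟩, 0⟩ 0 0) (.cut .d 4021344 (.pos 7 .pm ⟨0, 0, 0, 0, 0, 0, 0, 0, 0, ⟨0, 0⟩, 0⟩ 0 0) (.cut .d 4691568 (.cut .s 12976128 (.pos 7 .pm ⟨0, 0, 0, 0, 0, 0, 0, 0, 0, ⟨0, 0⟩, 0⟩ 0 0) (.pos 7 .pm ⟨0, 125084556, 0,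 0, 0, 0, 0, 0, 0, ⟨0, 0⟩, 0⟩ 0 0)) (.cut .s 12976128 (.pos 7 .pm ⟨0, 147876618, 0, 0, 0, 0, 0, 0, 0, ⟨0, 0⟩, 0⟩ 0 0) (.pos 7 .pm ⟨0, 205471744, 0, 0, 0, 0, 0, 0, 0, ⟨0, 0⟩, 0⟩ 0 0)))))) (.cut .d 2680896 (.pos 5 .pm ⟨0, 0, 9162764, 0, 0, 0, 0, 0, 0, ⟨0, 0⟩, 0⟩ 0 0) (.cut .d 4021344 (.pos 5 .pm ⟨0, 0, 0, 0, 0, 0, 0, 0, 0, ⟨0, 0⟩, 0⟩ 0 0) (.cut .d 4691568 (.cut .s 12976128 (.pos 5 .pm ⟨0, 0, 0, 0, 0, 0, 0, 0, 0, ⟨0, 0⟩, 0⟩ 0 0) (.cut .v 6291456 (.pos 79 .pm ⟨0, 155876587, 0, 0, 0, 0, 0, 0, 0, ⟨0, 0⟩, 0⟩ 0 0) (.pos 80 .pm ⟨0, 209612747, 0, 0, 0, 0, 0, 0, 0, ⟨0, 0⟩, 0⟩ 0 0))) (.cut .s 12976128 (.cut .v 6291456 (.cut .d 5026680 (.pos 79 .pm ⟨0, 154535064, 0, 0,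 0, 0, 0, 0, 0, ⟨0, 0⟩, 0⟩ 0 0) (.pos 79 .pm ⟨0, 207761292, 0, 0, 0, 0, 0, 0, 0, ⟨0, 0⟩, 0⟩ 0 0)) (.pos 80 .pm ⟨0, 224878364, 0, 0, 0, 0, 0, 0, 0, ⟨0, 0⟩, 0⟩ 0 0)) (.pos 5 .pm ⟨0, 293534615, 0, 0, 0, 0, 0, 0, 0, ⟨0, 0⟩, 0⟩ 0 0)))))) (.cut .d 2680896 (.pos 3 .pm ⟨0, 0, 0, 0, 0, 0, 0, 0, 0, ⟨0, 0⟩, 0⟩ 0 0) (.cut .d 4021344 (.pos 3 .pm ⟨0, 0, 0, 0, 0, 0, 0, 0, 0, ⟨0, 0⟩, 0⟩ 0 0) (.pos 3 .pm ⟨0, 293954797, 0, 0, 0, 0, 0, 0, 0, ⟨0, 0⟩, 0⟩ 0 0)))) (.cut .v 268435456 (.cut .d 2680896 (.cut .v 67108864 (.cut .d 1340448 (.cut .v 33554432 (.cut .d 670224 (.cut .v 25165824 (.pos 31 .pp ⟨343143407, 0, 0, 0, 0, 0, 0, 0, 0, ⟨0, 0⟩, 0⟩ 0 0) (.pos 32 .pp ⟨820330303, 0, 0,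 0, 0, 0, 0, 0, 0, ⟨0, 0⟩, 0⟩ 0 0)) (.pos 30 .pp ⟨0, 0, 0, 0, 0, 0, 0, 0, 0, ⟨0, 0⟩, 0⟩ 0 0)) (.cut .d 670224 (.cut .v 50331648 (.pos 64 .pp ⟨1839853540, 0, 0, 0, 0, 0, 0, 0, 0, ⟨0, 0⟩, 0⟩ 0 0) (.pos 65 .pp ⟨3673502929, 0, 0, 0, 0, 0, 0, 0, 0, ⟨0, 0⟩, 0⟩ 0 0)) (.cut .v 50331648 (.pos 64 .pp ⟨827812163, 0, 0, 0, 0, 0, 0, 0, 0, ⟨0, 0⟩, 0⟩ 0 0) (.pos 65 .pp ⟨2020634963, 0, 0, 0, 0, 0, 0, 0, 0, ⟨0, 0⟩, 0⟩ 0 0)))) (.pos 62 .pp ⟨0, 0, 0, 0, 0, 0, 0, 0, 0, ⟨0, 0⟩, 0⟩ 0 0)) (.cut .v 134217728 (.cut .d 1340448 (.cut .d 670224 (.void 75 ⟨100000, 0, 0, 0, 0, 0, 0, 0, 0, ⟨0, 0⟩, 0⟩ 0 0) (.cut .v 100663296 (.cut .v 83886080 (.cut .d 1005336 (.pos 81 .pp ⟨4482790009, 0,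 0, 0, 0, 0, 0, 0, 0, ⟨0, 0⟩, 0⟩ 0 0) (.pos 81 .pp ⟨3166240380, 0, 0, 0, 0, 0, 0, 0, 0, ⟨0, 0⟩, 0⟩ 0 0)) (.cut .d 1005336 (.pos 82 .pp ⟨7826816429, 0, 0, 0, 0, 0, 0, 0, 0, ⟨0, 0⟩, 0⟩ 0 0) (.cut .v 92274688 (.pos 118 .pp ⟨4654841028, 0, 0, 0, 0, 0, 0, 0, 0, ⟨0, 0⟩, 0⟩ 0 0) (.cut .d 1172892 (.cut .s 12976128 (.pos 119 .pp ⟨6144674225, 253347976, 0, 0, 0, 0, 0, 0, 0, ⟨0, 0⟩, 0⟩ 0 0) (.cut .d 1089114 (.cut .s 13107200 (.pos 119 .pp ⟨6532967372, 388640350, 0, 0, 0, 0, 0, 0, 0, ⟨0, 0⟩, 0⟩ 0 0) (.pos 119 .pp ⟨6583138212, 287694379, 0, 0, 0, 0, 0, 0, 0, ⟨0, 0⟩, 0⟩ 0 0)) (.pos 119 .pp ⟨5961853725, 300595635, 0, 0, 0, 0, 0, 0, 0, ⟨0, 0⟩, 0⟩ 0 0))) (.pos 119 .pp ⟨5073702284,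 647177960, 0, 0, 0, 0, 0, 0, 0, ⟨0, 0⟩, 0⟩ 0 0))))) (.cut .d 1005336 (.void 78 ⟨100000, 0, 0, 0, 0, 0, 0, 0, 0, ⟨0, 0⟩, 0⟩ 0 0) (.void 78 ⟨37196, 62804, 0, 0, 0, 0, 0, 0, 0, ⟨0, 0⟩, 0⟩ 0 0)))) (.pos 75 .pp ⟨0, 1577480820, 0, 0, 0, 0, 0, 0, 0, ⟨0, 0⟩, 0⟩ 0 0)) (.void 76 ⟨36979, 63021, 0, 0, 0, 0, 0, 0, 0, ⟨0, 0⟩, 0⟩ 0 0))) (.pos 73 .pp ⟨0, 315581709, 0, 0, 0, 0, 0, 0, 0, ⟨0, 0⟩, 0⟩ 0 0)) (.void 103 ⟨0, 0, 0, 100000, 0, 0, 0, 0, 0, ⟨0, 0⟩, 0⟩ 0 0)))),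
    by decide +kernel⟩

def covers20 : cell.Covers table row20.1 :=
  ⟨(.cut .d 0 (.cut .v 16777216 (.cut .d (-8388608) (.void 1 ⟨0, 0, 0, 0, 0, 100000, 0, 0, 0, ⟨0, 0⟩, 0⟩ 0 0) (.cut .d (-4194304) (.pos 1 .mm ⟨0, 0, 0, 0, 0, 167772160000, 0, 0, 0, ⟨0, 0⟩, 0⟩ 0 0) (.cut .d (-2097152) (.void 1 ⟨0, 0, 0, 0, 0, 100000, 0, 0, 0, ⟨0, 0⟩, 0⟩ 0 0) (.cut .d (-1048576) (.void 1 ⟨0, 0, 0, 0, 0, 100000, 0, 0, 0, ⟨0, 0⟩, 0⟩ 0 0) (.cut .d (-524288) (.void 1 ⟨0, 0, 0, 0, 0, 100000, 0, 0, 0, ⟨0, 0⟩, 0⟩ 0 0) (.cut .d (-262144) (.void 1 ⟨0, 0, 0, 0, 0, 100000, 0, 0, 0, ⟨0, 0⟩, 0⟩ 0 0) (.cut .d (-131072) (.void 1 ⟨0, 0, 0, 0, 0, 100000, 0, 0, 0, ⟨0, 0⟩, 0⟩ 0 0) (.cut .d (-65536)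 (.void 1 ⟨0, 0, 0, 0, 0, 100000, 0, 0, 0, ⟨0, 0⟩, 0⟩ 0 0) (.cut .v 8388608 (.cut .v 4194304 (.void 4 ⟨0, 0, 100000, 0, 0, 0, 0, 0, 0, ⟨0, 0⟩, 0⟩ 0 0) (.pos 5 .mm ⟨0, 0, 16607512, 0, 0, 489726719, 0, 0, 0, ⟨0, 0⟩, 0⟩ 0 0)) (.cut .d (-32768) (.pos 3 .mm ⟨0, 0, 0, 0, 0, 1216289419, 0, 0, 0, ⟨0, 0⟩, 0⟩ 0 0) (.pos 3 .mm ⟨0, 0, 0, 0, 0, 845121338, 0, 0, 0, ⟨0, 0⟩, 0⟩ 0 0))))))))))) (.cut .v 268435456 (.cut .v 67108864 (.cut .v 33554432 (.cut .d (-8388608) (.void 30 ⟨100000, 0, 0, 0, 0, 0, 0, 0, 0, ⟨0, 0⟩, 0⟩ 0 0) (.cut .d (-4194304) (.void 30 ⟨100000, 0, 0, 0, 0, 0, 0, 0, 0, ⟨0, 0⟩, 0⟩ 0 0) (.cut .v 25165824 (.cut .d (-2097152) (.void 31 ⟨100000, 0, 0, 0, 0, 0,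 0, 0, 0, ⟨0, 0⟩, 0⟩ 0 0) (.cut .v 20971520 (.cut .d (-1048576) (.void 33 ⟨100000, 0, 0, 0, 0, 0, 0, 0, 0, ⟨0, 0⟩, 0⟩ 0 0) (.cut .d (-524288) (.void 33 ⟨100000, 0, 0, 0, 0, 0, 0, 0, 0, ⟨0, 0⟩, 0⟩ 0 0) (.cut .d (-262144) (.void 33 ⟨100000, 0, 0, 0, 0, 0, 0, 0, 0, ⟨0, 0⟩, 0⟩ 0 0) (.cut .d (-131072) (.void 33 ⟨100000, 0, 0, 0, 0, 0, 0, 0, 0, ⟨0, 0⟩, 0⟩ 0 0) (.pos 33 .mp ⟨473958167, 0, 0, 0, 0, 304507917, 0, 0, 0, ⟨0, 0⟩, 0⟩ 0 0))))) (.void 34 ⟨100000, 0, 0, 0, 0, 0, 0, 0, 0, ⟨0, 0⟩, 0⟩ 0 0))) (.void 32 ⟨100000, 0, 0, 0, 0, 0, 0, 0, 0, ⟨0, 0⟩, 0⟩ 0 0)))) (.void 63 ⟨100000, 0, 0, 0, 0, 0, 0, 0, 0, ⟨0, 0⟩, 0⟩ 0 0)) (.void 74 ⟨100000, 0, 0, 0, 0, 0, 0, 0, 0, ⟨0, 0⟩,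 0⟩ 0 0)) (.void 103 ⟨95397, 0, 0, 4603, 0, 0, 0, 0, 0, ⟨0, 0⟩, 0⟩ 0 0))) (.cut .v 16777216 (.cut .v 8388608 (.cut .v 4194304 (.cut .v 2097152 (.cut .d 2242500 (.void 6 ⟨0, 0, 100000, 0, 0, 0, 0, 0, 0, ⟨0, 0⟩, 0⟩ 0 0) (.cut .v 1048576 (.cut .v 524288 (.pos 126 .pm ⟨0, 0, 4505237, 0, 0, 0, 0, 0, 0, ⟨0, 0⟩, 0⟩ 0 0) (.pos 127 .pm ⟨0, 28599080, 0, 0, 0, 0, 0, 0, 0, ⟨0, 0⟩, 0⟩ 0 0)) (.cut .d 3363750 (.pos 107 .pm ⟨0, 0, 0, 0, 0, 0, 0, 0, 0, ⟨0, 0⟩, 0⟩ 0 0) (.pos 107 .pm ⟨0, 93890928, 0, 0, 0, 0, 0, 0, 0, ⟨0, 0⟩, 0⟩ 0 0)))) (.cut .d 2242500 (.pos 7 .pm ⟨0, 0, 101771905, 0, 0, 0, 0, 0, 0, ⟨0, 0⟩, 0⟩ 0 0) (.cut .d 3363750 (.pos 7 .pm ⟨0, 0, 0, 0, 0, 0, 0, 0, 0, ⟨0,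 0⟩, 0⟩ 0 0) (.cut .d 3924375 (.pos 7 .pm ⟨0, 112036441, 0, 0, 0, 0, 0, 0, 0, ⟨0, 0⟩, 0⟩ 0 0) (.cut .s 13500416 (.pos 7 .pm ⟨0, 160819188, 0, 0, 0, 0, 0, 0, 0, ⟨0, 0⟩, 0⟩ 0 0) (.pos 7 .pm ⟨0, 238247884, 0, 0, 0, 0, 0, 0, 0, ⟨0, 0⟩, 0⟩ 0 0)))))) (.cut .d 2242500 (.pos 5 .pm ⟨0, 0, 16607512, 0, 0, 0, 0, 0, 0, ⟨0, 0⟩, 0⟩ 0 0) (.cut .d 3363750 (.pos 5 .pm ⟨0, 0, 0, 0, 0, 0, 0, 0, 0, ⟨0, 0⟩, 0⟩ 0 0) (.cut .d 3924375 (.pos 5 .pm ⟨0, 151866104, 0, 0, 0, 0, 0, 0, 0, ⟨0, 0⟩, 0⟩ 0 0) (.cut .s 13500416 (.cut .d 4204688 (.pos 5 .pm ⟨0, 176905991, 0, 0, 0, 0, 0, 0, 0, ⟨0, 0⟩, 0⟩ 0 0) (.pos 5 .pm ⟨0, 238669268, 0, 0, 0, 0, 0, 0, 0, ⟨0, 0⟩, 0⟩ 0 0)) (.pos 5 .pm ⟨0, 322966292,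 0, 0, 0, 0, 0, 0, 0, ⟨0, 0⟩, 0⟩ 0 0)))))) (.cut .d 2242500 (.pos 3 .pm ⟨0, 0, 0, 0, 0, 0, 0, 0, 0, ⟨0, 0⟩, 0⟩ 0 0) (.cut .d 3363750 (.pos 3 .pm ⟨0, 0, 0, 0, 0, 0, 0, 0, 0, ⟨0, 0⟩, 0⟩ 0 0) (.pos 3 .pm ⟨0, 341871320, 0, 0, 0, 0, 0, 0, 0, ⟨0, 0⟩, 0⟩ 0 0)))) (.cut .v 268435456 (.cut .d 2242500 (.cut .v 67108864 (.cut .d 1121250 (.cut .v 33554432 (.cut .v 25165824 (.pos 31 .pp ⟨354019991, 0, 0, 0, 0, 0, 0, 0, 0, ⟨0, 0⟩, 0⟩ 0 0) (.pos 32 .pp ⟨833261210, 0, 0, 0, 0, 0, 0, 0, 0, ⟨0, 0⟩, 0⟩ 0 0)) (.cut .d 560625 (.cut .v 50331648 (.pos 64 .pp ⟨2211798386, 0, 0, 0, 0, 0, 0, 0, 0, ⟨0, 0⟩, 0⟩ 0 0) (.pos 65 .pp ⟨4447303590, 0, 0, 0, 0, 0, 0, 0, 0, ⟨0, 0⟩, 0⟩ 0 0)) (.cut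 .v 50331648 (.pos 64 .pp ⟨985252847, 0, 0, 0, 0, 0, 0, 0, 0, ⟨0, 0⟩, 0⟩ 0 0) (.pos 65 .pp ⟨2493626447, 0, 0, 0, 0, 0, 0, 0, 0, ⟨0, 0⟩, 0⟩ 0 0)))) (.pos 62 .pp ⟨0, 0, 0, 0, 0, 0, 0, 0, 0, ⟨0, 0⟩, 0⟩ 0 0)) (.cut .v 134217728 (.cut .d 1121250 (.cut .d 560625 (.void 75 ⟨100000, 0, 0, 0, 0, 0, 0, 0, 0, ⟨0, 0⟩, 0⟩ 0 0) (.cut .v 100663296 (.cut .v 83886080 (.cut .d 840937 (.pos 81 .pp ⟨5395988698, 0, 0, 0, 0, 0, 0, 0, 0, ⟨0, 0⟩, 0⟩ 0 0) (.pos 81 .pp ⟨3895302780, 0, 0, 0, 0, 0, 0, 0, 0, ⟨0, 0⟩, 0⟩ 0 0)) (.cut .d 840937 (.pos 82 .pp ⟨8237236903, 0, 0, 0, 0, 0, 0, 0, 0, ⟨0, 0⟩, 0⟩ 0 0) (.cut .v 92274688 (.pos 118 .pp ⟨5586524423, 0, 0, 0, 0, 0, 0, 0, 0, ⟨0, 0⟩, 0⟩ 0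 0) (.cut .v 96468992 (.pos 128 .pp ⟨6395315445, 0, 0, 0, 0, 0, 0, 0, 0, ⟨0, 0⟩, 0⟩ 0 0) (.cut .s 13500416 (.cut .d 981093 (.cut .s 13369344 (.pos 129 .pp ⟨7276000739, 0, 0, 0, 0, 0, 0, 0, 0, ⟨0, 0⟩, 0⟩ 0 0) (.pos 129 .pp ⟨7064851145, 0, 0, 0, 0, 0, 0, 0, 0, ⟨0, 0⟩, 0⟩ 0 0)) (.pos 129 .pp ⟨6626573305, 187271895, 0, 0, 0, 0, 0, 0, 0, ⟨0, 0⟩, 0⟩ 0 0)) (.cut .d 981093 (.pos 129 .pp ⟨7458106992, 0, 0, 0, 0, 0, 0, 0, 0, ⟨0, 0⟩, 0⟩ 0 0) (.pos 129 .pp ⟨0, 2479230536, 0, 0, 0, 0, 0, 0, 0, ⟨0, 0⟩, 0⟩ 0 0))))))) (.cut .v 117440512 (.cut .v 109051904 (.cut .v 104857600 (.cut .d 840937 (.pos 138 .pp ⟨9547715391, 1223641068, 0, 0, 0, 0, 0, 0, 0, ⟨0, 0⟩, 0⟩ 0 0) (.cut .v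 102760448 (.cut .s 13500416 (.cut .v 101711872 (.cut .d 981093 (.cut .d 911015 (.pos 142 .pp ⟨8122261046, 1030590341, 0, 0, 0, 0, 0, 0, 0, ⟨0, 0⟩, 0⟩ 0 0) (.cut .l 796917 (.pos 142 .pp ⟨8200567839, 2172425220, 0, 0, 0, 0, 0, 0, 0, ⟨0, 0⟩, 0⟩ 0 0) (.cut .s 13369344 (.cut .s 13303808 (.void 142 ⟨100000, 0, 0, 0, 0, 0, 0, 0, 0, ⟨0, 0⟩, 0⟩ 0 0) (.pos 142 .pp ⟨7552206225, 887119303, 0, 0, 0, 0, 0, 0, 0, ⟨0, 0⟩, 0⟩ 0 0)) (.cut .d 946054 (.pos 142 .pp ⟨7766798019, 955039313, 0, 0, 0, 0, 0, 0, 0, ⟨0, 0⟩, 0⟩ 0 0) (.pos 142 .pp ⟨7528812491, 1082577959, 0, 0, 0, 0, 0, 0, 0, ⟨0, 0⟩, 0⟩ 0 0))))) (.cut .s 13369344 (.cut .s 13303808 (.pos 142 .pp ⟨7157373995, 1050580482,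 0, 0, 0, 0, 0, 0, 0, ⟨0, 0⟩, 0⟩ 0 0) (.pos 142 .pp ⟨7220550849, 1002086158, 0, 0, 0, 0, 0, 0, 0, ⟨0, 0⟩, 0⟩ 0 0)) (.void 142 ⟨0, 100000, 0, 0, 0, 0, 0, 0, 0, ⟨0, 0⟩, 0⟩ 0 0))) (.void 143 ⟨36989, 63011, 0, 0, 0, 0, 0, 0, 0, ⟨0, 0⟩, 0⟩ 0 0)) (.cut .d 981093 (.cut .d 911015 (.cut .s 13631488 (.pos 140 .pp ⟨8286867002, 959041271, 0, 0, 0, 0, 0, 0, 0, ⟨0, 0⟩, 0⟩ 0 0) (.pos 140 .pp ⟨8513231298, 1444537885, 0, 0, 0, 0, 0, 0, 0, ⟨0, 0⟩, 0⟩ 0 0)) (.pos 140 .pp ⟨7425336087, 1251531184, 0, 0, 0, 0, 0, 0, 0, ⟨0, 0⟩, 0⟩ 0 0)) (.void 140 ⟨0, 100000, 0, 0, 0, 0, 0, 0, 0, ⟨0, 0⟩, 0⟩ 0 0))) (.void 141 ⟨28351, 71649, 0, 0, 0, 0, 0, 0, 0, ⟨0, 0⟩, 0⟩ 0 0))) (.void 139 ⟨36726,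 63274, 0, 0, 0, 0, 0, 0, 0, ⟨0, 0⟩, 0⟩ 0 0)) (.void 137 ⟨36726, 63274, 0, 0, 0, 0, 0, 0, 0, ⟨0, 0⟩, 0⟩ 0 0)) (.void 131 ⟨36726, 63274, 0, 0, 0, 0, 0, 0, 0, ⟨0, 0⟩, 0⟩ 0 0)))) (.pos 75 .pp ⟨0, 2080607578, 0, 0, 0, 0, 0, 0, 0, ⟨0, 0⟩, 0⟩ 0 0)) (.void 76 ⟨36360, 63640, 0, 0, 0, 0, 0, 0, 0, ⟨0, 0⟩, 0⟩ 0 0))) (.pos 73 .pp ⟨0, 366447986, 0, 0, 0, 0, 0, 0, 0, ⟨0, 0⟩, 0⟩ 0 0)) (.void 103 ⟨0, 0, 0, 100000, 0, 0, 0, 0, 0, ⟨0, 0⟩, 0⟩ 0 0)))),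
    by decide +kernel⟩

def covers21 : cell.Covers table row21.1 :=
  ⟨(.cut .d 0 (.cut .v 16777216 (.cut .d (-8388608) (.void 1 ⟨0, 0, 0, 0, 0, 100000, 0, 0, 0, ⟨0, 0⟩, 0⟩ 0 0) (.cut .d (-4194304) (.void 1 ⟨0, 0, 0, 0, 0, 100000, 0, 0, 0, ⟨0, 0⟩, 0⟩ 0 0) (.cut .d (-2097152) (.void 1 ⟨0, 0, 0, 0, 0, 100000, 0, 0, 0, ⟨0, 0⟩, 0⟩ 0 0) (.cut .d (-1048576) (.void 1 ⟨0, 0, 0, 0, 0, 100000, 0, 0, 0, ⟨0, 0⟩, 0⟩ 0 0) (.cut .d (-524288) (.void 1 ⟨0, 0, 0, 0, 0, 100000, 0, 0, 0, ⟨0, 0⟩, 0⟩ 0 0) (.cut .d (-262144) (.void 1 ⟨0, 0, 0, 0, 0, 100000, 0, 0, 0, ⟨0, 0⟩, 0⟩ 0 0) (.cut .d (-131072) (.void 1 ⟨0, 0, 0, 0, 0, 100000, 0, 0, 0, ⟨0, 0⟩, 0⟩ 0 0) (.cut .v 8388608 (.cut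 .v 4194304 (.void 4 ⟨0, 0, 100000, 0, 0, 0, 0, 0, 0, ⟨0, 0⟩, 0⟩ 0 0) (.pos 5 .mm ⟨0, 0, 26941060, 0, 0, 608183855, 0, 0, 0, ⟨0, 0⟩, 0⟩ 0 0)) (.pos 3 .mm ⟨0, 0, 0, 0, 0, 1132655042, 0, 0, 0, ⟨0, 0⟩, 0⟩ 0 0))))))))) (.cut .v 268435456 (.cut .v 67108864 (.cut .v 33554432 (.cut .d (-8388608) (.void 30 ⟨100000, 0, 0, 0, 0, 0, 0, 0, 0, ⟨0, 0⟩, 0⟩ 0 0) (.cut .d (-4194304) (.void 30 ⟨100000, 0, 0, 0, 0, 0, 0, 0, 0, ⟨0, 0⟩, 0⟩ 0 0) (.cut .v 25165824 (.cut .d (-2097152) (.void 31 ⟨100000, 0, 0, 0, 0, 0, 0, 0, 0, ⟨0, 0⟩, 0⟩ 0 0) (.cut .v 20971520 (.cut .d (-1048576) (.void 33 ⟨100000, 0, 0, 0, 0, 0, 0, 0, 0, ⟨0, 0⟩, 0⟩ 0 0) (.pos 33 .mp ⟨209568027, 0, 0, 0, 0, 1939484635,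 0, 0, 0, ⟨0, 0⟩, 0⟩ 0 0)) (.void 34 ⟨100000, 0, 0, 0, 0, 0, 0, 0, 0, ⟨0, 0⟩, 0⟩ 0 0))) (.void 32 ⟨100000, 0, 0, 0, 0, 0, 0, 0, 0, ⟨0, 0⟩, 0⟩ 0 0)))) (.void 63 ⟨100000, 0, 0, 0, 0, 0, 0, 0, 0, ⟨0, 0⟩, 0⟩ 0 0)) (.void 74 ⟨100000, 0, 0, 0, 0, 0, 0, 0, 0, ⟨0, 0⟩, 0⟩ 0 0)) (.void 103 ⟨95271, 0, 0, 4729, 0, 0, 0, 0, 0, ⟨0, 0⟩, 0⟩ 0 0))) (.cut .v 16777216 (.cut .v 8388608 (.cut .v 4194304 (.cut .v 2097152 (.cut .d 1837506 (.void 6 ⟨0, 0, 100000, 0, 0, 0, 0, 0, 0, ⟨0, 0⟩, 0⟩ 0 0) (.cut .v 1048576 (.cut .v 524288 (.pos 126 .pm ⟨0, 0, 2865725, 0, 0, 0, 0, 0, 0, ⟨0, 0⟩, 0⟩ 0 0) (.pos 127 .pm ⟨0, 29883897, 0, 0, 0, 0, 0, 0, 0, ⟨0, 0⟩, 0⟩ 0 0)) (.pos 107 .pm ⟨0, 60844310,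 0, 0, 0, 0, 0, 0, 0, ⟨0, 0⟩, 0⟩ 0 0))) (.cut .d 1837506 (.pos 7 .pm ⟨0, 0, 149614859, 0, 0, 0, 0, 0, 0, ⟨0, 0⟩, 0⟩ 0 0) (.cut .d 2756259 (.pos 7 .pm ⟨0, 0, 0, 0, 0, 0, 0, 0, 0, ⟨0, 0⟩, 0⟩ 0 0) (.cut .d 3215635 (.pos 7 .pm ⟨0, 93195750, 0, 0, 0, 0, 0, 0, 0, ⟨0, 0⟩, 0⟩ 0 0) (.pos 7 .pm ⟨0, 181940622, 0, 0, 0, 0, 0, 0, 0, ⟨0, 0⟩, 0⟩ 0 0))))) (.cut .d 1837506 (.pos 5 .pm ⟨0, 0, 27435024, 0, 0, 0, 0, 0, 0, ⟨0, 0⟩, 0⟩ 0 0) (.cut .d 2756259 (.pos 5 .pm ⟨0, 0, 0, 0, 0, 0, 0, 0, 0, ⟨0, 0⟩, 0⟩ 0 0) (.pos 5 .pm ⟨0, 212008249, 0, 0, 0, 0, 0, 0, 0, ⟨0, 0⟩, 0⟩ 0 0)))) (.cut .d 1837506 (.pos 3 .pm ⟨0, 0, 0, 0, 0, 0, 0, 0, 0, ⟨0, 0⟩, 0⟩ 0 0) (.pos 3 .pm ⟨0, 247321940, 0,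 0, 0, 0, 0, 0, 0, ⟨0, 0⟩, 0⟩ 0 0))) (.cut .v 268435456 (.cut .d 1837506 (.cut .v 67108864 (.cut .d 918753 (.cut .v 33554432 (.cut .v 25165824 (.pos 31 .pp ⟨368665389, 0, 0, 0, 0, 0, 0, 0, 0, ⟨0, 0⟩, 0⟩ 0 0) (.pos 32 .pp ⟨1001568392, 0, 0, 0, 0, 0, 0, 0, 0, ⟨0, 0⟩, 0⟩ 0 0)) (.cut .d 459376 (.cut .v 50331648 (.pos 64 .pp ⟨2539006119, 0, 0, 0, 0, 0, 0, 0, 0, ⟨0, 0⟩, 0⟩ 0 0) (.pos 65 .pp ⟨5164883383, 0, 0, 0, 0, 0, 0, 0, 0, ⟨0, 0⟩, 0⟩ 0 0)) (.cut .v 50331648 (.pos 64 .pp ⟨1061699358, 0, 0, 0, 0, 0, 0, 0, 0, ⟨0, 0⟩, 0⟩ 0 0) (.pos 65 .pp ⟨3024314744, 0, 0, 0, 0, 0, 0, 0, 0, ⟨0, 0⟩, 0⟩ 0 0)))) (.pos 62 .pp ⟨0, 0, 0, 0, 0, 0, 0, 0, 0, ⟨0, 0⟩, 0⟩ 0 0)) (.cut .v 134217728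 (.cut .d 918753 (.cut .d 459376 (.void 75 ⟨100000, 0, 0, 0, 0, 0, 0, 0, 0, ⟨0, 0⟩, 0⟩ 0 0) (.cut .v 100663296 (.cut .v 83886080 (.pos 81 .pp ⟨5394915956, 0, 0, 0, 0, 0, 0, 0, 0, ⟨0, 0⟩, 0⟩ 0 0) (.cut .d 689064 (.pos 82 .pp ⟨12344944393, 0, 0, 0, 0, 0, 0, 0, 0, ⟨0, 0⟩, 0⟩ 0 0) (.cut .d 803908 (.pos 82 .pp ⟨8500196311, 0, 0, 0, 0, 0, 0, 0, 0, ⟨0, 0⟩, 0⟩ 0 0) (.pos 82 .pp ⟨7564915563, 0, 0, 0, 0, 0, 0, 0, 0, ⟨0, 0⟩, 0⟩ 0 0)))) (.cut .d 689064 (.pos 78 .pp ⟨167772160000, 0, 0, 0, 0, 0, 0, 0, 0, ⟨0, 0⟩, 0⟩ 0 0) (.cut .v 117440512 (.cut .v 109051904 (.cut .v 104857600 (.cut .v 102760448 (.cut .d 803908 (.cut .s 13959168 (.pos 140 .pp ⟨9853812800, 1235886827, 0,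 0, 0, 0, 0, 0, 0, ⟨0, 0⟩, 0⟩ 0 0) (.pos 140 .pp ⟨9587823751, 1114193337, 0, 0, 0, 0, 0, 0, 0, ⟨0, 0⟩, 0⟩ 0 0)) (.cut .v 101711872 (.pos 142 .pp ⟨8363989772, 660505637, 0, 0, 0, 0, 0, 0, 0, ⟨0, 0⟩, 0⟩ 0 0) (.pos 143 .pp ⟨8916237666, 1653938085, 0, 0, 0, 0, 0, 0, 0, ⟨0, 0⟩, 0⟩ 0 0))) (.pos 141 .pp ⟨13535638348, 8519335119, 0, 0, 0, 0, 0, 0, 0, ⟨0, 0⟩, 0⟩ 0 0)) (.void 139 ⟨28342, 71658, 0, 0, 0, 0, 0, 0, 0, ⟨0, 0⟩, 0⟩ 0 0)) (.void 137 ⟨24374, 75626, 0, 0, 0, 0, 0, 0, 0, ⟨0, 0⟩, 0⟩ 0 0)) (.void 131 ⟨12302, 87698, 0, 0, 0, 0, 0, 0, 0, ⟨0, 0⟩, 0⟩ 0 0))))) (.pos 75 .pp ⟨0, 2734968515, 0, 0, 0, 0, 0, 0, 0, ⟨0, 0⟩, 0⟩ 0 0)) (.pos 76 .pp ⟨141925343541, 13283497515,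 0, 12563318945, 0, 0, 0, 0, 0, ⟨0, 0⟩, 0⟩ 0 0))) (.pos 73 .pp ⟨0, 344310071, 0, 0, 0, 0, 0, 0, 0, ⟨0, 0⟩, 0⟩ 0 0)) (.void 103 ⟨0, 0, 0, 100000, 0, 0, 0, 0, 0, ⟨0, 0⟩, 0⟩ 0 0)))),
    by decide +kernel⟩

def covers22 : cell.Covers table row22.1 :=
  ⟨(.cut .d 0 (.cut .v 16777216 (.cut .d (-8388608) (.void 1 ⟨0, 0, 0, 0, 0, 100000, 0, 0, 0, ⟨0, 0⟩, 0⟩ 0 0) (.cut .d (-4194304) (.void 1 ⟨0, 0, 0, 0, 0, 100000, 0, 0, 0, ⟨0, 0⟩, 0⟩ 0 0) (.cut .d (-2097152) (.void 1 ⟨0, 0, 0, 0, 0, 100000, 0, 0, 0, ⟨0, 0⟩, 0⟩ 0 0) (.cut .d (-1048576) (.void 1 ⟨0, 0, 0, 0, 0, 100000, 0, 0, 0, ⟨0, 0⟩, 0⟩ 0 0) (.cut .d (-524288) (.void 1 ⟨0, 0, 0, 0, 0, 100000, 0, 0, 0, ⟨0, 0⟩, 0⟩ 0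 0) (.cut .d (-262144) (.void 1 ⟨0, 0, 0, 0, 0, 100000, 0, 0, 0, ⟨0, 0⟩, 0⟩ 0 0) (.cut .d (-131072) (.void 1 ⟨0, 0, 0, 0, 0, 100003, 0, 0, 0, ⟨0, 0⟩, 0⟩ 0 0) (.cut .v 8388608 (.cut .v 4194304 (.void 4 ⟨0, 0, 100000, 0, 0, 0, 0, 0, 0, ⟨0, 0⟩, 0⟩ 0 0) (.pos 5 .mm ⟨0, 0, 41003997, 0, 0, 732478552, 0, 0, 0, ⟨0, 0⟩, 0⟩ 0 0)) (.pos 3 .mm ⟨0, 0, 0, 0, 0, 1198979219, 0, 0, 0, ⟨0, 0⟩, 0⟩ 0 0))))))))) (.cut .v 268435456 (.cut .v 67108864 (.cut .v 33554432 (.cut .d (-8388608) (.void 30 ⟨100000, 0, 0, 0, 0, 0, 0, 0, 0, ⟨0, 0⟩, 0⟩ 0 0) (.cut .d (-4194304) (.void 30 ⟨100000, 0, 0, 0, 0, 0, 0, 0, 0, ⟨0, 0⟩, 0⟩ 0 0) (.pos 30 .mp ⟨782524801, 0, 0, 0, 0, 6870530978, 0, 0, 0,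 ⟨0, 0⟩, 0⟩ 0 0))) (.void 63 ⟨100000, 0, 0, 0, 0, 0, 0, 0, 0, ⟨0, 0⟩, 0⟩ 0 0)) (.void 74 ⟨100000, 0, 0, 0, 0, 0, 0, 0, 0, ⟨0, 0⟩, 0⟩ 0 0)) (.void 103 ⟨95167, 0, 0, 4833, 0, 0, 0, 0, 0, ⟨0, 0⟩, 0⟩ 0 0))) (.cut .v 16777216 (.cut .v 8388608 (.cut .v 4194304 (.cut .v 2097152 (.cut .d 1553447 (.void 6 ⟨0, 0, 100000, 0, 0, 0, 0, 0, 0, ⟨0, 0⟩, 0⟩ 0 0) (.cut .v 1048576 (.cut .v 524288 (.pos 126 .pm ⟨0, 0, 1784224, 0, 0, 0, 0, 0, 0, ⟨0, 0⟩, 0⟩ 0 0) (.pos 127 .pm ⟨0, 29619985, 0, 0, 0, 0, 0, 0, 0, ⟨0, 0⟩, 0⟩ 0 0)) (.pos 107 .pm ⟨0, 56306046, 0, 0, 0, 0, 0, 0, 0, ⟨0, 0⟩, 0⟩ 0 0))) (.cut .d 1553447 (.pos 7 .pm ⟨0, 0, 203473098, 0, 0, 0, 0, 0, 0, ⟨0, 0⟩, 0⟩ 0 0) (.cut .d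 2330170 (.pos 7 .pm ⟨0, 0, 0, 0, 0, 0, 0, 0, 0, ⟨0, 0⟩, 0⟩ 0 0) (.pos 7 .pm ⟨0, 126688923, 0, 0, 0, 0, 0, 0, 0, ⟨0, 0⟩, 0⟩ 0 0)))) (.cut .d 1553447 (.pos 5 .pm ⟨0, 0, 45539547, 0, 0, 0, 0, 0, 0, ⟨0, 0⟩, 0⟩ 0 0) (.pos 5 .pm ⟨0, 138362727, 0, 0, 0, 0, 0, 0, 0, ⟨0, 0⟩, 0⟩ 0 0))) (.pos 3 .pm ⟨0, 0, 12251052, 0, 0, 0, 0, 0, 0, ⟨0, 0⟩, 0⟩ 0 0)) (.cut .v 268435456 (.cut .d 1553447 (.cut .v 67108864 (.cut .d 776723 (.cut .l 796917 (.cut .v 33554432 (.cut .v 25165824 (.pos 31 .pp ⟨323664467, 0, 0, 0, 0, 0, 0, 0, 0, ⟨0, 0⟩, 0⟩ 0 0) (.pos 32 .pp ⟨1171981622, 0, 0, 0, 0, 0, 0, 0, 0, ⟨0, 0⟩, 0⟩ 0 0)) (.cut .d 388361 (.pos 63 .pp ⟨4574467244, 0, 0, 0, 0, 0, 0, 0, 0, ⟨0,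 0⟩, 0⟩ 0 0) (.pos 63 .pp ⟨2063370021, 0, 0, 0, 0, 0, 0, 0, 0, ⟨0, 0⟩, 0⟩ 0 0))) (.pos 62 .pp ⟨1161790552, 0, 0, 0, 0, 0, 0, 0, 0, ⟨0, 0⟩, 0⟩ 0 0)) (.pos 62 .pp ⟨0, 0, 0, 0, 0, 0, 0, 0, 0, ⟨0, 0⟩, 0⟩ 0 0)) (.cut .v 134217728 (.cut .d 776723 (.cut .d 388361 (.void 75 ⟨100000, 0, 0, 0, 0, 0, 0, 0, 0, ⟨0, 0⟩, 0⟩ 0 0) (.cut .l 796917 (.cut .v 100663296 (.cut .v 83886080 (.pos 81 .pp ⟨6165254420, 0, 0, 0, 0, 0, 0, 0, 0, ⟨0, 0⟩, 0⟩ 0 0) (.cut .d 582542 (.pos 82 .pp ⟨14519888696, 0, 0, 0, 0, 0, 0, 0, 0, ⟨0, 0⟩, 0⟩ 0 0) (.pos 82 .pp ⟨9003807925, 0, 0, 0, 0, 0, 0, 0, 0, ⟨0, 0⟩, 0⟩ 0 0))) (.cut .d 582542 (.void 78 ⟨100000, 0, 0, 0, 0, 0, 0, 0, 0, ⟨0, 0⟩, 0⟩ 0 0) (.cut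 .v 117440512 (.cut .d 679632 (.cut .v 109051904 (.pos 136 .pp ⟨12135412387, 1661859438, 0, 0, 0, 0, 0, 0, 0, ⟨0, 0⟩, 0⟩ 0 0) (.void 137 ⟨25782, 74218, 0, 0, 0, 0, 0, 0, 0, ⟨0, 0⟩, 0⟩ 0 0)) (.pos 130 .pp ⟨10648243372, 2873282830, 0, 0, 0, 0, 0, 0, 0, ⟨0, 0⟩, 0⟩ 0 0)) (.void 131 ⟨14928, 85072, 0, 0, 0, 0, 0, 0, 0, ⟨0, 0⟩, 0⟩ 0 0)))) (.pos 75 .pp ⟨11393379049, 0, 0, 0, 0, 0, 0, 0, 0, ⟨0, 0⟩, 0⟩ 0 0))) (.pos 75 .pp ⟨0, 3340860138, 0, 0, 0, 0, 0, 0, 0, ⟨0, 0⟩, 0⟩ 0 0)) (.void 76 ⟨88084, 0, 0, 9113, 0, 0, 0, 0, 0, ⟨0, 0⟩, 0⟩ 0 0))) (.pos 73 .pp ⟨0, 310263100, 0, 0, 0, 0, 0, 0, 0, ⟨0, 0⟩, 0⟩ 0 0)) (.void 103 ⟨0, 0, 0, 100000, 0, 0, 0, 0, 0, ⟨0, 0⟩, 0⟩ 0 0)))),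
    by decide +kernel⟩

def covers23 : cell.Covers table row23.1 :=
  ⟨(.cut .d 0 (.cut .v 16777216 (.cut .v 8388608 (.void 2 ⟨0, 0, 100000, 0, 0, 0, 0, 0, 0, ⟨0, 0⟩, 0⟩ 0 0) (.cut .d (-8388608) (.void 3 ⟨100000, 0, 0, 0, 0, 0, 0, 0, 0, ⟨0, 0⟩, 0⟩ 0 0) (.cut .d (-4194304) (.void 3 ⟨100000, 0, 0, 0, 0, 0, 0, 0, 0, ⟨0, 0⟩, 0⟩ 0 0) (.cut .d (-2097152) (.void 3 ⟨100000, 0, 0, 0, 0, 0, 0, 0, 0, ⟨0, 0⟩, 0⟩ 0 0) (.cut .v 12582912 (.cut .d (-1048576) (.void 8 ⟨100000, 0, 0, 0, 0, 0, 0, 0, 0, ⟨0, 0⟩, 0⟩ 0 0) (.cut .v 10485760 (.cut .d (-524288) (.void 10 ⟨0, 0, 0, 0, 0, 100000, 0, 0, 0, ⟨0, 0⟩, 0⟩ 0 0) (.cut .d (-262144) (.void 10 ⟨0, 0, 0, 0, 0, 100000, 0, 0, 0, ⟨0,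 0⟩, 0⟩ 0 0) (.pos 10 .mm ⟨0, 0, 24213132, 0, 0, 1182789209, 0, 0, 0, ⟨0, 0⟩, 0⟩ 0 0))) (.pos 11 .mm ⟨0, 0, 0, 0, 0, 1907105041, 0, 0, 0, ⟨0, 0⟩, 0⟩ 0 0))) (.pos 9 .mm ⟨0, 0, 0, 0, 0, 3333201600, 0, 0, 0, ⟨0, 0⟩, 0⟩ 0 0)))))) (.cut .v 268435456 (.cut .v 67108864 (.cut .v 33554432 (.cut .d (-8388608) (.void 30 ⟨100000, 0, 0, 0, 0, 0, 0, 0, 0, ⟨0, 0⟩, 0⟩ 0 0) (.pos 30 .mp ⟨729342937, 0, 0, 0, 0, 14626644192, 0, 0, 0, ⟨0, 0⟩, 0⟩ 0 0)) (.void 63 ⟨100000, 0, 0, 0, 0, 0, 0, 0, 0, ⟨0, 0⟩, 0⟩ 0 0)) (.void 74 ⟨100000, 0, 0, 0, 0, 0, 0, 0, 0, ⟨0, 0⟩, 0⟩ 0 0)) (.void 103 ⟨95063, 0, 0, 4937, 0, 0, 0, 0, 0, ⟨0, 0⟩, 0⟩ 0 0))) (.cut .v 16777216 (.cut .v 8388608 (.cut .v 4194304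 (.cut .v 2097152 (.cut .d 1328514 (.void 6 ⟨0, 0, 100000, 0, 0, 0, 0, 0, 0, ⟨0, 0⟩, 0⟩ 0 0) (.cut .v 1048576 (.cut .v 524288 (.cut .v 262144 (.pos 146 .pm ⟨0, 0, 10303849, 0, 0, 0, 0, 0, 0, ⟨0, 0⟩, 0⟩ 0 0) (.pos 147 .pm ⟨0, 9375960, 0, 0, 0, 0, 0, 0, 0, ⟨0, 0⟩, 0⟩ 0 0)) (.pos 127 .pm ⟨0, 29520826, 0, 0, 0, 0, 0, 0, 0, ⟨0, 0⟩, 0⟩ 0 0)) (.pos 107 .pm ⟨0, 50809922, 0, 0, 0, 0, 0, 0, 0, ⟨0, 0⟩, 0⟩ 0 0))) (.cut .d 1328514 (.pos 7 .pm ⟨0, 0, 279971835, 0, 0, 0, 0, 0, 0, ⟨0, 0⟩, 0⟩ 0 0) (.pos 7 .pm ⟨0, 77896065, 0, 0, 0, 0, 0, 0, 0, ⟨0, 0⟩, 0⟩ 0 0))) (.cut .d 1328514 (.pos 5 .pm ⟨0, 0, 434542096, 0, 0, 0, 0, 0, 0, ⟨0, 0⟩, 0⟩ 0 0) (.pos 5 .pm ⟨0, 134345898, 0, 0,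 0, 0, 0, 0, 0, ⟨0, 0⟩, 0⟩ 0 0))) (.pos 3 .pm ⟨0, 0, 22951873, 0, 0, 0, 0, 0, 0, ⟨0, 0⟩, 0⟩ 0 0)) (.cut .v 268435456 (.cut .d 1328514 (.cut .v 67108864 (.cut .v 33554432 (.pos 30 .pp ⟨607408127, 0, 0, 0, 0, 0, 0, 0, 0, ⟨0, 0⟩, 0⟩ 0 0) (.cut .d 664257 (.cut .d 332128 (.pos 63 .pp ⟨5041632900, 0, 0, 0, 0, 0, 0, 0, 0, ⟨0, 0⟩, 0⟩ 0 0) (.pos 63 .pp ⟨2247080741, 0, 0, 0, 0, 0, 0, 0, 0, ⟨0, 0⟩, 0⟩ 0 0)) (.pos 63 .pp ⟨0, 0, 0, 0, 0, 0, 0, 0, 0, ⟨0, 0⟩, 0⟩ 0 0))) (.cut .v 134217728 (.cut .d 664257 (.cut .d 332128 (.void 75 ⟨100000, 0, 0, 0, 0, 0, 0, 0, 0, ⟨0, 0⟩, 0⟩ 0 0) (.cut .l 796917 (.cut .v 100663296 (.cut .v 83886080 (.pos 81 .pp ⟨6975733064, 0, 0, 0, 0, 0, 0,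 0, 0, ⟨0, 0⟩, 0⟩ 0 0) (.pos 82 .pp ⟨10747829358, 0, 0, 0, 0, 0, 0, 0, 0, ⟨0, 0⟩, 0⟩ 0 0)) (.cut .d 498192 (.pos 78 .pp ⟨38733994501, 0, 0, 0, 0, 0, 0, 0, 0, ⟨0, 0⟩, 0⟩ 0 0) (.cut .v 117440512 (.pos 130 .pp ⟨12990700833, 4728784295, 0, 0, 0, 0, 0, 0, 0, ⟨0, 0⟩, 0⟩ 0 0) (.void 131 ⟨17017, 82983, 0, 0, 0, 0, 0, 0, 0, ⟨0, 0⟩, 0⟩ 0 0)))) (.pos 75 .pp ⟨12871475503, 0, 0, 0, 0, 0, 0, 0, 0, ⟨0, 0⟩, 0⟩ 0 0))) (.pos 75 .pp ⟨0, 3986049997, 0, 0, 0, 0, 0, 0, 0, ⟨0, 0⟩, 0⟩ 0 0)) (.void 76 ⟨90255, 0, 0, 9745, 0, 0, 0, 0, 0, ⟨0, 0⟩, 0⟩ 0 0))) (.pos 73 .pp ⟨0, 257356879, 0, 0, 0, 0, 0, 0, 0, ⟨0, 0⟩, 0⟩ 0 0)) (.void 103 ⟨0, 0, 0, 100000, 0, 0, 0, 0, 0, ⟨0, 0⟩, 0⟩ 0 0)))),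
    by decide +kernel⟩

def covers24 : cell.Covers table row24.1 :=
  ⟨(.cut .d 0 (.cut .v 16777216 (.cut .v 8388608 (.void 2 ⟨0, 0, 100000, 0, 0, 0, 0, 0, 0, ⟨0, 0⟩, 0⟩ 0 0) (.cut .d (-8388608) (.void 3 ⟨100000, 0, 0, 0, 0, 0, 0, 0, 0, ⟨0, 0⟩, 0⟩ 0 0) (.cut .d (-4194304) (.void 3 ⟨100000, 0, 0, 0, 0, 0, 0, 0, 0, ⟨0, 0⟩, 0⟩ 0 0) (.cut .d (-2097152) (.void 3 ⟨100000, 0, 0, 0, 0, 0, 0, 0, 0, ⟨0, 0⟩, 0⟩ 0 0) (.cut .v 12582912 (.cut .d (-1048576) (.void 8 ⟨100000, 0, 0, 0, 0, 0, 0, 0, 0, ⟨0, 0⟩, 0⟩ 0 0) (.cut .v 10485760 (.cut .d (-524288) (.void 10 ⟨0, 0, 0, 0, 0, 100000, 0, 0, 0, ⟨0, 0⟩, 0⟩ 0 0) (.cut .v 9437184 (.cut .s 14942208 (.pos 87 .mm ⟨0, 0, 54815956,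 0, 0, 1285195953, 0, 0, 0, ⟨0, 0⟩, 0⟩ 0 0) (.pos 87 .mm ⟨0, 0, 69721315, 0, 0, 1409768882, 0, 0, 0, ⟨0, 0⟩, 0⟩ 0 0)) (.pos 88 .mm ⟨0, 0, 0, 0, 0, 1623811051, 0, 0, 0, ⟨0, 0⟩, 0⟩ 0 0))) (.pos 11 .mm ⟨0, 0, 0, 0, 0, 2322373576, 0, 0, 0, ⟨0, 0⟩, 0⟩ 0 0))) (.pos 9 .mm ⟨0, 0, 0, 0, 0, 4095167235, 0, 0, 0, ⟨0, 0⟩, 0⟩ 0 0)))))) (.cut .v 268435456 (.cut .v 67108864 (.cut .v 33554432 (.cut .d (-8388608) (.void 30 ⟨100000, 0, 0, 0, 0, 0, 0, 0, 0, ⟨0, 0⟩, 0⟩ 0 0) (.pos 30 .mp ⟨588711970, 0, 0, 0, 0, 18791072213, 0, 0, 0, ⟨0, 0⟩, 0⟩ 0 0)) (.void 63 ⟨100000, 0, 0, 0, 0, 0, 0, 0, 0, ⟨0, 0⟩, 0⟩ 0 0)) (.void 74 ⟨100000, 0, 0, 0, 0, 0, 0, 0, 0, ⟨0, 0⟩, 0⟩ 0 0)) (.void 103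 ⟨94980, 0, 0, 5020, 0, 0, 0, 0, 0, ⟨0, 0⟩, 0⟩ 0 0))) (.cut .v 16777216 (.cut .v 8388608 (.cut .v 4194304 (.cut .v 2097152 (.cut .v 1048576 (.cut .v 524288 (.cut .v 262144 (.pos 146 .pm ⟨0, 0, 18441223, 0, 0, 0, 0, 0, 0, ⟨0, 0⟩, 0⟩ 0 0) (.pos 147 .pm ⟨0, 0, 20418762, 0, 0, 0, 0, 0, 0, ⟨0, 0⟩, 0⟩ 0 0)) (.pos 127 .pm ⟨0, 0, 24131278, 0, 0, 0, 0, 0, 0, ⟨0, 0⟩, 0⟩ 0 0)) (.pos 107 .pm ⟨0, 0, 33912114, 0, 0, 0, 0, 0, 0, ⟨0, 0⟩, 0⟩ 0 0)) (.cut .d 1113533 (.pos 7 .pm ⟨0, 0, 391316222, 0, 0, 0, 0, 0, 0, ⟨0, 0⟩, 0⟩ 0 0) (.pos 7 .pm ⟨0, 57250151, 0, 0, 0, 0, 0, 0, 0, ⟨0, 0⟩, 0⟩ 0 0))) (.cut .d 1113533 (.pos 5 .pm ⟨0, 0, 558692516, 0, 0, 0, 0, 0, 0, ⟨0, 0⟩, 0⟩ 0 0) (.pos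 5 .pm ⟨0, 106559733, 0, 0, 0, 0, 0, 0, 0, ⟨0, 0⟩, 0⟩ 0 0))) (.pos 3 .pm ⟨0, 0, 40347803, 0, 0, 0, 0, 0, 0, ⟨0, 0⟩, 0⟩ 0 0)) (.cut .v 268435456 (.cut .d 1113533 (.cut .v 67108864 (.cut .v 33554432 (.pos 30 .pp ⟨588711970, 0, 0, 0, 0, 0, 0, 0, 0, ⟨0, 0⟩, 0⟩ 0 0) (.cut .v 50331648 (.pos 64 .pp ⟨2231201136, 0, 0, 0, 0, 0, 0, 0, 0, ⟨0, 0⟩, 0⟩ 0 0) (.cut .d 556766 (.pos 65 .pp ⟨5726222587, 0, 0, 0, 0, 0, 0, 0, 0, ⟨0, 0⟩, 0⟩ 0 0) (.pos 65 .pp ⟨0, 0, 0, 0, 0, 0, 0, 0, 0, ⟨0, 0⟩, 0⟩ 0 0)))) (.cut .v 134217728 (.cut .d 556766 (.cut .d 278383 (.void 75 ⟨100000, 0, 0, 0, 0, 0, 0, 0, 0, ⟨0, 0⟩, 0⟩ 0 0) (.cut .v 100663296 (.pos 77 .pp ⟨10722036867, 0, 0, 0, 0, 0, 0, 0,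 0, ⟨0, 0⟩, 0⟩ 0 0) (.cut .d 417574 (.pos 78 .pp ⟨167772160000, 0, 0, 0, 0, 0, 0, 0, 0, ⟨0, 0⟩, 0⟩ 0 0) (.pos 78 .pp ⟨15779429230, 7264585989, 0, 0, 0, 0, 0, 0, 0, ⟨0, 0⟩, 0⟩ 0 0)))) (.pos 75 .pp ⟨0, 4836985427, 0, 0, 0, 0, 0, 0, 0, ⟨0, 0⟩, 0⟩ 0 0)) (.void 76 ⟨90155, 0, 0, 9845, 0, 0, 0, 0, 0, ⟨0, 0⟩, 0⟩ 0 0))) (.pos 73 .pp ⟨0, 112314898, 0, 0, 0, 0, 0, 0, 0, ⟨0, 0⟩, 0⟩ 0 0)) (.void 103 ⟨0, 0, 0, 100000, 0, 0, 0, 0, 0, ⟨0, 0⟩, 0⟩ 0 0)))),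
    by decide +kernel⟩

def covers25 : cell.Covers table row25.1 :=
  ⟨(.cut .d 0 (.cut .v 16777216 (.cut .v 8388608 (.void 2 ⟨0, 0, 100000, 0, 0, 0, 0, 0, 0, ⟨0, 0⟩, 0⟩ 0 0) (.cut .d (-8388608) (.void 3 ⟨100000, 0, 0, 0, 0, 0, 0, 0, 0, ⟨0, 0⟩, 0⟩ 0 0) (.cut .d (-4194304) (.void 3 ⟨100000, 0, 0, 0, 0, 0, 0, 0, 0, ⟨0, 0⟩, 0⟩ 0 0) (.cut .d (-2097152) (.void 3 ⟨100000, 0, 0, 0, 0, 0, 0, 0, 0, ⟨0, 0⟩, 0⟩ 0 0) (.cut .v 12582912 (.cut .d (-1048576) (.void 8 ⟨100000, 0, 0, 0, 0, 0, 0, 0, 0, ⟨0, 0⟩, 0⟩ 0 0) (.cut .v 10485760 (.cut .d (-524288) (.void 10 ⟨79937, 0, 20063, 0, 0, 0, 0, 0, 0, ⟨0, 0⟩, 0⟩ 0 0) (.cut .v 9437184 (.cut .s 15171584 (.pos 87 .mm ⟨0, 0, 80091135,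 0, 0, 1517900322, 0, 0, 0, ⟨0, 0⟩, 0⟩ 0 0) (.cut .d (-262144) (.void 87 ⟨0, 0, 0, 0, 0, 100000, 0, 0, 0, ⟨0, 0⟩, 0⟩ 0 0) (.pos 87 .mm ⟨0, 0, 96623870, 0, 0, 1483903252, 0, 0, 0, ⟨0, 0⟩, 0⟩ 0 0))) (.pos 88 .mm ⟨0, 0, 0, 0, 0, 1903211132, 0, 0, 0, ⟨0, 0⟩, 0⟩ 0 0))) (.pos 11 .mm ⟨0, 0, 0, 0, 0, 2736036202, 0, 0, 0, ⟨0, 0⟩, 0⟩ 0 0))) (.pos 9 .mm ⟨0, 0, 0, 0, 0, 4855792449, 0, 0, 0, ⟨0, 0⟩, 0⟩ 0 0)))))) (.cut .v 268435456 (.cut .v 67108864 (.cut .v 33554432 (.pos 30 .mp ⟨375175062, 0, 0, 0, 0, 40341031377, 0, 0, 0, ⟨0, 0⟩, 0⟩ 0 0) (.void 63 ⟨100000, 0, 0, 0, 0, 0, 0, 0, 0, ⟨0, 0⟩, 0⟩ 0 0)) (.void 74 ⟨100000, 0, 0, 0, 0, 0, 0, 0, 0, ⟨0, 0⟩, 0⟩ 0 0)) (.void 103 ⟨0,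 0, 0, 5421, 0, 93368, 0, 0, 0, ⟨0, 0⟩, 0⟩ 0 0))) (.cut .v 16777216 (.cut .v 8388608 (.cut .v 4194304 (.cut .v 2097152 (.cut .v 1048576 (.cut .v 524288 (.cut .v 262144 (.pos 146 .pm ⟨0, 0, 20658584, 0, 0, 0, 0, 0, 0, ⟨0, 0⟩, 0⟩ 0 0) (.pos 147 .pm ⟨0, 0, 27788514, 0, 0, 0, 0, 0, 0, ⟨0, 0⟩, 0⟩ 0 0)) (.pos 127 .pm ⟨0, 0, 39274506, 0, 0, 0, 0, 0, 0, ⟨0, 0⟩, 0⟩ 0 0)) (.pos 107 .pm ⟨0, 0, 57793489, 0, 0, 0, 0, 0, 0, ⟨0, 0⟩, 0⟩ 0 0)) (.pos 7 .pm ⟨0, 0, 86825929, 0, 0, 0, 0, 0, 0, ⟨0, 0⟩, 0⟩ 0 0)) (.pos 5 .pm ⟨0, 0, 165525279, 0, 0, 0, 0, 0, 0, ⟨0, 0⟩, 0⟩ 0 0)) (.pos 3 .pm ⟨0, 0, 61182244, 0, 0, 0, 0, 0, 0, ⟨0, 0⟩, 0⟩ 0 0)) (.cut .v 268435456 (.cut .d 948278 (.cut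 .v 67108864 (.cut .v 33554432 (.pos 30 .pp ⟨375175062, 0, 0, 0, 0, 0, 0, 0, 0, ⟨0, 0⟩, 0⟩ 0 0) (.cut .v 50331648 (.pos 64 .pp ⟨2554222255, 0, 0, 0, 0, 0, 0, 0, 0, ⟨0, 0⟩, 0⟩ 0 0) (.pos 65 .pp ⟨4945977109, 0, 0, 0, 0, 0, 0, 0, 0, ⟨0, 0⟩, 0⟩ 0 0))) (.cut .v 134217728 (.cut .d 474139 (.cut .d 237069 (.void 75 ⟨100000, 0, 0, 0, 0, 0, 0, 0, 0, ⟨0, 0⟩, 0⟩ 0 0) (.cut .v 100663296 (.pos 77 .pp ⟨12090881869, 0, 0, 0, 0, 0, 0, 0, 0, ⟨0, 0⟩, 0⟩ 0 0) (.cut .d 355604 (.pos 78 .pp ⟨167772160000, 0, 0, 0, 0, 0, 0, 0, 0, ⟨0, 0⟩, 0⟩ 0 0) (.pos 78 .pp ⟨17913340102, 8654696435, 0, 0, 0, 0, 0, 0, 0, ⟨0, 0⟩, 0⟩ 0 0)))) (.pos 75 .pp ⟨0, 5789208456, 0, 0, 0, 0, 0, 0, 0, ⟨0, 0⟩,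 0⟩ 0 0)) (.void 76 ⟨90082, 0, 0, 9918, 0, 0, 0, 0, 0, ⟨0, 0⟩, 0⟩ 0 0))) (.pos 73 .pp ⟨0, 0, 0, 0, 0, 0, 0, 0, 0, ⟨0, 0⟩, 0⟩ 0 0)) (.void 103 ⟨0, 0, 0, 100000, 0, 0, 0, 0, 0, ⟨0, 0⟩, 0⟩ 0 0)))),
    by decide +kernel⟩

def covers26 : cell.Covers table row26.1 :=
  ⟨(.cut .d 0 (.cut .v 16777216 (.cut .v 8388608 (.pos 2 .mm ⟨0, 0, 167772160000, 0, 0, 0, 0, 0, 0, ⟨0, 0⟩, 0⟩ 0 0) (.cut .d (-8388608) (.void 3 ⟨99716, 0, 0, 0, 0, 0, 0, 0, 0, ⟨0, 0⟩, 0⟩ 0 0) (.cut .d (-4194304) (.void 3 ⟨100000, 0, 0, 0, 0, 0, 0, 0, 0, ⟨0, 0⟩, 0⟩ 0 0) (.cut .d (-2097152) (.void 3 ⟨100000, 0, 0, 0, 0, 0, 0, 0, 0, ⟨0, 0⟩, 0⟩ 0 0) (.cut .v 12582912 (.cut .d (-1048576) (.void 8 ⟨100000,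 0, 0, 0, 0, 0, 0, 0, 0, ⟨0, 0⟩, 0⟩ 0 0) (.cut .v 10485760 (.cut .d (-524288) (.void 10 ⟨100000, 0, 0, 0, 0, 0, 0, 0, 0, ⟨0, 0⟩, 0⟩ 0 0) (.cut .v 9437184 (.cut .d (-262144) (.void 87 ⟨0, 0, 0, 0, 0, 100000, 0, 0, 0, ⟨0, 0⟩, 0⟩ 0 0) (.cut .s 15400960 (.pos 87 .mm ⟨0, 0, 108538429, 0, 0, 1656095907, 0, 0, 0, ⟨0, 0⟩, 0⟩ 0 0) (.cut .s 15466496 (.pos 87 .mm ⟨0, 0, 135081105, 0, 0, 1751174028, 0, 0, 0, ⟨0, 0⟩, 0⟩ 0 0) (.pos 87 .mm ⟨0, 0, 151078708, 0, 0, 1859541006, 0, 0, 0, ⟨0, 0⟩, 0⟩ 0 0)))) (.pos 88 .mm ⟨0, 0, 0, 0, 0, 2427909535, 0, 0, 0, ⟨0, 0⟩, 0⟩ 0 0))) (.pos 11 .mm ⟨0, 0, 0, 0, 0, 3512648098, 0, 0, 0, ⟨0, 0⟩, 0⟩ 0 0))) (.pos 9 .mm ⟨0, 0, 0, 0, 0, 6283935172,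 0, 0, 0, ⟨0, 0⟩, 0⟩ 0 0)))))) (.cut .v 268435456 (.cut .v 67108864 (.cut .v 33554432 (.pos 30 .mp ⟨122203812, 0, 0, 0, 0, 54183078841, 0, 0, 0, ⟨0, 0⟩, 0⟩ 0 0) (.void 63 ⟨100000, 0, 0, 0, 0, 0, 0, 0, 0, ⟨0, 0⟩, 0⟩ 0 0)) (.void 74 ⟨100000, 0, 0, 0, 0, 0, 0, 0, 0, ⟨0, 0⟩, 0⟩ 0 0)) (.void 103 ⟨87180, 0, 0, 4864, 0, 0, 0, 0, 0, ⟨0, 0⟩, 0⟩ 0 0))) (.cut .v 16777216 (.cut .v 8388608 (.cut .v 4194304 (.cut .v 2097152 (.cut .v 1048576 (.cut .v 524288 (.cut .v 262144 (.cut .v 131072 (.pos 150 .pm ⟨0, 0, 20306658, 0, 0, 0, 0, 0, 0, ⟨0, 0⟩, 0⟩ 0 0) (.pos 151 .pm ⟨0, 0, 26728924, 0, 0, 0, 0, 0, 0, ⟨0, 0⟩, 0⟩ 0 0)) (.pos 147 .pm ⟨0, 0, 36575873, 0, 0, 0, 0, 0, 0, ⟨0, 0⟩,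 0⟩ 0 0)) (.pos 127 .pm ⟨0, 0, 54841927, 0, 0, 0, 0, 0, 0, ⟨0, 0⟩, 0⟩ 0 0)) (.pos 107 .pm ⟨0, 0, 83167335, 0, 0, 0, 0, 0, 0, ⟨0, 0⟩, 0⟩ 0 0)) (.pos 7 .pm ⟨0, 0, 129241252, 0, 0, 0, 0, 0, 0, ⟨0, 0⟩, 0⟩ 0 0)) (.pos 5 .pm ⟨0, 0, 256472421, 0, 0, 0, 0, 0, 0, ⟨0, 0⟩, 0⟩ 0 0)) (.pos 3 .pm ⟨0, 0, 85254724, 0, 0, 0, 0, 0, 0, ⟨0, 0⟩, 0⟩ 0 0)) (.cut .v 268435456 (.cut .d 828061 (.cut .v 67108864 (.cut .v 33554432 (.pos 30 .pp ⟨122203812, 0, 0, 0, 0, 0, 0, 0, 0, ⟨0, 0⟩, 0⟩ 0 0) (.cut .v 50331648 (.pos 64 .pp ⟨2864745862, 0, 0, 0, 0, 0, 0, 0, 0, ⟨0, 0⟩, 0⟩ 0 0) (.pos 65 .pp ⟨5530130096, 0, 0, 0, 0, 0, 0, 0, 0, ⟨0, 0⟩, 0⟩ 0 0))) (.cut .v 134217728 (.cut .d 414030 (.cut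 .d 207015 (.void 75 ⟨100000, 0, 0, 0, 0, 0, 0, 0, 0, ⟨0, 0⟩, 0⟩ 0 0) (.cut .v 100663296 (.pos 77 .pp ⟨13390823160, 0, 0, 0, 0, 0, 0, 0, 0, ⟨0, 0⟩, 0⟩ 0 0) (.cut .d 310522 (.pos 78 .pp ⟨31686489177, 7681387018, 0, 0, 0, 0, 0, 0, 0, ⟨0, 0⟩, 0⟩ 0 0) (.pos 78 .pp ⟨19970349146, 10097543509, 0, 0, 0, 0, 0, 0, 0, ⟨0, 0⟩, 0⟩ 0 0)))) (.pos 75 .pp ⟨0, 6801402479, 0, 0, 0, 0, 0, 0, 0, ⟨0, 0⟩, 0⟩ 0 0)) (.void 76 ⟨89960, 0, 0, 10040, 0, 0, 0, 0, 0, ⟨0, 0⟩, 0⟩ 0 0))) (.pos 73 .pp ⟨0, 0, 0, 0, 0, 0, 0, 0, 0, ⟨0, 0⟩, 0⟩ 0 0)) (.void 103 ⟨0, 0, 0, 100000, 0, 0, 0, 0, 0, ⟨0, 0⟩, 0⟩ 0 0)))),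
    by decide +kernel⟩

def covers27 : cell.Covers table row27.1 :=
  ⟨(.cut .d 0 (.cut .v 16777216 (.cut .v 8388608 (.pos 2 .mm ⟨0, 0, 167772160000, 0, 0, 0, 0, 0, 0, ⟨0, 0⟩, 0⟩ 0 0) (.cut .d (-8388608) (.void 3 ⟨134344, 0, 0, 0, 0, 0, 0, 0, 0, ⟨0, 0⟩, 0⟩ 0 0) (.cut .d (-4194304) (.void 3 ⟨100000, 0, 0, 0, 0, 0, 0, 0, 0, ⟨0, 0⟩, 0⟩ 0 0) (.cut .d (-2097152) (.void 3 ⟨100000, 0, 0, 0, 0, 0, 0, 0, 0, ⟨0, 0⟩, 0⟩ 0 0) (.cut .v 12582912 (.cut .d (-1048576) (.void 8 ⟨100000, 0, 0, 0, 0, 0, 0, 0, 0, ⟨0, 0⟩, 0⟩ 0 0) (.cut .v 10485760 (.cut .d (-524288) (.void 10 ⟨100000, 0, 0, 0, 0, 0, 0, 0, 0, ⟨0, 0⟩, 0⟩ 0 0) (.cut .v 9437184 (.cut .v 8912896 (.cut .d (-262144) (.void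 95 ⟨0, 0, 0, 0, 0, 100000, 0, 0, 0, ⟨0, 0⟩, 0⟩ 0 0) (.cut .d (-131072) (.void 95 ⟨0, 0, 0, 0, 0, 100000, 0, 0, 0, ⟨0, 0⟩, 0⟩ 0 0) (.cut .d (-65536) (.void 95 ⟨0, 0, 0, 0, 0, 100000, 0, 0, 0, ⟨0, 0⟩, 0⟩ 0 0) (.cut .s 15654912 (.pos 95 .mm ⟨0, 0, 171007317, 0, 0, 1795647305, 0, 0, 0, ⟨0, 0⟩, 0⟩ 0 0) (.cut .v 8650752 (.void 152 ⟨0, 0, 100000, 0, 0, 0, 0, 0, 0, ⟨0, 0⟩, 0⟩ 0 0) (.pos 153 .mm ⟨0, 0, 204476023, 0, 0, 2086251257, 0, 0, 0, ⟨0, 0⟩, 0⟩ 0 0)))))) (.pos 96 .mm ⟨0, 0, 0, 0, 0, 2916678741, 0, 0, 0, ⟨0, 0⟩, 0⟩ 0 0)) (.pos 88 .mm ⟨0, 0, 0, 0, 0, 3226676872, 0, 0, 0, ⟨0, 0⟩, 0⟩ 0 0))) (.pos 11 .mm ⟨0, 0, 0, 0, 0, 4683428284, 0, 0, 0, ⟨0, 0⟩, 0⟩ 0 0))) (.pos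 9 .mm ⟨0, 0, 0, 0, 0, 8411658639, 0, 0, 0, ⟨0, 0⟩, 0⟩ 0 0)))))) (.cut .d (-8388608) (.void 102 ⟨100000, 0, 0, 0, 0, 0, 0, 0, 0, ⟨0, 0⟩, 0⟩ 0 0) (.cut .v 268435456 (.cut .v 67108864 (.pos 62 .mp ⟨5265448525, 0, 0, 0, 0, 81498727836, 0, 0, 0, ⟨0, 0⟩, 0⟩ 0 0) (.void 74 ⟨100000, 0, 0, 0, 0, 0, 0, 0, 0, ⟨0, 0⟩, 0⟩ 0 0)) (.void 103 ⟨92338, 0, 0, 7662, 0, 0, 0, 0, 0, ⟨0, 0⟩, 0⟩ 0 0)))) (.cut .v 16777216 (.cut .v 8388608 (.cut .v 4194304 (.cut .v 2097152 (.cut .v 1048576 (.cut .v 524288 (.cut .v 262144 (.cut .v 131072 (.pos 150 .pm ⟨0, 0, 23699682, 0, 0, 0, 0, 0, 0, ⟨0, 0⟩, 0⟩ 0 0) (.pos 151 .pm ⟨0, 0, 37497720, 0, 0, 0, 0, 0, 0, ⟨0, 0⟩, 0⟩ 0 0)) (.pos 147 .pm ⟨0,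 0, 56043584, 0, 0, 0, 0, 0, 0, ⟨0, 0⟩, 0⟩ 0 0)) (.pos 127 .pm ⟨0, 0, 86686474, 0, 0, 0, 0, 0, 0, ⟨0, 0⟩, 0⟩ 0 0)) (.pos 107 .pm ⟨0, 0, 138119014, 0, 0, 0, 0, 0, 0, ⟨0, 0⟩, 0⟩ 0 0)) (.pos 7 .pm ⟨0, 0, 237252850, 0, 0, 0, 0, 0, 0, ⟨0, 0⟩, 0⟩ 0 0)) (.pos 5 .pm ⟨0, 0, 477131407, 0, 0, 0, 0, 0, 0, ⟨0, 0⟩, 0⟩ 0 0)) (.pos 3 .pm ⟨0, 0, 132842893, 0, 0, 0, 0, 0, 0, ⟨0, 0⟩, 0⟩ 0 0)) (.cut .v 268435456 (.cut .d 672505 (.cut .v 67108864 (.cut .v 33554432 (.pos 30 .pp ⟨0, 0, 0, 0, 0, 0, 0, 0, 0, ⟨0, 0⟩, 0⟩ 0 0) (.cut .v 50331648 (.pos 64 .pp ⟨3447904777, 0, 0, 0, 0, 0, 0, 0, 0, ⟨0, 0⟩, 0⟩ 0 0) (.pos 65 .pp ⟨6661169884, 0, 0, 0, 0, 0, 0, 0, 0, ⟨0, 0⟩, 0⟩ 0 0))) (.cut .v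 134217728 (.cut .d 336252 (.cut .v 100663296 (.pos 77 .pp ⟨18822968977, 0, 0, 0, 0, 0, 0, 0, 0, ⟨0, 0⟩, 0⟩ 0 0) (.cut .v 117440512 (.cut .v 109051904 (.pos 136 .pp ⟨25007599404, 2767124133, 0, 0, 0, 0, 0, 0, 0, ⟨0, 0⟩, 0⟩ 0 0) (.pos 137 .pp ⟨73543950641, 94228209359, 0, 0, 0, 0, 0, 0, 0, ⟨0, 0⟩, 0⟩ 0 0)) (.void 131 ⟨34486, 65514, 0, 0, 0, 0, 0, 0, 0, ⟨0, 0⟩, 0⟩ 0 0))) (.pos 75 .pp ⟨0, 8899617963, 0, 0, 0, 0, 0, 0, 0, ⟨0, 0⟩, 0⟩ 0 0)) (.void 76 ⟨89859, 0, 0, 10141, 0, 0, 0, 0, 0, ⟨0, 0⟩, 0⟩ 0 0))) (.pos 73 .pp ⟨0, 286343833, 0, 0, 0, 0, 0, 0, 0, ⟨0, 0⟩, 0⟩ 0 0)) (.void 103 ⟨0, 0, 0, 100000, 0, 0, 0, 0, 0, ⟨0, 0⟩, 0⟩ 0 0)))),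
    by decide +kernel⟩

def covers28 : cell.Covers table row28.1 :=
  ⟨(.cut .d 0 (.cut .v 16777216 (.cut .v 8388608 (.pos 2 .mm ⟨0, 0, 167772160000, 0, 0, 0, 0, 0, 0, ⟨0, 0⟩, 0⟩ 0 0) (.cut .d (-8388608) (.pos 3 .mm ⟨167772160000, 0, 0, 0, 0, 0, 0, 0, 0, ⟨0, 0⟩, 0⟩ 0 0) (.cut .d (-4194304) (.void 3 ⟨100000, 0, 0, 0, 0, 0, 0, 0, 0, ⟨0, 0⟩, 0⟩ 0 0) (.cut .d (-2097152) (.void 3 ⟨100000, 0, 0, 0, 0, 0, 0, 0, 0, ⟨0, 0⟩, 0⟩ 0 0) (.cut .v 12582912 (.cut .d (-1048576) (.void 8 ⟨100000, 0, 0, 0, 0, 0, 0, 0, 0, ⟨0, 0⟩, 0⟩ 0 0) (.cut .v 10485760 (.cut .d (-524288) (.void 10 ⟨100000, 0, 0, 0, 0, 0, 0, 0, 0, ⟨0, 0⟩, 0⟩ 0 0) (.cut .v 9437184 (.cut .v 8912896 (.cut .v 8650752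 (.void 152 ⟨0, 0, 100000, 0, 0, 0, 0, 0, 0, ⟨0, 0⟩, 0⟩ 0 0) (.cut .d (-262144) (.void 153 ⟨100000, 0, 0, 0, 0, 0, 0, 0, 0, ⟨0, 0⟩, 0⟩ 0 0) (.cut .d (-131072) (.void 153 ⟨0, 0, 0, 0, 0, 100000, 0, 0, 0, ⟨0, 0⟩, 0⟩ 0 0) (.cut .d (-65536) (.void 153 ⟨0, 0, 0, 0, 0, 100000, 0, 0, 0, ⟨0, 0⟩, 0⟩ 0 0) (.cut .s 15876096 (.cut .s 15826944 (.pos 153 .mm ⟨0, 0, 245375413, 0, 0, 2202765965, 0, 0, 0, ⟨0, 0⟩, 0⟩ 0 0) (.pos 153 .mm ⟨0, 0, 269181412, 0, 0, 2359952130, 0, 0, 0, ⟨0, 0⟩, 0⟩ 0 0)) (.pos 153 .mm ⟨0, 0, 297148029, 0, 0, 2761986838, 0, 0, 0, ⟨0, 0⟩, 0⟩ 0 0)))))) (.pos 96 .mm ⟨0, 0, 0, 0, 0, 3903107128, 0, 0, 0, ⟨0, 0⟩, 0⟩ 0 0)) (.pos 88 .mm ⟨0, 0, 0, 0, 0, 4318994937,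 0, 0, 0, ⟨0, 0⟩, 0⟩ 0 0))) (.pos 11 .mm ⟨0, 0, 0, 0, 0, 6263016369, 0, 0, 0, ⟨0, 0⟩, 0⟩ 0 0))) (.pos 9 .mm ⟨0, 0, 0, 0, 0, 11232258931, 0, 0, 0, ⟨0, 0⟩, 0⟩ 0 0)))))) (.cut .v 268435456 (.cut .v 67108864 (.cut .v 33554432 (.pos 30 .mp ⟨0, 0, 0, 0, 0, 99590508532, 0, 0, 0, ⟨0, 0⟩, 0⟩ 0 0) (.void 63 ⟨100000, 0, 0, 0, 0, 0, 0, 0, 0, ⟨0, 0⟩, 0⟩ 0 0)) (.void 74 ⟨100000, 0, 0, 0, 0, 0, 0, 0, 0, ⟨0, 0⟩, 0⟩ 0 0)) (.void 103 ⟨0, 0, 1919, 6140, 0, 105187, 0, 9519, 0, ⟨(-1), 5435286⟩, 0⟩ 0 303))) (.cut .v 16777216 (.cut .v 8388608 (.cut .v 4194304 (.cut .v 2097152 (.cut .v 1048576 (.cut .v 524288 (.cut .v 262144 (.cut .v 131072 (.pos 150 .pm ⟨0, 0, 29731229, 0, 0, 0,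 0, 0, 0, ⟨0, 0⟩, 0⟩ 0 0) (.pos 151 .pm ⟨0, 0, 53666801, 0, 0, 0, 0, 0, 0, ⟨0, 0⟩, 0⟩ 0 0)) (.pos 147 .pm ⟨0, 0, 83516353, 0, 0, 0, 0, 0, 0, ⟨0, 0⟩, 0⟩ 0 0)) (.pos 127 .pm ⟨0, 0, 136091923, 0, 0, 0, 0, 0, 0, ⟨0, 0⟩, 0⟩ 0 0)) (.pos 107 .pm ⟨0, 0, 231803370, 0, 0, 0, 0, 0, 0, ⟨0, 0⟩, 0⟩ 0 0)) (.pos 7 .pm ⟨0, 0, 403917675, 0, 0, 0, 0, 0, 0, ⟨0, 0⟩, 0⟩ 0 0)) (.pos 5 .pm ⟨0, 0, 836720399, 0, 0, 0, 0, 0, 0, ⟨0, 0⟩, 0⟩ 0 0)) (.cut .s 15876096 (.pos 3 .pm ⟨0, 0, 198349112, 0, 0, 0, 0, 0, 0, ⟨0, 0⟩, 0⟩ 0 0) (.pos 3 .pm ⟨0, 0, 243266064, 0, 0, 0, 0, 0, 0, ⟨0, 0⟩, 0⟩ 0 0))) (.cut .v 268435456 (.cut .v 67108864 (.cut .v 33554432 (.pos 30 .pp ⟨0, 0, 0, 0, 0, 0, 0, 0, 0,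 ⟨0, 0⟩, 0⟩ 0 0) (.cut .v 50331648 (.pos 64 .pp ⟨3225329870, 0, 0, 0, 0, 0, 0, 0, 0, ⟨0, 0⟩, 0⟩ 0 0) (.pos 65 .pp ⟨6142171025, 0, 0, 0, 0, 0, 0, 0, 0, ⟨0, 0⟩, 0⟩ 0 0))) (.cut .v 134217728 (.cut .d 531367 (.cut .d 265683 (.cut .v 100663296 (.pos 77 .pp ⟨23511317700, 0, 0, 0, 0, 0, 0, 0, 0, ⟨0, 0⟩, 0⟩ 0 0) (.cut .v 117440512 (.cut .v 109051904 (.pos 136 .pp ⟨31564535999, 5616963373, 0, 0, 0, 0, 0, 0, 0, ⟨0, 0⟩, 0⟩ 0 0) (.pos 137 .pp ⟨76526807564, 91245352436, 0, 0, 0, 0, 0, 0, 0, ⟨0, 0⟩, 0⟩ 0 0)) (.void 131 ⟨89877, 0, 0, 10123, 0, 0, 0, 0, 0, ⟨0, 0⟩, 0⟩ 0 0))) (.pos 75 .pp ⟨0, 12567628904, 0, 0, 0, 0, 0, 0, 0, ⟨0, 0⟩, 0⟩ 0 0)) (.pos 75 .pp ⟨0, 0, 0, 0, 0, 0,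 0, 0, 0, ⟨0, 0⟩, 0⟩ 0 0)) (.void 76 ⟨89641, 0, 0, 10359, 0, 0, 0, 0, 0, ⟨0, 0⟩, 0⟩ 0 0))) (.void 103 ⟨0, 0, 0, 100000, 0, 0, 0, 0, 0, ⟨0, 0⟩, 0⟩ 0 0)))),
    by decide +kernel⟩

def covers29 : cell.Covers table row29.1 :=
  ⟨(.cut .d 0 (.cut .v 16777216 (.cut .v 8388608 (.pos 2 .mm ⟨0, 0, 167772160000, 0, 0, 0, 0, 0, 0, ⟨0, 0⟩, 0⟩ 0 0) (.cut .d (-8388608) (.pos 3 .mm ⟨139630116030, 0, 0, 0, 0, 28142043970, 0, 0, 0, ⟨0, 0⟩, 0⟩ 0 0) (.cut .d (-4194304) (.void 3 ⟨100000, 0, 0, 0, 0, 0, 0, 0, 0, ⟨0, 0⟩, 0⟩ 0 0) (.cut .d (-2097152) (.void 3 ⟨100000, 0, 0, 0, 0, 0, 0, 0, 0, ⟨0, 0⟩, 0⟩ 0 0) (.cut .v 12582912 (.cut .v 10485760 (.cut .d (-1048576) (.void 10 ⟨100000,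 0, 0, 0, 0, 0, 0, 0, 0, ⟨0, 0⟩, 0⟩ 0 0) (.cut .d (-524288) (.void 10 ⟨100000, 0, 0, 0, 0, 0, 0, 0, 0, ⟨0, 0⟩, 0⟩ 0 0) (.cut .v 9437184 (.cut .v 8912896 (.cut .v 8650752 (.void 152 ⟨0, 0, 100000, 0, 0, 0, 0, 0, 0, ⟨0, 0⟩, 0⟩ 0 0) (.cut .d (-262144) (.void 153 ⟨100000, 0, 0, 0, 0, 0, 0, 0, 0, ⟨0, 0⟩, 0⟩ 0 0) (.cut .d (-131072) (.void 153 ⟨0, 0, 0, 0, 0, 100000, 0, 0, 0, ⟨0, 0⟩, 0⟩ 0 0) (.cut .d (-65536) (.void 153 ⟨0, 0, 0, 0, 0, 100000, 0, 0, 0, ⟨0, 0⟩, 0⟩ 0 0) (.cut .s 16056320 (.pos 153 .mm ⟨0, 0, 365479264, 0, 0, 3188077504, 0, 0, 0, ⟨0, 0⟩, 0⟩ 0 0) (.cut .s 16097280 (.pos 153 .mm ⟨0, 0, 445152383, 0, 0, 3432418889, 0, 0, 0, ⟨0, 0⟩, 0⟩ 0 0) (.pos 153 .mm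 ⟨0, 0, 494957485, 0, 0, 3736796310, 0, 0, 0, ⟨0, 0⟩, 0⟩ 0 0))))))) (.pos 96 .mm ⟨0, 0, 0, 0, 0, 5354139306, 0, 0, 0, ⟨0, 0⟩, 0⟩ 0 0)) (.pos 88 .mm ⟨0, 0, 0, 0, 0, 5926952634, 0, 0, 0, ⟨0, 0⟩, 0⟩ 0 0)))) (.pos 11 .mm ⟨0, 0, 0, 0, 0, 11320923509, 0, 0, 0, ⟨0, 0⟩, 0⟩ 0 0)) (.pos 9 .mm ⟨0, 0, 0, 0, 0, 15215781825, 0, 0, 0, ⟨0, 0⟩, 0⟩ 0 0)))))) (.cut .d (-8388608) (.void 102 ⟨100000, 0, 0, 0, 0, 0, 0, 0, 0, ⟨0, 0⟩, 0⟩ 0 0) (.cut .v 268435456 (.cut .v 67108864 (.pos 62 .mp ⟨6277361808, 0, 0, 0, 0, 147144133113, 0, 0, 0, ⟨0, 0⟩, 0⟩ 0 0) (.void 74 ⟨100000, 0, 0, 0, 0, 0, 0, 0, 0, ⟨0, 0⟩, 0⟩ 0 0)) (.void 103 ⟨92177, 0, 0, 7823, 0, 0, 0, 0, 0, ⟨0, 0⟩, 0⟩ 0 0)))) (.cut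 .v 16777216 (.cut .v 8388608 (.cut .v 4194304 (.cut .v 2097152 (.cut .v 1048576 (.cut .v 524288 (.cut .v 262144 (.cut .v 131072 (.cut .v 65536 (.pos 156 .pm ⟨0, 0, 27886041, 0, 0, 0, 0, 0, 0, ⟨0, 0⟩, 0⟩ 0 0) (.pos 157 .pm ⟨0, 0, 48566077, 0, 0, 0, 0, 0, 0, ⟨0, 0⟩, 0⟩ 0 0)) (.pos 151 .pm ⟨0, 0, 75460974, 0, 0, 0, 0, 0, 0, ⟨0, 0⟩, 0⟩ 0 0)) (.pos 147 .pm ⟨0, 0, 124061107, 0, 0, 0, 0, 0, 0, ⟨0, 0⟩, 0⟩ 0 0)) (.pos 127 .pm ⟨0, 0, 212257327, 0, 0, 0, 0, 0, 0, ⟨0, 0⟩, 0⟩ 0 0)) (.pos 107 .pm ⟨0, 0, 363404542, 0, 0, 0, 0, 0, 0, ⟨0, 0⟩, 0⟩ 0 0)) (.pos 7 .pm ⟨0, 0, 657283981, 0, 0, 0, 0, 0, 0, ⟨0, 0⟩, 0⟩ 0 0)) (.pos 5 .pm ⟨0, 0, 1366305582, 0, 0, 0, 0, 0, 0, ⟨0, 0⟩, 0⟩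 0 0)) (.cut .v 12582912 (.cut .s 16056320 (.pos 8 .pm ⟨0, 0, 345581773, 0, 0, 0, 0, 0, 0, ⟨0, 0⟩, 0⟩ 0 0) (.pos 8 .pm ⟨0, 0, 419778113, 0, 0, 0, 0, 0, 0, ⟨0, 0⟩, 0⟩ 0 0)) (.pos 9 .pm ⟨0, 0, 0, 0, 0, 0, 0, 0, 0, ⟨0, 0⟩, 0⟩ 0 0))) (.cut .v 268435456 (.cut .v 67108864 (.cut .v 33554432 (.pos 30 .pp ⟨0, 0, 0, 0, 0, 0, 0, 0, 0, ⟨0, 0⟩, 0⟩ 0 0) (.pos 63 .pp ⟨5267035637, 0, 0, 0, 0, 0, 0, 0, 0, ⟨0, 0⟩, 0⟩ 0 0)) (.cut .v 134217728 (.cut .d 421582 (.cut .d 210791 (.cut .v 100663296 (.pos 77 .pp ⟨30540242704, 0, 0, 0, 0, 0, 0, 0, 0, ⟨0, 0⟩, 0⟩ 0 0) (.cut .v 117440512 (.cut .v 109051904 (.pos 136 .pp ⟨35924182243, 0, 0, 0, 0, 0, 0, 0, 0, ⟨0, 0⟩, 0⟩ 0 0) (.pos 137 .pp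 ⟨64308306174, 54488641242, 0, 0, 0, 0, 0, 0, 0, ⟨0, 0⟩, 0⟩ 0 0)) (.void 131 ⟨89776, 0, 0, 10224, 0, 0, 0, 0, 0, ⟨0, 0⟩, 0⟩ 0 0))) (.pos 75 .pp ⟨0, 18405792148, 0, 0, 0, 0, 0, 0, 0, ⟨0, 0⟩, 0⟩ 0 0)) (.pos 75 .pp ⟨0, 0, 0, 0, 0, 0, 0, 0, 0, ⟨0, 0⟩, 0⟩ 0 0)) (.void 76 ⟨89605, 0, 0, 10395, 0, 0, 0, 0, 0, ⟨0, 0⟩, 0⟩ 0 0))) (.void 103 ⟨0, 0, 0, 100000, 0, 0, 0, 0, 0, ⟨0, 0⟩, 0⟩ 0 0)))),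
    by decide +kernel⟩

def covers30 : cell.Covers table row30.1 :=
  ⟨(.cut .d 0 (.cut .v 16777216 (.cut .v 8388608 (.pos 2 .mm ⟨0, 0, 167772160000, 0, 0, 0, 0, 0, 0, ⟨0, 0⟩, 0⟩ 0 0) (.cut .d (-8388608) (.void 3 ⟨99889, 0, 0, 0, 0, 0, 0, 0, 0, ⟨0, 0⟩, 0⟩ 0 0) (.cut .d (-4194304) (.void 3 ⟨100000, 0, 0, 0, 0, 0, 0, 0, 0, ⟨0, 0⟩, 0⟩ 0 0) (.cut .d (-2097152) (.void 3 ⟨100000, 0, 0, 0, 0, 0, 0, 0, 0, ⟨0, 0⟩, 0⟩ 0 0) (.cut .v 12582912 (.cut .d (-1048576) (.void 8 ⟨100000, 0, 0, 0, 0, 0, 0, 0, 0, ⟨0, 0⟩, 0⟩ 0 0) (.cut .v 10485760 (.cut .d (-524288) (.void 10 ⟨100000, 0, 0, 0, 0, 0, 0, 0, 0, ⟨0, 0⟩, 0⟩ 0 0) (.cut .s 16203776 (.cut .v 9437184 (.cut .d (-262144) (.void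 87 ⟨100000, 0, 0, 0, 0, 0, 0, 0, 0, ⟨0, 0⟩, 0⟩ 0 0) (.cut .v 8912896 (.cut .s 16171008 (.cut .d (-131072) (.void 95 ⟨0, 0, 0, 0, 0, 100000, 0, 0, 0, ⟨0, 0⟩, 0⟩ 0 0) (.cut .d (-65536) (.void 95 ⟨0, 0, 0, 0, 0, 100000, 0, 0, 0, ⟨0, 0⟩, 0⟩ 0 0) (.pos 95 .mm ⟨0, 0, 537660581, 0, 0, 3863443624, 0, 0, 0, ⟨0, 0⟩, 0⟩ 0 0))) (.pos 95 .mm ⟨0, 0, 601597618, 0, 0, 4736824351, 0, 0, 0, ⟨0, 0⟩, 0⟩ 0 0)) (.pos 96 .mm ⟨0, 0, 0, 0, 0, 5533999275, 0, 0, 0, ⟨0, 0⟩, 0⟩ 0 0))) (.pos 88 .mm ⟨0, 0, 0, 0, 0, 6874779291, 0, 0, 0, ⟨0, 0⟩, 0⟩ 0 0)) (.pos 10 .mm ⟨0, 0, 637999263, 0, 0, 7627157318, 0, 0, 0, ⟨0, 0⟩, 0⟩ 0 0))) (.pos 11 .mm ⟨0, 0, 0, 0, 0, 11724465510, 0, 0, 0, ⟨0, 0⟩, 0⟩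 0 0))) (.pos 9 .mm ⟨0, 0, 0, 0, 0, 20690891268, 0, 0, 0, ⟨0, 0⟩, 0⟩ 0 0)))))) (.cut .v 4294967296 (.cut .v 268435456 (.cut .v 67108864 (.cut .d (-8388608) (.void 62 ⟨100000, 0, 0, 0, 0, 0, 0, 0, 0, ⟨0, 0⟩, 0⟩ 0 0) (.pos 62 .mp ⟨83030718639, 0, 0, 0, 0, 84741441361, 0, 0, 0, ⟨0, 0⟩, 0⟩ 0 0)) (.void 74 ⟨100000, 0, 0, 0, 0, 0, 0, 0, 0, ⟨0, 0⟩, 0⟩ 0 0)) (.void 103 ⟨94604, 0, 0, 5396, 0, 0, 0, 0, 0, ⟨0, 0⟩, 0⟩ 0 0)) (.void 160 ⟨94604, 0, 0, 5396, 0, 0, 0, 0, 0, ⟨0, 0⟩, 0⟩ 0 0))) (.cut .v 16777216 (.cut .v 8388608 (.cut .v 4194304 (.cut .v 2097152 (.cut .v 1048576 (.cut .v 524288 (.cut .v 262144 (.cut .v 131072 (.cut .v 65536 (.pos 156 .pm ⟨0, 0, 35001574, 0, 0,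 0, 0, 0, 0, ⟨0, 0⟩, 0⟩ 0 0) (.pos 157 .pm ⟨0, 0, 65571233, 0, 0, 0, 0, 0, 0, ⟨0, 0⟩, 0⟩ 0 0)) (.pos 151 .pm ⟨0, 0, 107516045, 0, 0, 0, 0, 0, 0, ⟨0, 0⟩, 0⟩ 0 0)) (.pos 147 .pm ⟨0, 0, 184209908, 0, 0, 0, 0, 0, 0, ⟨0, 0⟩, 0⟩ 0 0)) (.pos 127 .pm ⟨0, 0, 315537351, 0, 0, 0, 0, 0, 0, ⟨0, 0⟩, 0⟩ 0 0)) (.pos 107 .pm ⟨0, 0, 552620415, 0, 0, 0, 0, 0, 0, ⟨0, 0⟩, 0⟩ 0 0)) (.pos 7 .pm ⟨0, 0, 1008019752, 0, 0, 0, 0, 0, 0, ⟨0, 0⟩, 0⟩ 0 0)) (.pos 5 .pm ⟨0, 0, 2175704449, 0, 0, 0, 0, 0, 0, ⟨0, 0⟩, 0⟩ 0 0)) (.pos 3 .pm ⟨0, 0, 427426840, 0, 0, 0, 0, 0, 0, ⟨0, 0⟩, 0⟩ 0 0)) (.cut .v 4294967296 (.cut .v 268435456 (.cut .v 67108864 (.cut .v 33554432 (.pos 30 .pp ⟨0, 0, 0, 0, 0, 0,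 0, 0, 0, ⟨0, 0⟩, 0⟩ 0 0) (.pos 63 .pp ⟨7379827258, 0, 0, 0, 0, 0, 0, 0, 0, ⟨0, 0⟩, 0⟩ 0 0)) (.cut .v 134217728 (.cut .d 332139 (.cut .d 166069 (.cut .v 100663296 (.pos 77 .pp ⟨40435885868, 0, 0, 0, 0, 0, 0, 0, 0, ⟨0, 0⟩, 0⟩ 0 0) (.cut .v 117440512 (.cut .d 83034 (.void 130 ⟨100000, 0, 0, 0, 0, 0, 0, 0, 0, ⟨0, 0⟩, 0⟩ 0 0) (.cut .l 796917 (.cut .l 513801 (.cut .l 372243 (.cut .v 109051904 (.cut .d 124551 (.pos 136 .pp ⟨46097033922, 0, 0, 0, 0, 0, 0, 0, 0, ⟨0, 0⟩, 0⟩ 0 0) (.pos 136 .pp ⟨38486456277, 0, 0, 0, 0, 0, 0, 0, 0, ⟨0, 0⟩, 0⟩ 0 0)) (.cut .d 124551 (.pos 137 .pp ⟨73463420738, 53404178820, 0, 0, 0, 0, 0, 0, 0, ⟨0, 0⟩, 0⟩ 0 0) (.pos 137 .pp ⟨60615966971,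 43115788399, 0, 0, 0, 0, 0, 0, 0, ⟨0, 0⟩, 0⟩ 0 0))) (.pos 130 .pp ⟨59053463594, 19371566597, 0, 0, 0, 0, 0, 0, 0, ⟨0, 0⟩, 0⟩ 0 0)) (.pos 130 .pp ⟨57074342341, 16695241470, 0, 0, 0, 0, 0, 0, 0, ⟨0, 0⟩, 0⟩ 0 0)) (.pos 130 .pp ⟨53126905576, 11343270703, 0, 0, 0, 0, 0, 0, 0, ⟨0, 0⟩, 0⟩ 0 0))) (.void 131 ⟨89714, 0, 0, 10286, 0, 0, 0, 0, 0, ⟨0, 0⟩, 0⟩ 0 0))) (.cut .v 100663296 (.pos 77 .pp ⟨0, 0, 0, 0, 0, 0, 0, 0, 0, ⟨0, 0⟩, 0⟩ 0 0) (.pos 78 .pp ⟨0, 42009608511, 0, 0, 0, 0, 0, 0, 0, ⟨0, 0⟩, 0⟩ 0 0))) (.pos 75 .pp ⟨0, 355467903, 0, 0, 0, 0, 0, 0, 0, ⟨0, 0⟩, 0⟩ 0 0)) (.void 76 ⟨89578, 0, 0, 10422, 0, 0, 0, 0, 0, ⟨0, 0⟩, 0⟩ 0 0))) (.void 103 ⟨0, 0, 0, 100000, 0, 0,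 0, 0, 0, ⟨0, 0⟩, 0⟩ 0 0)) (.void 160 ⟨0, 0, 0, 100000, 0, 0, 0, 0, 0, ⟨0, 0⟩, 0⟩ 0 0)))),
    by decide +kernel⟩

def covers31 : cell.Covers table row31.1 :=
  ⟨(.cut .d 0 (.cut .v 16777216 (.cut .v 8388608 (.pos 2 .mm ⟨0, 0, 167772160000, 0, 0, 0, 0, 0, 0, ⟨0, 0⟩, 0⟩ 0 0) (.cut .d (-8388608) (.void 3 ⟨1335, 0, 0, 3808, 0, 75864, 0, 19178, 0, ⟨(-1), 10239498⟩, 0⟩ 0 125) (.cut .d (-4194304) (.void 3 ⟨100000, 0, 0, 0, 0, 0, 0, 0, 0, ⟨0, 0⟩, 0⟩ 0 0) (.pos 3 .mm ⟨0, 0, 695393526, 0, 0, 39398297595, 0, 0, 0, ⟨0, 0⟩, 0⟩ 0 0)))) (.cut .v 4294967296 (.cut .d (-8388608) (.void 102 ⟨100000, 0, 0, 0, 0, 0, 0, 0, 0, ⟨0, 0⟩, 0⟩ 0 0) (.cut .v 268435456 (.cut .v 67108864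 (.cut .d (-4194304) (.void 62 ⟨100000, 0, 0, 0, 0, 0, 0, 0, 0, ⟨0, 0⟩, 0⟩ 0 0) (.pos 62 .mp ⟨7506789037, 0, 0, 0, 0, 156032862473, 0, 0, 0, ⟨0, 0⟩, 0⟩ 0 0)) (.void 74 ⟨100000, 0, 0, 0, 0, 0, 0, 0, 0, ⟨0, 0⟩, 0⟩ 0 0)) (.void 103 ⟨92074, 0, 0, 7926, 0, 0, 0, 0, 0, ⟨0, 0⟩, 0⟩ 0 0))) (.void 160 ⟨94573, 0, 0, 5427, 0, 0, 0, 0, 0, ⟨0, 0⟩, 0⟩ 0 0))) (.cut .v 16777216 (.cut .v 8388608 (.cut .v 4194304 (.cut .v 2097152 (.cut .v 1048576 (.cut .v 524288 (.cut .v 262144 (.cut .v 131072 (.cut .v 65536 (.pos 156 .pm ⟨0, 0, 41608047, 0, 0, 0, 0, 0, 0, ⟨0, 0⟩, 0⟩ 0 0) (.pos 157 .pm ⟨0, 0, 82815582, 0, 0, 0, 0, 0, 0, ⟨0, 0⟩, 0⟩ 0 0)) (.pos 151 .pm ⟨0, 0, 133376862, 0, 0, 0,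 0, 0, 0, ⟨0, 0⟩, 0⟩ 0 0)) (.pos 147 .pm ⟨0, 0, 214058875, 0, 0, 0, 0, 0, 0, ⟨0, 0⟩, 0⟩ 0 0)) (.pos 127 .pm ⟨0, 0, 368395921, 0, 0, 0, 0, 0, 0, ⟨0, 0⟩, 0⟩ 0 0)) (.pos 107 .pm ⟨0, 0, 673145805, 0, 0, 0, 0, 0, 0, ⟨0, 0⟩, 0⟩ 0 0)) (.pos 7 .pm ⟨0, 0, 1331943077, 0, 0, 0, 0, 0, 0, ⟨0, 0⟩, 0⟩ 0 0)) (.pos 5 .pm ⟨0, 0, 3382868156, 0, 0, 0, 0, 0, 0, ⟨0, 0⟩, 0⟩ 0 0)) (.pos 3 .pm ⟨0, 0, 695393526, 0, 0, 0, 0, 0, 0, ⟨0, 0⟩, 0⟩ 0 0)) (.cut .v 4294967296 (.cut .v 268435456 (.cut .v 67108864 (.pos 62 .pp ⟨4883862569, 0, 0, 0, 0, 0, 0, 0, 0, ⟨0, 0⟩, 0⟩ 0 0) (.cut .v 134217728 (.cut .d 261881 (.cut .v 100663296 (.cut .d 130940 (.pos 77 .pp ⟨42704971785, 0, 0, 0, 0, 0, 0, 0,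 0, ⟨0, 0⟩, 0⟩ 0 0) (.pos 77 .pp ⟨0, 0, 0, 0, 0, 0, 0, 0, 0, ⟨0, 0⟩, 0⟩ 0 0)) (.cut .d 130940 (.cut .v 117440512 (.cut .v 109051904 (.pos 136 .pp ⟨47370398958, 0, 0, 0, 0, 0, 0, 0, 0, ⟨0, 0⟩, 0⟩ 0 0) (.cut .d 65470 (.void 137 ⟨100000, 0, 0, 0, 0, 0, 0, 0, 0, ⟨0, 0⟩, 0⟩ 0 0) (.cut .d 98205 (.pos 137 .pp ⟨167154067808, 0, 0, 618092192, 0, 0, 0, 0, 0, ⟨0, 0⟩, 0⟩ 0 0) (.pos 137 .pp ⟨71068883132, 49482598493, 0, 0, 0, 0, 0, 0, 0, ⟨0, 0⟩, 0⟩ 0 0)))) (.void 131 ⟨89668, 0, 0, 10332, 0, 0, 0, 0, 0, ⟨0, 0⟩, 0⟩ 0 0)) (.pos 78 .pp ⟨0, 63181097979, 0, 0, 0, 0, 0, 0, 0, ⟨0, 0⟩, 0⟩ 0 0))) (.pos 75 .pp ⟨0, 7931705487, 0, 0, 0, 0, 0, 0, 0, ⟨0, 0⟩, 0⟩ 0 0)) (.void 76 ⟨89560,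 0, 0, 10440, 0, 0, 0, 0, 0, ⟨0, 0⟩, 0⟩ 0 0))) (.void 103 ⟨0, 0, 0, 100000, 0, 0, 0, 0, 0, ⟨0, 0⟩, 0⟩ 0 0)) (.void 160 ⟨0, 0, 0, 100000, 0, 0, 0, 0, 0, ⟨0, 0⟩, 0⟩ 0 0)))),
    by decide +kernel⟩

def covers32 : cell.Covers table row32.1 :=
  ⟨(.cut .d 0 (.cut .v 16777216 (.cut .v 8388608 (.pos 2 .mm ⟨0, 0, 167772160000, 0, 0, 0, 0, 0, 0, ⟨0, 0⟩, 0⟩ 0 0) (.pos 3 .mm ⟨0, 0, 2768942010, 0, 0, 147771410566, 0, 0, 0, ⟨0, 0⟩, 0⟩ 0 0)) (.cut .v 4294967296 (.cut .v 268435456 (.cut .v 67108864 (.cut .d (-8388608) (.void 62 ⟨100000, 0, 0, 0, 0, 0, 0, 0, 0, ⟨0, 0⟩, 0⟩ 0 0) (.cut .d (-4194304) (.void 62 ⟨100000, 0, 0, 0, 0, 0, 0, 0, 0, ⟨0, 0⟩, 0⟩ 0 0) (.pos 62 .mp ⟨76266123021,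 0, 0, 0, 0, 91506036979, 0, 0, 0, ⟨0, 0⟩, 0⟩ 0 0))) (.void 74 ⟨100000, 0, 0, 0, 0, 0, 0, 0, 0, ⟨0, 0⟩, 0⟩ 0 0)) (.void 103 ⟨94547, 0, 0, 5453, 0, 0, 0, 0, 0, ⟨0, 0⟩, 0⟩ 0 0)) (.void 160 ⟨94547, 0, 0, 5453, 0, 0, 0, 0, 0, ⟨0, 0⟩, 0⟩ 0 0))) (.cut .v 16777216 (.cut .v 8388608 (.cut .v 4194304 (.cut .v 2097152 (.cut .v 1048576 (.cut .v 524288 (.cut .v 262144 (.cut .v 131072 (.cut .v 65536 (.cut .v 32768 (.pos 163 .pm ⟨0, 0, 35898800, 0, 0, 0, 0, 0, 0, ⟨0, 0⟩, 0⟩ 0 0) (.pos 164 .pm ⟨0, 0, 69258489, 0, 0, 0, 0, 0, 0, ⟨0, 0⟩, 0⟩ 0 0)) (.pos 157 .pm ⟨0, 0, 115469265, 0, 0, 0, 0, 0, 0, ⟨0, 0⟩, 0⟩ 0 0)) (.pos 151 .pm ⟨0, 0, 198554582, 0, 0, 0, 0, 0, 0, ⟨0, 0⟩, 0⟩ 0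 0)) (.pos 147 .pm ⟨0, 0, 341361895, 0, 0, 0, 0, 0, 0, ⟨0, 0⟩, 0⟩ 0 0)) (.pos 127 .pm ⟨0, 0, 596232328, 0, 0, 0, 0, 0, 0, ⟨0, 0⟩, 0⟩ 0 0)) (.pos 107 .pm ⟨0, 0, 1040799241, 0, 0, 0, 0, 0, 0, ⟨0, 0⟩, 0⟩ 0 0)) (.pos 7 .pm ⟨0, 0, 1930900806, 0, 0, 0, 0, 0, 0, ⟨0, 0⟩, 0⟩ 0 0)) (.pos 5 .pm ⟨0, 0, 4054675906, 0, 0, 0, 0, 0, 0, ⟨0, 0⟩, 0⟩ 0 0)) (.pos 3 .pm ⟨0, 0, 2163593796, 0, 0, 0, 0, 0, 0, ⟨0, 0⟩, 0⟩ 0 0)) (.cut .v 4294967296 (.cut .v 268435456 (.cut .v 67108864 (.pos 62 .pp ⟨0, 0, 0, 0, 0, 0, 0, 0, 0, ⟨0, 0⟩, 0⟩ 0 0) (.cut .v 134217728 (.cut .v 100663296 (.pos 77 .pp ⟨38765538661, 0, 0, 0, 0, 0, 0, 0, 0, ⟨0, 0⟩, 0⟩ 0 0) (.cut .d 209926 (.cut .d 104963 (.pos 78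 .pp ⟨138923987771, 26545488250, 0, 2302683979, 0, 0, 0, 0, 0, ⟨0, 0⟩, 0⟩ 0 0) (.pos 78 .pp ⟨0, 75848521018, 0, 0, 0, 0, 0, 0, 0, ⟨0, 0⟩, 0⟩ 0 0)) (.void 78 ⟨0, 0, 0, 100000, 0, 0, 0, 0, 0, ⟨0, 0⟩, 0⟩ 0 0))) (.void 76 ⟨89542, 0, 0, 10458, 0, 0, 0, 0, 0, ⟨0, 0⟩, 0⟩ 0 0))) (.void 103 ⟨0, 0, 0, 100000, 0, 0, 0, 0, 0, ⟨0, 0⟩, 0⟩ 0 0)) (.void 160 ⟨0, 0, 0, 100000, 0, 0, 0, 0, 0, ⟨0, 0⟩, 0⟩ 0 0)))),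
    by decide +kernel⟩

def covers33 : cell.Covers table row33.1 :=
  ⟨(.cut .d 0 (.cut .v 16777216 (.cut .d (-8388608) (.void 1 ⟨0, 0, 0, 0, 0, 99843, 0, 0, 0, ⟨0, 0⟩, 0⟩ 0 0) (.cut .v 8388608 (.pos 2 .mm ⟨0, 0, 167772160000, 0, 0, 0, 0, 0, 0, ⟨0, 0⟩, 0⟩ 0 0) (.pos 3 .mm ⟨0, 0, 3023644117, 0, 0, 110348900312, 0, 0, 0, ⟨0, 0⟩, 0⟩ 0 0))) (.cut .v 4294967296 (.cut .v 268435456 (.cut .v 67108864 (.cut .d (-8388608) (.void 62 ⟨100000, 0, 0, 0, 0, 0, 0, 0, 0, ⟨0, 0⟩, 0⟩ 0 0) (.cut .v 33554432 (.pos 30 .mp ⟨124994719892, 0, 0, 0, 0, 42777440108, 0, 0, 0, ⟨0, 0⟩, 0⟩ 0 0) (.void 63 ⟨100000, 0, 0, 0, 0, 0, 0, 0, 0, ⟨0, 0⟩, 0⟩ 0 0))) (.void 74 ⟨100000, 0, 0, 0, 0, 0,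 0, 0, 0, ⟨0, 0⟩, 0⟩ 0 0)) (.void 103 ⟨94526, 0, 0, 5474, 0, 0, 0, 0, 0, ⟨0, 0⟩, 0⟩ 0 0)) (.void 160 ⟨94527, 0, 0, 5473, 0, 0, 0, 0, 0, ⟨0, 0⟩, 0⟩ 0 0))) (.cut .v 16777216 (.cut .v 8388608 (.cut .v 4194304 (.cut .v 2097152 (.cut .v 1048576 (.cut .v 524288 (.cut .v 262144 (.cut .v 131072 (.cut .v 65536 (.cut .v 32768 (.pos 163 .pm ⟨0, 0, 37870486, 0, 0, 0, 0, 0, 0, ⟨0, 0⟩, 0⟩ 0 0) (.pos 164 .pm ⟨0, 0, 75079268, 0, 0, 0, 0, 0, 0, ⟨0, 0⟩, 0⟩ 0 0)) (.pos 157 .pm ⟨0, 0, 125451247, 0, 0, 0, 0, 0, 0, ⟨0, 0⟩, 0⟩ 0 0)) (.pos 151 .pm ⟨0, 0, 217024676, 0, 0, 0, 0, 0, 0, ⟨0, 0⟩, 0⟩ 0 0)) (.pos 147 .pm ⟨0, 0, 382914902, 0, 0, 0, 0, 0, 0, ⟨0, 0⟩, 0⟩ 0 0)) (.pos 127 .pm ⟨0,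 0, 685950689, 0, 0, 0, 0, 0, 0, ⟨0, 0⟩, 0⟩ 0 0)) (.pos 107 .pm ⟨0, 0, 1262069167, 0, 0, 0, 0, 0, 0, ⟨0, 0⟩, 0⟩ 0 0)) (.pos 7 .pm ⟨0, 0, 2500492247, 0, 0, 0, 0, 0, 0, ⟨0, 0⟩, 0⟩ 0 0)) (.pos 5 .pm ⟨0, 0, 6321151616, 0, 0, 0, 0, 0, 0, ⟨0, 0⟩, 0⟩ 0 0)) (.pos 3 .pm ⟨0, 0, 3023644117, 0, 0, 0, 0, 0, 0, ⟨0, 0⟩, 0⟩ 0 0)) (.cut .v 4294967296 (.cut .v 268435456 (.cut .v 67108864 (.pos 62 .pp ⟨0, 0, 0, 0, 0, 0, 0, 0, 0, ⟨0, 0⟩, 0⟩ 0 0) (.cut .v 134217728 (.cut .v 100663296 (.pos 77 .pp ⟨51705391091, 0, 0, 0, 0, 0, 0, 0, 0, ⟨0, 0⟩, 0⟩ 0 0) (.pos 78 .pp ⟨144008448009, 15967040934, 0, 7796671057, 0, 0, 0, 0, 0, ⟨0, 0⟩, 0⟩ 0 0)) (.void 76 ⟨89529, 0, 0, 10471, 0, 0, 0, 0,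 0, ⟨0, 0⟩, 0⟩ 0 0))) (.void 103 ⟨0, 0, 0, 100000, 0, 0, 0, 0, 0, ⟨0, 0⟩, 0⟩ 0 0)) (.void 160 ⟨0, 0, 0, 100000, 0, 0, 0, 0, 0, ⟨0, 0⟩, 0⟩ 0 0)))),
    by decide +kernel⟩

def covers34 : cell.Covers table row34.1 :=
  ⟨(.cut .d 0 (.cut .v 16777216 (.cut .d (-8388608) (.void 1 ⟨0, 0, 0, 0, 0, 100000, 0, 0, 0, ⟨0, 0⟩, 0⟩ 0 0) (.cut .v 8388608 (.pos 2 .mm ⟨0, 0, 167772160000, 0, 0, 0, 0, 0, 0, ⟨0, 0⟩, 0⟩ 0 0) (.pos 3 .mm ⟨0, 0, 11594744217, 0, 0, 135687431752, 0, 0, 0, ⟨0, 0⟩, 0⟩ 0 0))) (.cut .v 4294967296 (.cut .d (-8388608) (.void 102 ⟨100000, 0, 0, 0, 0, 0, 0, 0, 0, ⟨0, 0⟩, 0⟩ 0 0) (.cut .v 268435456 (.cut .v 67108864 (.cut .v 33554432 (.cut .d (-4194304) (.void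 30 ⟨100000, 0, 0, 0, 0, 0, 0, 0, 0, ⟨0, 0⟩, 0⟩ 0 0) (.pos 30 .mp ⟨31731705444, 0, 0, 0, 0, 136040454556, 0, 0, 0, ⟨0, 0⟩, 0⟩ 0 0)) (.void 63 ⟨100000, 0, 0, 0, 0, 0, 0, 0, 0, ⟨0, 0⟩, 0⟩ 0 0)) (.void 74 ⟨100000, 0, 0, 0, 0, 0, 0, 0, 0, ⟨0, 0⟩, 0⟩ 0 0)) (.void 103 ⟨91987, 0, 0, 8013, 0, 0, 0, 0, 0, ⟨0, 0⟩, 0⟩ 0 0))) (.void 160 ⟨94511, 0, 0, 5489, 0, 0, 0, 0, 0, ⟨0, 0⟩, 0⟩ 0 0))) (.cut .v 16777216 (.cut .v 8388608 (.cut .v 4194304 (.cut .v 2097152 (.cut .v 1048576 (.cut .v 524288 (.cut .v 262144 (.cut .v 131072 (.cut .v 65536 (.cut .v 32768 (.pos 163 .pm ⟨0, 0, 47458909, 0, 0, 0, 0, 0, 0, ⟨0, 0⟩, 0⟩ 0 0) (.pos 164 .pm ⟨0, 0, 96217998, 0, 0, 0, 0, 0, 0, ⟨0, 0⟩,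 0⟩ 0 0)) (.pos 157 .pm ⟨0, 0, 162736007, 0, 0, 0, 0, 0, 0, ⟨0, 0⟩, 0⟩ 0 0)) (.pos 151 .pm ⟨0, 0, 294067940, 0, 0, 0, 0, 0, 0, ⟨0, 0⟩, 0⟩ 0 0)) (.pos 147 .pm ⟨0, 0, 552563011, 0, 0, 0, 0, 0, 0, ⟨0, 0⟩, 0⟩ 0 0)) (.pos 127 .pm ⟨0, 0, 1057226046, 0, 0, 0, 0, 0, 0, ⟨0, 0⟩, 0⟩ 0 0)) (.pos 107 .pm ⟨0, 0, 2032807512, 0, 0, 0, 0, 0, 0, ⟨0, 0⟩, 0⟩ 0 0)) (.pos 7 .pm ⟨0, 0, 3884542877, 0, 0, 0, 0, 0, 0, ⟨0, 0⟩, 0⟩ 0 0)) (.pos 5 .pm ⟨0, 0, 7283301955, 0, 0, 0, 0, 0, 0, ⟨0, 0⟩, 0⟩ 0 0)) (.pos 3 .pm ⟨0, 0, 11594744217, 0, 0, 0, 0, 0, 0, ⟨0, 0⟩, 0⟩ 0 0)) (.cut .v 4294967296 (.cut .v 268435456 (.cut .v 67108864 (.pos 62 .pp ⟨0, 0, 0, 0, 0, 0, 0, 0, 0, ⟨0, 0⟩, 0⟩ 0 0) (.cut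 .v 134217728 (.pos 75 .pp ⟨100183985278, 67079050752, 0, 509123970, 0, 0, 0, 0, 0, ⟨0, 0⟩, 0⟩ 0 0) (.void 76 ⟨89519, 0, 0, 10481, 0, 0, 0, 0, 0, ⟨0, 0⟩, 0⟩ 0 0))) (.void 103 ⟨0, 0, 0, 100000, 0, 0, 0, 0, 0, ⟨0, 0⟩, 0⟩ 0 0)) (.void 160 ⟨0, 0, 0, 100000, 0, 0, 0, 0, 0, ⟨0, 0⟩, 0⟩ 0 0)))),
    by decide +kernel⟩

def covers35 : cell.Covers table row35.1 :=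
  ⟨(.cut .d 0 (.cut .v 16777216 (.cut .d (-8388608) (.void 1 ⟨0, 0, 0, 0, 0, 100000, 0, 0, 0, ⟨0, 0⟩, 0⟩ 0 0) (.cut .v 8388608 (.void 2 ⟨0, 0, 100000, 0, 0, 0, 0, 0, 0, ⟨0, 0⟩, 0⟩ 0 0) (.cut .v 12582912 (.pos 8 .mm ⟨0, 0, 16214042292, 0, 0, 137067506870, 0, 0, 0, ⟨0, 0⟩, 0⟩ 0 0) (.pos 9 .mm ⟨75187021887, 0, 0, 0, 0, 92585138113, 0, 0, 0, ⟨0, 0⟩, 0⟩ 0 0)))) (.cut .v 4294967296 (.cut .v 268435456 (.cut .v 67108864 (.cut .d (-8388608) (.void 62 ⟨100000, 0, 0, 0, 0, 0, 0, 0, 0, ⟨0, 0⟩, 0⟩ 0 0) (.cut .d (-4194304) (.void 62 ⟨100000, 0, 0, 0, 0, 0, 0, 0, 0, ⟨0, 0⟩, 0⟩ 0 0) (.cut .v 33554432 (.pos 30 .mp ⟨140556127087, 0, 0, 0, 0, 27216032913, 0, 0, 0, ⟨0, 0⟩, 0⟩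 0 0) (.void 63 ⟨100000, 0, 0, 0, 0, 0, 0, 0, 0, ⟨0, 0⟩, 0⟩ 0 0)))) (.void 74 ⟨100000, 0, 0, 0, 0, 0, 0, 0, 0, ⟨0, 0⟩, 0⟩ 0 0)) (.void 103 ⟨94495, 0, 0, 5505, 0, 0, 0, 0, 0, ⟨0, 0⟩, 0⟩ 0 0)) (.void 160 ⟨94496, 0, 0, 5504, 0, 0, 0, 0, 0, ⟨0, 0⟩, 0⟩ 0 0))) (.cut .v 16777216 (.cut .v 8388608 (.cut .v 4194304 (.cut .v 2097152 (.cut .v 1048576 (.cut .v 524288 (.cut .v 262144 (.cut .v 131072 (.cut .v 65536 (.cut .v 32768 (.cut .v 16384 (.pos 165 .pm ⟨0, 0, 41698027, 0, 0, 0, 0, 0, 0, ⟨0, 0⟩, 0⟩ 0 0) (.pos 166 .pm ⟨0, 0, 85016419, 0, 0, 0, 0, 0, 0, ⟨0, 0⟩, 0⟩ 0 0)) (.pos 164 .pm ⟨0, 0, 137297191, 0, 0, 0, 0, 0, 0, ⟨0, 0⟩, 0⟩ 0 0)) (.pos 157 .pm ⟨0, 0, 239091244, 0,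 0, 0, 0, 0, 0, ⟨0, 0⟩, 0⟩ 0 0)) (.pos 151 .pm ⟨0, 0, 441859540, 0, 0, 0, 0, 0, 0, ⟨0, 0⟩, 0⟩ 0 0)) (.pos 147 .pm ⟨0, 0, 837109742, 0, 0, 0, 0, 0, 0, ⟨0, 0⟩, 0⟩ 0 0)) (.pos 127 .pm ⟨0, 0, 1603978802, 0, 0, 0, 0, 0, 0, ⟨0, 0⟩, 0⟩ 0 0)) (.pos 107 .pm ⟨0, 0, 3072477002, 0, 0, 0, 0, 0, 0, ⟨0, 0⟩, 0⟩ 0 0)) (.pos 7 .pm ⟨0, 0, 5817247144, 0, 0, 0, 0, 0, 0, ⟨0, 0⟩, 0⟩ 0 0)) (.pos 5 .pm ⟨0, 0, 10726997837, 0, 0, 0, 0, 0, 0, ⟨0, 0⟩, 0⟩ 0 0)) (.pos 3 .pm ⟨0, 0, 15923239463, 0, 0, 0, 0, 0, 0, ⟨0, 0⟩, 0⟩ 0 0)) (.cut .v 4294967296 (.cut .v 268435456 (.cut .v 67108864 (.pos 62 .pp ⟨0, 0, 0, 0, 0, 0, 0, 0, 0, ⟨0, 0⟩, 0⟩ 0 0) (.cut .v 134217728 (.pos 75 .pp ⟨155982560392, 3944758307,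 0, 7844841301, 0, 0, 0, 0, 0, ⟨0, 0⟩, 0⟩ 0 0) (.pos 76 .pp ⟨101911073308, 0, 0, 65861086692, 0, 0, 0, 0, 0, ⟨0, 0⟩, 0⟩ 0 0))) (.void 103 ⟨0, 0, 0, 100000, 0, 0, 0, 0, 0, ⟨0, 0⟩, 0⟩ 0 0)) (.void 160 ⟨0, 0, 0, 100000, 0, 0, 0, 0, 0, ⟨0, 0⟩, 0⟩ 0 0)))),
    by decide +kernel⟩

def covers36 : cell.Covers table row36.1 :=
  ⟨(.cut .d 0 (.cut .v 16777216 (.cut .d (-8388608) (.void 1 ⟨0, 0, 0, 0, 0, 50852, 0, 46491, 0, ⟨(-1), 10111240⟩, 0⟩ 0 127) (.cut .d (-4194304) (.void 1 ⟨0, 0, 0, 0, 0, 1000000000, 0, 0, 0, ⟨0, 0⟩, 0⟩ 0 0) (.cut .v 8388608 (.void 2 ⟨0, 0, 100000, 0, 0, 0, 0, 0, 0, ⟨0, 0⟩, 0⟩ 0 0) (.pos 3 .mm ⟨21289243509, 0, 27825080364, 0, 0, 118657836127, 0,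 0, 0, ⟨0, 0⟩, 0⟩ 0 0)))) (.cut .v 4294967296 (.cut .d (-8388608) (.void 102 ⟨1000000000, 0, 0, 0, 0, 0, 0, 0, 0, ⟨0, 0⟩, 0⟩ 0 0) (.cut .v 268435456 (.cut .v 67108864 (.cut .d (-4194304) (.void 62 ⟨1000000000, 0, 0, 0, 0, 0, 0, 0, 0, ⟨0, 0⟩, 0⟩ 0 0) (.cut .v 33554432 (.cut .d (-2097152) (.void 30 ⟨1000000000, 0, 0, 0, 0, 0, 0, 0, 0, ⟨0, 0⟩, 0⟩ 0 0) (.pos 30 .mp ⟨126951460131, 0, 0, 0, 0, 40820699869, 0, 0, 0, ⟨0, 0⟩, 0⟩ 0 0)) (.void 63 ⟨756689668, 0, 0, 0, 0, 243310332, 0, 0, 0, ⟨0, 0⟩, 0⟩ 0 0))) (.void 74 ⟨756689668, 0, 0, 0, 0, 243310332, 0, 0, 0, ⟨0, 0⟩, 0⟩ 0 0)) (.void 103 ⟨756689668, 0, 0, 0, 0, 243310332, 0, 0, 0, ⟨0, 0⟩, 0⟩ 0 0))) (.void 160 ⟨94485,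 0, 0, 5515, 0, 0, 0, 0, 0, ⟨0, 0⟩, 0⟩ 0 0))) (.cut .v 16777216 (.cut .v 8388608 (.cut .v 4194304 (.cut .v 2097152 (.cut .v 1048576 (.cut .v 524288 (.cut .v 262144 (.cut .v 131072 (.cut .v 65536 (.cut .v 32768 (.cut .v 16384 (.pos 165 .pm ⟨0, 0, 54009996, 0, 0, 0, 0, 0, 0, ⟨0, 0⟩, 0⟩ 0 0) (.pos 166 .pm ⟨0, 0, 116955715, 0, 0, 0, 0, 0, 0, ⟨0, 0⟩, 0⟩ 0 0)) (.pos 164 .pm ⟨0, 0, 196499795, 0, 0, 0, 0, 0, 0, ⟨0, 0⟩, 0⟩ 0 0)) (.pos 157 .pm ⟨0, 0, 351666932, 0, 0, 0, 0, 0, 0, ⟨0, 0⟩, 0⟩ 0 0)) (.pos 151 .pm ⟨0, 0, 656266706, 0, 0, 0, 0, 0, 0, ⟨0, 0⟩, 0⟩ 0 0)) (.pos 147 .pm ⟨0, 0, 1264830511, 0, 0, 0, 0, 0, 0, ⟨0, 0⟩, 0⟩ 0 0)) (.pos 127 .pm ⟨0, 0, 2452607800, 0, 0,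 0, 0, 0, 0, ⟨0, 0⟩, 0⟩ 0 0)) (.pos 107 .pm ⟨0, 0, 4745652303, 0, 0, 0, 0, 0, 0, ⟨0, 0⟩, 0⟩ 0 0)) (.pos 7 .pm ⟨0, 0, 9082884082, 0, 0, 0, 0, 0, 0, ⟨0, 0⟩, 0⟩ 0 0)) (.pos 5 .pm ⟨0, 0, 16983244547, 0, 0, 0, 0, 0, 0, ⟨0, 0⟩, 0⟩ 0 0)) (.pos 3 .pm ⟨0, 0, 23383961321, 0, 0, 0, 0, 0, 0, ⟨0, 0⟩, 0⟩ 0 0)) (.cut .v 4294967296 (.cut .v 268435456 (.cut .v 67108864 (.pos 62 .pp ⟨0, 0, 0, 0, 0, 0, 0, 0, 0, ⟨0, 0⟩, 0⟩ 0 0) (.cut .v 134217728 (.pos 75 .pp ⟨167772160000, 0, 0, 0, 0, 0, 0, 0, 0, ⟨0, 0⟩, 0⟩ 0 0) (.void 76 ⟨89351, 0, 0, 10649, 0, 0, 0, 0, 0, ⟨0, 0⟩, 0⟩ 0 0))) (.void 103 ⟨0, 0, 0, 100000, 0, 0, 0, 0, 0, ⟨0, 0⟩, 0⟩ 0 0)) (.void 160 ⟨0, 0, 0, 100000, 0, 0, 0, 0,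 0, ⟨0, 0⟩, 0⟩ 0 0)))),
    by decide +kernel⟩

def covers37 : cell.Covers table row37.1 :=
  ⟨(.cut .d 0 (.cut .v 16777216 (.cut .v 8388608 (.void 2 ⟨0, 0, 100000, 0, 0, 0, 0, 0, 0, ⟨0, 0⟩, 0⟩ 0 0) (.cut .d (-8388608) (.void 3 ⟨0, 0, 0, 0, 0, 1000000000, 0, 0, 0, ⟨0, 0⟩, 0⟩ 0 0) (.cut .d (-4194304) (.void 3 ⟨1000000000, 0, 0, 0, 0, 0, 0, 0, 0, ⟨0, 0⟩, 0⟩ 0 0) (.pos 3 .mm ⟨64953361510, 0, 45723022457, 0, 0, 57095776033, 0, 0, 0, ⟨0, 0⟩, 0⟩ 0 0)))) (.cut .v 4294967296 (.cut .d (-8388608) (.void 102 ⟨1000000000, 0, 0, 0, 0, 0, 0, 0, 0, ⟨0, 0⟩, 0⟩ 0 0) (.cut .v 268435456 (.cut .v 67108864 (.cut .d (-4194304) (.void 62 ⟨1000000000, 0, 0, 0, 0, 0, 0, 0, 0, ⟨0, 0⟩,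 0⟩ 0 0) (.cut .v 33554432 (.cut .d (-2097152) (.void 30 ⟨1000000000, 0, 0, 0, 0, 0, 0, 0, 0, ⟨0, 0⟩, 0⟩ 0 0) (.cut .d (-1048576) (.void 30 ⟨1000000000, 0, 0, 0, 0, 0, 0, 0, 0, ⟨0, 0⟩, 0⟩ 0 0) (.pos 30 .mp ⟨87420816043, 0, 0, 0, 0, 80351343957, 0, 0, 0, ⟨0, 0⟩, 0⟩ 0 0))) (.void 63 ⟨521068669, 0, 0, 0, 0, 478931331, 0, 0, 0, ⟨0, 0⟩, 0⟩ 0 0))) (.void 74 ⟨521068669, 0, 0, 0, 0, 478931331, 0, 0, 0, ⟨0, 0⟩, 0⟩ 0 0)) (.void 103 ⟨521068669, 0, 0, 0, 0, 478931331, 0, 0, 0, ⟨0, 0⟩, 0⟩ 0 0))) (.void 160 ⟨94405, 0, 0, 5595, 0, 0, 0, 0, 0, ⟨0, 0⟩, 0⟩ 0 0))) (.cut .v 16777216 (.cut .v 8388608 (.cut .v 4194304 (.cut .v 2097152 (.cut .v 1048576 (.cut .v 524288 (.cut .v 262144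 (.cut .v 131072 (.cut .v 65536 (.cut .v 32768 (.cut .v 16384 (.pos 165 .pm ⟨0, 0, 56320223, 0, 0, 0, 0, 0, 0, ⟨0, 0⟩, 0⟩ 0 0) (.pos 166 .pm ⟨0, 0, 121856828, 0, 0, 0, 0, 0, 0, ⟨0, 0⟩, 0⟩ 0 0)) (.pos 164 .pm ⟨0, 0, 210796079, 0, 0, 0, 0, 0, 0, ⟨0, 0⟩, 0⟩ 0 0)) (.pos 157 .pm ⟨0, 0, 385419084, 0, 0, 0, 0, 0, 0, ⟨0, 0⟩, 0⟩ 0 0)) (.pos 151 .pm ⟨0, 0, 744272940, 0, 0, 0, 0, 0, 0, ⟨0, 0⟩, 0⟩ 0 0)) (.pos 147 .pm ⟨0, 0, 1473168298, 0, 0, 0, 0, 0, 0, ⟨0, 0⟩, 0⟩ 0 0)) (.pos 127 .pm ⟨0, 0, 2931228305, 0, 0, 0, 0, 0, 0, ⟨0, 0⟩, 0⟩ 0 0)) (.pos 107 .pm ⟨0, 0, 5848425489, 0, 0, 0, 0, 0, 0, ⟨0, 0⟩, 0⟩ 0 0)) (.pos 7 .pm ⟨0, 0, 11687128534, 0, 0, 0, 0, 0, 0, ⟨0, 0⟩, 0⟩ 0 0))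 (.pos 5 .pm ⟨0, 0, 23381769337, 0, 0, 0, 0, 0, 0, ⟨0, 0⟩, 0⟩ 0 0)) (.pos 3 .pm ⟨0, 0, 32151892417, 0, 0, 0, 0, 0, 0, ⟨0, 0⟩, 0⟩ 0 0)) (.cut .v 4294967296 (.cut .v 268435456 (.cut .v 67108864 (.pos 62 .pp ⟨0, 0, 0, 0, 0, 0, 0, 0, 0, ⟨0, 0⟩, 0⟩ 0 0) (.cut .v 134217728 (.pos 75 .pp ⟨167772160000, 0, 0, 0, 0, 0, 0, 0, 0, ⟨0, 0⟩, 0⟩ 0 0) (.void 76 ⟨89403, 0, 0, 10597, 0, 0, 0, 0, 0, ⟨0, 0⟩, 0⟩ 0 0))) (.void 103 ⟨0, 0, 0, 100000, 0, 0, 0, 0, 0, ⟨0, 0⟩, 0⟩ 0 0)) (.void 160 ⟨0, 0, 0, 100000, 0, 0, 0, 0, 0, ⟨0, 0⟩, 0⟩ 0 0)))),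
    by decide +kernel⟩

def covers38 : cell.Covers table row38.1 :=
  ⟨(.cut .d 0 (.cut .v 16777216 (.cut .d (-8388608) (.void 1 ⟨0, 0, 0, 0, 0, 1000000000, 0, 0, 0, ⟨0, 0⟩, 0⟩ 0 0) (.cut .v 8388608 (.cut .d (-4194304) (.void 2 ⟨0, 0, 1000000000, 0, 0, 0, 0, 0, 0, ⟨0, 0⟩, 0⟩ 0 0) (.void 2 ⟨0, 0, 1000000000, 0, 0, 0, 0, 0, 0, ⟨0, 0⟩, 0⟩ 0 0)) (.cut .d (-4194304) (.void 3 ⟨1000000000, 0, 0, 0, 0, 0, 0, 0, 0, ⟨0, 0⟩, 0⟩ 0 0) (.cut .d (-2097152) (.void 3 ⟨1000000000, 0, 0, 0, 0, 0, 0, 0, 0, ⟨0, 0⟩, 0⟩ 0 0) (.pos 3 .mm ⟨121523318081, 0, 46248841919, 0, 0, 0, 0, 0, 0, ⟨0, 0⟩, 0⟩ 0 0))))) (.cut .v 4294967296 (.cut .d (-8388608) (.void 102 ⟨1000000000, 0, 0, 0, 0,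 0, 0, 0, 0, ⟨0, 0⟩, 0⟩ 0 0) (.cut .v 268435456 (.cut .v 67108864 (.cut .d (-4194304) (.void 62 ⟨1000000000, 0, 0, 0, 0, 0, 0, 0, 0, ⟨0, 0⟩, 0⟩ 0 0) (.cut .d (-2097152) (.void 62 ⟨1000000000, 0, 0, 0, 0, 0, 0, 0, 0, ⟨0, 0⟩, 0⟩ 0 0) (.cut .v 33554432 (.cut .d (-1048576) (.void 30 ⟨1000000000, 0, 0, 0, 0, 0, 0, 0, 0, ⟨0, 0⟩, 0⟩ 0 0) (.cut .v 25165824 (.cut .d (-524288) (.void 31 ⟨1000000000, 0, 0, 0, 0, 0, 0, 0, 0, ⟨0, 0⟩, 0⟩ 0 0) (.pos 31 .mp ⟨147263776287, 0, 0, 0, 0, 20508383713, 0, 0, 0, ⟨0, 0⟩, 0⟩ 0 0)) (.void 32 ⟨877760507, 0, 0, 0, 0, 122239493, 0, 0, 0, ⟨0, 0⟩, 0⟩ 0 0))) (.void 63 ⟨877760507, 0, 0, 0, 0, 122239493, 0, 0, 0, ⟨0, 0⟩, 0⟩ 0 0)))) (.void 74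 ⟨877760507, 0, 0, 0, 0, 122239493, 0, 0, 0, ⟨0, 0⟩, 0⟩ 0 0)) (.void 103 ⟨877760507, 0, 0, 0, 0, 122239493, 0, 0, 0, ⟨0, 0⟩, 0⟩ 0 0))) (.void 160 ⟨877760507, 0, 0, 0, 0, 122239493, 0, 0, 0, ⟨0, 0⟩, 0⟩ 0 0))) (.cut .v 16777216 (.cut .v 8388608 (.cut .v 4194304 (.cut .v 2097152 (.cut .v 1048576 (.cut .v 524288 (.cut .v 262144 (.cut .v 131072 (.cut .v 65536 (.cut .v 32768 (.pos 163 .pm ⟨0, 0, 111773709, 0, 0, 0, 0, 0, 0, ⟨0, 0⟩, 0⟩ 0 0) (.pos 164 .pm ⟨0, 0, 354316356, 0, 0, 0, 0, 0, 0, ⟨0, 0⟩, 0⟩ 0 0)) (.pos 157 .pm ⟨0, 0, 679057727, 0, 0, 0, 0, 0, 0, ⟨0, 0⟩, 0⟩ 0 0)) (.pos 151 .pm ⟨0, 0, 1315659326, 0, 0, 0, 0, 0, 0, ⟨0, 0⟩, 0⟩ 0 0)) (.pos 147 .pm ⟨0, 0, 2535771537,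 0, 0, 0, 0, 0, 0, ⟨0, 0⟩, 0⟩ 0 0)) (.pos 127 .pm ⟨0, 0, 4885982523, 0, 0, 0, 0, 0, 0, ⟨0, 0⟩, 0⟩ 0 0)) (.pos 107 .pm ⟨0, 0, 9333849111, 0, 0, 0, 0, 0, 0, ⟨0, 0⟩, 0⟩ 0 0)) (.pos 7 .pm ⟨0, 0, 17482707341, 0, 0, 0, 0, 0, 0, ⟨0, 0⟩, 0⟩ 0 0)) (.pos 5 .pm ⟨0, 0, 31569433780, 0, 0, 0, 0, 0, 0, ⟨0, 0⟩, 0⟩ 0 0)) (.pos 3 .pm ⟨0, 0, 58111697149, 0, 0, 0, 0, 0, 0, ⟨0, 0⟩, 0⟩ 0 0)) (.cut .v 4294967296 (.cut .v 268435456 (.pos 73 .pp ⟨143246705753, 15499735022, 0, 9025719225, 0, 0, 0, 0, 0, ⟨0, 0⟩, 0⟩ 0 0) (.void 103 ⟨853816901, 92385620, 0, 53797479, 0, 0, 0, 0, 0, ⟨0, 0⟩, 0⟩ 0 0)) (.void 160 ⟨853816901, 92385620, 0, 53797479, 0, 0, 0, 0, 0, ⟨0, 0⟩, 0⟩ 0 0)))),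
    by decide +kernel⟩

def covers39 : cell.Covers table row39.1 :=
  ⟨(.cut .d 0 (.cut .v 16777216 (.cut .d (-8388608) (.void 1 ⟨0, 0, 100000, 0, 0, 0, 0, 0, 0, ⟨0, 0⟩, 0⟩ 0 0) (.cut .d (-4194304) (.void 1 ⟨0, 0, 100000, 0, 0, 0, 0, 0, 0, ⟨0, 0⟩, 0⟩ 0 0) (.cut .d (-2097152) (.void 1 ⟨0, 0, 100000, 0, 0, 0, 0, 0, 0, ⟨0, 0⟩, 0⟩ 0 0) (.cut .v 8388608 (.void 2 ⟨0, 0, 100000, 0, 0, 0, 0, 0, 0, ⟨0, 0⟩, 0⟩ 0 0) (.cut .d (-1048576) (.void 3 ⟨1000000000, 0, 0, 0, 0, 0, 0, 0, 0, ⟨0, 0⟩, 0⟩ 0 0) (.pos 3 .mm ⟨164225163515, 0, 3546996485, 0, 0, 0, 0, 0, 0, ⟨0, 0⟩, 0⟩ 0 0)))))) (.cut .v 4294967296 (.cut .d (-8388608) (.void 102 ⟨1000000000, 0, 0, 0, 0, 0, 0, 0, 0, ⟨0,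 0⟩, 0⟩ 0 0) (.cut .v 268435456 (.cut .v 67108864 (.cut .d (-4194304) (.void 62 ⟨1000000000, 0, 0, 0, 0, 0, 0, 0, 0, ⟨0, 0⟩, 0⟩ 0 0) (.cut .d (-2097152) (.void 62 ⟨1000000000, 0, 0, 0, 0, 0, 0, 0, 0, ⟨0, 0⟩, 0⟩ 0 0) (.cut .v 33554432 (.cut .d (-1048576) (.void 30 ⟨1000000000, 0, 0, 0, 0, 0, 0, 0, 0, ⟨0, 0⟩, 0⟩ 0 0) (.cut .d (-524288) (.void 30 ⟨1000000000, 0, 0, 0, 0, 0, 0, 0, 0, ⟨0, 0⟩, 0⟩ 0 0) (.cut .d (-262144) (.void 30 ⟨1000000000, 0, 0, 0, 0, 0, 0, 0, 0, ⟨0, 0⟩, 0⟩ 0 0) (.cut .d (-131072) (.void 30 ⟨1000000000, 0, 0, 0, 0, 0, 0, 0, 0, ⟨0, 0⟩, 0⟩ 0 0) (.pos 30 .mp ⟨128960032811, 0, 0, 0, 0, 38812127189, 0, 0, 0, ⟨0, 0⟩, 0⟩ 0 0))))) (.void 63 ⟨768661695,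 0, 0, 0, 0, 231338305, 0, 0, 0, ⟨0, 0⟩, 0⟩ 0 0)))) (.void 74 ⟨768661695, 0, 0, 0, 0, 231338305, 0, 0, 0, ⟨0, 0⟩, 0⟩ 0 0)) (.void 103 ⟨768661695, 0, 0, 0, 0, 231338305, 0, 0, 0, ⟨0, 0⟩, 0⟩ 0 0))) (.void 160 ⟨94392, 0, 0, 5608, 0, 0, 0, 0, 0, ⟨0, 0⟩, 0⟩ 0 0))) (.cut .v 16777216 (.cut .v 8388608 (.cut .d 41162 (.cut .l 796917 (.cut .l 513801 (.cut .l 372243 (.cut .l 301464 (.cut .l 266075 (.cut .l 248380 (.cut .l 239533 (.cut .l 235109 (.cut .l 232897 (.pos 2 .pm ⟨0, 0, 167772160000, 0, 0, 0, 0, 0, 0, ⟨0, 0⟩, 0⟩ 0 0) (.pos 2 .pm ⟨0, 0, 167772160000, 0, 0, 0, 0, 0, 0, ⟨0, 0⟩, 0⟩ 0 0)) (.cut .l 237321 (.pos 2 .pm ⟨0, 0, 167772160000, 0, 0, 0, 0, 0, 0, ⟨0, 0⟩, 0⟩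 0 0) (.pos 2 .pm ⟨0, 0, 167772160000, 0, 0, 0, 0, 0, 0, ⟨0, 0⟩, 0⟩ 0 0))) (.cut .l 243956 (.cut .l 241744 (.pos 2 .pm ⟨0, 0, 167772160000, 0, 0, 0, 0, 0, 0, ⟨0, 0⟩, 0⟩ 0 0) (.pos 2 .pm ⟨0, 0, 167772160000, 0, 0, 0, 0, 0, 0, ⟨0, 0⟩, 0⟩ 0 0)) (.cut .l 246168 (.pos 2 .pm ⟨0, 0, 167772160000, 0, 0, 0, 0, 0, 0, ⟨0, 0⟩, 0⟩ 0 0) (.pos 2 .pm ⟨0, 0, 167772160000, 0, 0, 0, 0, 0, 0, ⟨0, 0⟩, 0⟩ 0 0)))) (.cut .l 257227 (.cut .l 252803 (.cut .l 250591 (.pos 2 .pm ⟨0, 0, 167772160000, 0, 0, 0, 0, 0, 0, ⟨0, 0⟩, 0⟩ 0 0) (.pos 2 .pm ⟨0, 0, 167772160000, 0, 0, 0, 0, 0, 0, ⟨0, 0⟩, 0⟩ 0 0)) (.cut .l 255015 (.pos 2 .pm ⟨0, 0, 167772160000, 0, 0, 0, 0, 0, 0, ⟨0, 0⟩, 0⟩ 0 0) (.pos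 2 .pm ⟨0, 0, 167772160000, 0, 0, 0, 0, 0, 0, ⟨0, 0⟩, 0⟩ 0 0))) (.cut .l 261651 (.cut .l 259439 (.pos 2 .pm ⟨0, 0, 167772160000, 0, 0, 0, 0, 0, 0, ⟨0, 0⟩, 0⟩ 0 0) (.pos 2 .pm ⟨0, 0, 167772160000, 0, 0, 0, 0, 0, 0, ⟨0, 0⟩, 0⟩ 0 0)) (.cut .l 263863 (.pos 2 .pm ⟨0, 0, 167772160000, 0, 0, 0, 0, 0, 0, ⟨0, 0⟩, 0⟩ 0 0) (.pos 2 .pm ⟨0, 0, 167772160000, 0, 0, 0, 0, 0, 0, ⟨0, 0⟩, 0⟩ 0 0))))) (.cut .l 283769 (.cut .l 274922 (.cut .l 270498 (.cut .l 268286 (.pos 2 .pm ⟨0, 0, 167772160000, 0, 0, 0, 0, 0, 0, ⟨0, 0⟩, 0⟩ 0 0) (.pos 2 .pm ⟨0, 0, 167772160000, 0, 0, 0, 0, 0, 0, ⟨0, 0⟩, 0⟩ 0 0)) (.cut .l 272710 (.pos 2 .pm ⟨0, 0, 167772160000, 0, 0, 0, 0, 0, 0, ⟨0, 0⟩, 0⟩ 0 0)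 (.pos 2 .pm ⟨0, 0, 167772160000, 0, 0, 0, 0, 0, 0, ⟨0, 0⟩, 0⟩ 0 0))) (.cut .l 279345 (.cut .l 277133 (.pos 2 .pm ⟨0, 0, 167772160000, 0, 0, 0, 0, 0, 0, ⟨0, 0⟩, 0⟩ 0 0) (.pos 2 .pm ⟨0, 0, 167772160000, 0, 0, 0, 0, 0, 0, ⟨0, 0⟩, 0⟩ 0 0)) (.cut .l 281557 (.pos 2 .pm ⟨0, 0, 167772160000, 0, 0, 0, 0, 0, 0, ⟨0, 0⟩, 0⟩ 0 0) (.pos 2 .pm ⟨0, 0, 167772160000, 0, 0, 0, 0, 0, 0, ⟨0, 0⟩, 0⟩ 0 0)))) (.cut .l 292616 (.cut .l 288192 (.cut .l 285980 (.pos 2 .pm ⟨0, 0, 167772160000, 0, 0, 0, 0, 0, 0, ⟨0, 0⟩, 0⟩ 0 0) (.pos 2 .pm ⟨0, 0, 167772160000, 0, 0, 0, 0, 0, 0, ⟨0, 0⟩, 0⟩ 0 0)) (.cut .l 290404 (.pos 2 .pm ⟨0, 0, 167772160000, 0, 0, 0, 0, 0, 0, ⟨0, 0⟩, 0⟩ 0 0) (.pos 2 .pm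 ⟨0, 0, 167772160000, 0, 0, 0, 0, 0, 0, ⟨0, 0⟩, 0⟩ 0 0))) (.cut .l 297040 (.cut .l 294828 (.pos 2 .pm ⟨0, 0, 167772160000, 0, 0, 0, 0, 0, 0, ⟨0, 0⟩, 0⟩ 0 0) (.pos 2 .pm ⟨0, 0, 167772160000, 0, 0, 0, 0, 0, 0, ⟨0, 0⟩, 0⟩ 0 0)) (.cut .l 299252 (.pos 2 .pm ⟨0, 0, 167772160000, 0, 0, 0, 0, 0, 0, ⟨0, 0⟩, 0⟩ 0 0) (.pos 2 .pm ⟨0, 0, 167772160000, 0, 0, 0, 0, 0, 0, ⟨0, 0⟩, 0⟩ 0 0)))))) (.cut .l 336853 (.cut .l 319158 (.cut .l 310311 (.cut .l 305887 (.cut .l 303675 (.pos 2 .pm ⟨0, 0, 167772160000, 0, 0, 0, 0, 0, 0, ⟨0, 0⟩, 0⟩ 0 0) (.pos 2 .pm ⟨0, 0, 167772160000, 0, 0, 0, 0, 0, 0, ⟨0, 0⟩, 0⟩ 0 0)) (.cut .l 308099 (.pos 2 .pm ⟨0, 0, 167772160000, 0, 0, 0, 0, 0, 0, ⟨0,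 0⟩, 0⟩ 0 0) (.pos 2 .pm ⟨0, 0, 167772160000, 0, 0, 0, 0, 0, 0, ⟨0, 0⟩, 0⟩ 0 0))) (.cut .l 314734 (.cut .l 312522 (.pos 2 .pm ⟨0, 0, 167772160000, 0, 0, 0, 0, 0, 0, ⟨0, 0⟩, 0⟩ 0 0) (.pos 2 .pm ⟨0, 0, 167772160000, 0, 0, 0, 0, 0, 0, ⟨0, 0⟩, 0⟩ 0 0)) (.cut .l 316946 (.pos 2 .pm ⟨0, 0, 167772160000, 0, 0, 0, 0, 0, 0, ⟨0, 0⟩, 0⟩ 0 0) (.pos 2 .pm ⟨0, 0, 167772160000, 0, 0, 0, 0, 0, 0, ⟨0, 0⟩, 0⟩ 0 0)))) (.cut .l 328005 (.cut .l 323581 (.cut .l 321369 (.pos 2 .pm ⟨0, 0, 167772160000, 0, 0, 0, 0, 0, 0, ⟨0, 0⟩, 0⟩ 0 0) (.pos 2 .pm ⟨0, 0, 167772160000, 0, 0, 0, 0, 0, 0, ⟨0, 0⟩, 0⟩ 0 0)) (.cut .l 325793 (.pos 2 .pm ⟨0, 0, 167772160000, 0, 0, 0, 0, 0, 0, ⟨0, 0⟩, 0⟩ 0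 0) (.pos 2 .pm ⟨0, 0, 167772160000, 0, 0, 0, 0, 0, 0, ⟨0, 0⟩, 0⟩ 0 0))) (.cut .l 332429 (.cut .l 330217 (.pos 2 .pm ⟨0, 0, 167772160000, 0, 0, 0, 0, 0, 0, ⟨0, 0⟩, 0⟩ 0 0) (.pos 2 .pm ⟨0, 0, 167772160000, 0, 0, 0, 0, 0, 0, ⟨0, 0⟩, 0⟩ 0 0)) (.cut .l 334641 (.pos 2 .pm ⟨0, 0, 167772160000, 0, 0, 0, 0, 0, 0, ⟨0, 0⟩, 0⟩ 0 0) (.pos 2 .pm ⟨0, 0, 167772160000, 0, 0, 0, 0, 0, 0, ⟨0, 0⟩, 0⟩ 0 0))))) (.cut .l 354548 (.cut .l 345700 (.cut .l 341276 (.cut .l 339064 (.pos 2 .pm ⟨0, 0, 167772160000, 0, 0, 0, 0, 0, 0, ⟨0, 0⟩, 0⟩ 0 0) (.pos 2 .pm ⟨0, 0, 167772160000, 0, 0, 0, 0, 0, 0, ⟨0, 0⟩, 0⟩ 0 0)) (.cut .l 343488 (.pos 2 .pm ⟨0, 0, 167772160000, 0, 0, 0, 0, 0, 0, ⟨0, 0⟩,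 0⟩ 0 0) (.pos 2 .pm ⟨0, 0, 167772160000, 0, 0, 0, 0, 0, 0, ⟨0, 0⟩, 0⟩ 0 0))) (.cut .l 350124 (.cut .s 16703488 (.pos 2 .pm ⟨0, 0, 167772160000, 0, 0, 0, 0, 0, 0, ⟨0, 0⟩, 0⟩ 0 0) (.pos 2 .pm ⟨0, 0, 167772160000, 0, 0, 0, 0, 0, 0, ⟨0, 0⟩, 0⟩ 0 0)) (.cut .l 352336 (.cut .v 4194304 (.pos 4 .pm ⟨0, 0, 167772160000, 0, 0, 0, 0, 0, 0, ⟨0, 0⟩, 0⟩ 0 0) (.pos 5 .pm ⟨0, 0, 167772160000, 0, 0, 0, 0, 0, 0, ⟨0, 0⟩, 0⟩ 0 0)) (.cut .v 4194304 (.pos 4 .pm ⟨0, 0, 167772160000, 0, 0, 0, 0, 0, 0, ⟨0, 0⟩, 0⟩ 0 0) (.pos 5 .pm ⟨0, 0, 167772160000, 0, 0, 0, 0, 0, 0, ⟨0, 0⟩, 0⟩ 0 0))))) (.cut .l 363395 (.cut .l 358971 (.cut .l 356759 (.cut .v 4194304 (.pos 4 .pm ⟨0, 0, 167772160000,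 0, 0, 0, 0, 0, 0, ⟨0, 0⟩, 0⟩ 0 0) (.pos 5 .pm ⟨0, 0, 167772160000, 0, 0, 0, 0, 0, 0, ⟨0, 0⟩, 0⟩ 0 0)) (.cut .v 4194304 (.pos 4 .pm ⟨0, 0, 167772160000, 0, 0, 0, 0, 0, 0, ⟨0, 0⟩, 0⟩ 0 0) (.pos 5 .pm ⟨0, 0, 167772160000, 0, 0, 0, 0, 0, 0, ⟨0, 0⟩, 0⟩ 0 0))) (.cut .l 361183 (.cut .v 4194304 (.pos 4 .pm ⟨0, 0, 167772160000, 0, 0, 0, 0, 0, 0, ⟨0, 0⟩, 0⟩ 0 0) (.pos 5 .pm ⟨0, 0, 167772160000, 0, 0, 0, 0, 0, 0, ⟨0, 0⟩, 0⟩ 0 0)) (.cut .v 4194304 (.pos 4 .pm ⟨0, 0, 167772160000, 0, 0, 0, 0, 0, 0, ⟨0, 0⟩, 0⟩ 0 0) (.pos 5 .pm ⟨0, 0, 167772160000, 0, 0, 0, 0, 0, 0, ⟨0, 0⟩, 0⟩ 0 0)))) (.cut .l 367819 (.cut .l 365607 (.cut .v 4194304 (.pos 4 .pm ⟨0, 0, 167772160000, 0, 0,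 0, 0, 0, 0, ⟨0, 0⟩, 0⟩ 0 0) (.pos 5 .pm ⟨0, 0, 167772160000, 0, 0, 0, 0, 0, 0, ⟨0, 0⟩, 0⟩ 0 0)) (.cut .v 4194304 (.pos 4 .pm ⟨0, 0, 167772160000, 0, 0, 0, 0, 0, 0, ⟨0, 0⟩, 0⟩ 0 0) (.pos 5 .pm ⟨0, 0, 167772160000, 0, 0, 0, 0, 0, 0, ⟨0, 0⟩, 0⟩ 0 0))) (.cut .l 370031 (.cut .v 4194304 (.pos 4 .pm ⟨0, 0, 167772160000, 0, 0, 0, 0, 0, 0, ⟨0, 0⟩, 0⟩ 0 0) (.pos 5 .pm ⟨0, 0, 167772160000, 0, 0, 0, 0, 0, 0, ⟨0, 0⟩, 0⟩ 0 0)) (.cut .v 4194304 (.pos 4 .pm ⟨0, 0, 167772160000, 0, 0, 0, 0, 0, 0, ⟨0, 0⟩, 0⟩ 0 0) (.pos 5 .pm ⟨0, 0, 167772160000, 0, 0, 0, 0, 0, 0, ⟨0, 0⟩, 0⟩ 0 0)))))))) (.cut .l 443022 (.cut .l 407632 (.cut .l 389937 (.cut .l 381090 (.cut .l 376666 (.cut .l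 374454 (.cut .v 4194304 (.pos 4 .pm ⟨0, 0, 167772160000, 0, 0, 0, 0, 0, 0, ⟨0, 0⟩, 0⟩ 0 0) (.pos 5 .pm ⟨0, 0, 167772160000, 0, 0, 0, 0, 0, 0, ⟨0, 0⟩, 0⟩ 0 0)) (.cut .v 4194304 (.pos 4 .pm ⟨0, 0, 167772160000, 0, 0, 0, 0, 0, 0, ⟨0, 0⟩, 0⟩ 0 0) (.pos 5 .pm ⟨0, 0, 167772160000, 0, 0, 0, 0, 0, 0, ⟨0, 0⟩, 0⟩ 0 0))) (.cut .l 378878 (.cut .v 4194304 (.pos 4 .pm ⟨0, 0, 167772160000, 0, 0, 0, 0, 0, 0, ⟨0, 0⟩, 0⟩ 0 0) (.pos 5 .pm ⟨0, 0, 167772160000, 0, 0, 0, 0, 0, 0, ⟨0, 0⟩, 0⟩ 0 0)) (.cut .v 4194304 (.pos 4 .pm ⟨0, 0, 167772160000, 0, 0, 0, 0, 0, 0, ⟨0, 0⟩, 0⟩ 0 0) (.pos 5 .pm ⟨0, 0, 167772160000, 0, 0, 0, 0, 0, 0, ⟨0, 0⟩, 0⟩ 0 0)))) (.cut .l 385513 (.cut .l 383301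 (.cut .v 4194304 (.pos 4 .pm ⟨0, 0, 167772160000, 0, 0, 0, 0, 0, 0, ⟨0, 0⟩, 0⟩ 0 0) (.pos 5 .pm ⟨0, 0, 167772160000, 0, 0, 0, 0, 0, 0, ⟨0, 0⟩, 0⟩ 0 0)) (.cut .v 4194304 (.pos 4 .pm ⟨0, 0, 167772160000, 0, 0, 0, 0, 0, 0, ⟨0, 0⟩, 0⟩ 0 0) (.pos 5 .pm ⟨0, 0, 167772160000, 0, 0, 0, 0, 0, 0, ⟨0, 0⟩, 0⟩ 0 0))) (.cut .l 387725 (.cut .v 4194304 (.pos 4 .pm ⟨0, 0, 167772160000, 0, 0, 0, 0, 0, 0, ⟨0, 0⟩, 0⟩ 0 0) (.pos 5 .pm ⟨0, 0, 167772160000, 0, 0, 0, 0, 0, 0, ⟨0, 0⟩, 0⟩ 0 0)) (.cut .v 4194304 (.pos 4 .pm ⟨0, 0, 167772160000, 0, 0, 0, 0, 0, 0, ⟨0, 0⟩, 0⟩ 0 0) (.pos 5 .pm ⟨0, 0, 167772160000, 0, 0, 0, 0, 0, 0, ⟨0, 0⟩, 0⟩ 0 0))))) (.cut .l 398784 (.cut .l 394360 (.cut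 .l 392148 (.cut .v 4194304 (.pos 4 .pm ⟨0, 0, 167772160000, 0, 0, 0, 0, 0, 0, ⟨0, 0⟩, 0⟩ 0 0) (.pos 5 .pm ⟨0, 0, 167772160000, 0, 0, 0, 0, 0, 0, ⟨0, 0⟩, 0⟩ 0 0)) (.cut .v 4194304 (.pos 4 .pm ⟨0, 0, 167772160000, 0, 0, 0, 0, 0, 0, ⟨0, 0⟩, 0⟩ 0 0) (.pos 5 .pm ⟨0, 0, 167772160000, 0, 0, 0, 0, 0, 0, ⟨0, 0⟩, 0⟩ 0 0))) (.cut .l 396572 (.cut .v 4194304 (.pos 4 .pm ⟨0, 0, 167772160000, 0, 0, 0, 0, 0, 0, ⟨0, 0⟩, 0⟩ 0 0) (.pos 5 .pm ⟨0, 0, 167772160000, 0, 0, 0, 0, 0, 0, ⟨0, 0⟩, 0⟩ 0 0)) (.cut .v 4194304 (.pos 4 .pm ⟨0, 0, 167772160000, 0, 0, 0, 0, 0, 0, ⟨0, 0⟩, 0⟩ 0 0) (.pos 5 .pm ⟨0, 0, 167772160000, 0, 0, 0, 0, 0, 0, ⟨0, 0⟩, 0⟩ 0 0)))) (.cut .l 403208 (.cut .l 400996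 (.cut .v 4194304 (.pos 4 .pm ⟨0, 0, 167772160000, 0, 0, 0, 0, 0, 0, ⟨0, 0⟩, 0⟩ 0 0) (.pos 5 .pm ⟨0, 0, 167772160000, 0, 0, 0, 0, 0, 0, ⟨0, 0⟩, 0⟩ 0 0)) (.cut .v 4194304 (.pos 4 .pm ⟨0, 0, 167772160000, 0, 0, 0, 0, 0, 0, ⟨0, 0⟩, 0⟩ 0 0) (.pos 5 .pm ⟨0, 0, 167772160000, 0, 0, 0, 0, 0, 0, ⟨0, 0⟩, 0⟩ 0 0))) (.cut .l 405420 (.cut .v 4194304 (.pos 4 .pm ⟨0, 0, 167772160000, 0, 0, 0, 0, 0, 0, ⟨0, 0⟩, 0⟩ 0 0) (.pos 5 .pm ⟨0, 0, 167772160000, 0, 0, 0, 0, 0, 0, ⟨0, 0⟩, 0⟩ 0 0)) (.cut .v 4194304 (.pos 4 .pm ⟨0, 0, 167772160000, 0, 0, 0, 0, 0, 0, ⟨0, 0⟩, 0⟩ 0 0) (.pos 5 .pm ⟨0, 0, 167772160000, 0, 0, 0, 0, 0, 0, ⟨0, 0⟩, 0⟩ 0 0)))))) (.cut .l 425327 (.cut .l 416479 (.cut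 .l 412055 (.cut .l 409843 (.cut .v 4194304 (.pos 4 .pm ⟨0, 0, 167772160000, 0, 0, 0, 0, 0, 0, ⟨0, 0⟩, 0⟩ 0 0) (.pos 5 .pm ⟨0, 0, 167772160000, 0, 0, 0, 0, 0, 0, ⟨0, 0⟩, 0⟩ 0 0)) (.cut .v 4194304 (.pos 4 .pm ⟨0, 0, 167772160000, 0, 0, 0, 0, 0, 0, ⟨0, 0⟩, 0⟩ 0 0) (.pos 5 .pm ⟨0, 0, 167772160000, 0, 0, 0, 0, 0, 0, ⟨0, 0⟩, 0⟩ 0 0))) (.cut .l 414267 (.cut .v 4194304 (.pos 4 .pm ⟨0, 0, 167772160000, 0, 0, 0, 0, 0, 0, ⟨0, 0⟩, 0⟩ 0 0) (.pos 5 .pm ⟨0, 0, 167772160000, 0, 0, 0, 0, 0, 0, ⟨0, 0⟩, 0⟩ 0 0)) (.cut .v 4194304 (.pos 4 .pm ⟨0, 0, 167772160000, 0, 0, 0, 0, 0, 0, ⟨0, 0⟩, 0⟩ 0 0) (.pos 5 .pm ⟨0, 0, 167772160000, 0, 0, 0, 0, 0, 0, ⟨0, 0⟩, 0⟩ 0 0)))) (.cut .l 420903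 (.cut .l 418691 (.cut .v 4194304 (.pos 4 .pm ⟨0, 0, 167772160000, 0, 0, 0, 0, 0, 0, ⟨0, 0⟩, 0⟩ 0 0) (.pos 5 .pm ⟨0, 0, 167772160000, 0, 0, 0, 0, 0, 0, ⟨0, 0⟩, 0⟩ 0 0)) (.cut .v 4194304 (.pos 4 .pm ⟨0, 0, 167772160000, 0, 0, 0, 0, 0, 0, ⟨0, 0⟩, 0⟩ 0 0) (.pos 5 .pm ⟨0, 0, 167772160000, 0, 0, 0, 0, 0, 0, ⟨0, 0⟩, 0⟩ 0 0))) (.cut .l 423115 (.cut .v 4194304 (.pos 4 .pm ⟨0, 0, 167772160000, 0, 0, 0, 0, 0, 0, ⟨0, 0⟩, 0⟩ 0 0) (.pos 5 .pm ⟨0, 0, 167772160000, 0, 0, 0, 0, 0, 0, ⟨0, 0⟩, 0⟩ 0 0)) (.cut .v 4194304 (.pos 4 .pm ⟨0, 0, 167772160000, 0, 0, 0, 0, 0, 0, ⟨0, 0⟩, 0⟩ 0 0) (.pos 5 .pm ⟨0, 0, 167772160000, 0, 0, 0, 0, 0, 0, ⟨0, 0⟩, 0⟩ 0 0))))) (.cut .l 434174 (.cut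 .l 429750 (.cut .l 427538 (.cut .v 4194304 (.pos 4 .pm ⟨0, 0, 167772160000, 0, 0, 0, 0, 0, 0, ⟨0, 0⟩, 0⟩ 0 0) (.pos 5 .pm ⟨0, 0, 167772160000, 0, 0, 0, 0, 0, 0, ⟨0, 0⟩, 0⟩ 0 0)) (.cut .v 4194304 (.pos 4 .pm ⟨0, 0, 167772160000, 0, 0, 0, 0, 0, 0, ⟨0, 0⟩, 0⟩ 0 0) (.pos 5 .pm ⟨0, 0, 167772160000, 0, 0, 0, 0, 0, 0, ⟨0, 0⟩, 0⟩ 0 0))) (.cut .l 431962 (.cut .v 4194304 (.pos 4 .pm ⟨0, 0, 167772160000, 0, 0, 0, 0, 0, 0, ⟨0, 0⟩, 0⟩ 0 0) (.pos 5 .pm ⟨0, 0, 167772160000, 0, 0, 0, 0, 0, 0, ⟨0, 0⟩, 0⟩ 0 0)) (.cut .v 4194304 (.pos 4 .pm ⟨0, 0, 167772160000, 0, 0, 0, 0, 0, 0, ⟨0, 0⟩, 0⟩ 0 0) (.pos 5 .pm ⟨0, 0, 167772160000, 0, 0, 0, 0, 0, 0, ⟨0, 0⟩, 0⟩ 0 0)))) (.cut .l 438598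 (.cut .l 436386 (.cut .v 4194304 (.pos 4 .pm ⟨0, 0, 167772160000, 0, 0, 0, 0, 0, 0, ⟨0, 0⟩, 0⟩ 0 0) (.pos 5 .pm ⟨0, 0, 167772160000, 0, 0, 0, 0, 0, 0, ⟨0, 0⟩, 0⟩ 0 0)) (.cut .v 4194304 (.pos 4 .pm ⟨0, 0, 167772160000, 0, 0, 0, 0, 0, 0, ⟨0, 0⟩, 0⟩ 0 0) (.pos 5 .pm ⟨0, 0, 167772160000, 0, 0, 0, 0, 0, 0, ⟨0, 0⟩, 0⟩ 0 0))) (.cut .l 440810 (.cut .v 4194304 (.pos 4 .pm ⟨0, 0, 167772160000, 0, 0, 0, 0, 0, 0, ⟨0, 0⟩, 0⟩ 0 0) (.pos 5 .pm ⟨0, 0, 167772160000, 0, 0, 0, 0, 0, 0, ⟨0, 0⟩, 0⟩ 0 0)) (.cut .v 4194304 (.pos 4 .pm ⟨0, 0, 167772160000, 0, 0, 0, 0, 0, 0, ⟨0, 0⟩, 0⟩ 0 0) (.pos 5 .pm ⟨0, 0, 167772160000, 0, 0, 0, 0, 0, 0, ⟨0, 0⟩, 0⟩ 0 0))))))) (.cut .l 478411 (.cut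 .l 460716 (.cut .l 451869 (.cut .l 447445 (.cut .l 445233 (.cut .v 4194304 (.pos 4 .pm ⟨0, 0, 167772160000, 0, 0, 0, 0, 0, 0, ⟨0, 0⟩, 0⟩ 0 0) (.pos 5 .pm ⟨0, 0, 167772160000, 0, 0, 0, 0, 0, 0, ⟨0, 0⟩, 0⟩ 0 0)) (.cut .v 4194304 (.pos 4 .pm ⟨0, 0, 167772160000, 0, 0, 0, 0, 0, 0, ⟨0, 0⟩, 0⟩ 0 0) (.pos 5 .pm ⟨0, 0, 167772160000, 0, 0, 0, 0, 0, 0, ⟨0, 0⟩, 0⟩ 0 0))) (.cut .l 449657 (.cut .v 4194304 (.pos 4 .pm ⟨0, 0, 167772160000, 0, 0, 0, 0, 0, 0, ⟨0, 0⟩, 0⟩ 0 0) (.pos 5 .pm ⟨0, 0, 167772160000, 0, 0, 0, 0, 0, 0, ⟨0, 0⟩, 0⟩ 0 0)) (.cut .v 4194304 (.pos 4 .pm ⟨0, 0, 167772160000, 0, 0, 0, 0, 0, 0, ⟨0, 0⟩, 0⟩ 0 0) (.pos 5 .pm ⟨0, 0, 167772160000, 0, 0, 0, 0, 0, 0,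 ⟨0, 0⟩, 0⟩ 0 0)))) (.cut .l 456292 (.cut .l 454080 (.cut .v 4194304 (.pos 4 .pm ⟨0, 0, 167772160000, 0, 0, 0, 0, 0, 0, ⟨0, 0⟩, 0⟩ 0 0) (.pos 5 .pm ⟨0, 0, 167772160000, 0, 0, 0, 0, 0, 0, ⟨0, 0⟩, 0⟩ 0 0)) (.cut .v 4194304 (.pos 4 .pm ⟨0, 0, 167772160000, 0, 0, 0, 0, 0, 0, ⟨0, 0⟩, 0⟩ 0 0) (.pos 5 .pm ⟨0, 0, 167772160000, 0, 0, 0, 0, 0, 0, ⟨0, 0⟩, 0⟩ 0 0))) (.cut .l 458504 (.cut .v 4194304 (.pos 4 .pm ⟨0, 0, 167772160000, 0, 0, 0, 0, 0, 0, ⟨0, 0⟩, 0⟩ 0 0) (.pos 5 .pm ⟨0, 0, 167772160000, 0, 0, 0, 0, 0, 0, ⟨0, 0⟩, 0⟩ 0 0)) (.cut .v 4194304 (.pos 4 .pm ⟨0, 0, 167772160000, 0, 0, 0, 0, 0, 0, ⟨0, 0⟩, 0⟩ 0 0) (.pos 5 .pm ⟨0, 0, 167772160000, 0, 0, 0, 0, 0, 0, ⟨0, 0⟩,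 0⟩ 0 0))))) (.cut .l 469563 (.cut .l 465139 (.cut .l 462927 (.cut .v 4194304 (.pos 4 .pm ⟨0, 0, 167772160000, 0, 0, 0, 0, 0, 0, ⟨0, 0⟩, 0⟩ 0 0) (.pos 5 .pm ⟨0, 0, 167772160000, 0, 0, 0, 0, 0, 0, ⟨0, 0⟩, 0⟩ 0 0)) (.cut .v 4194304 (.pos 4 .pm ⟨0, 0, 167772160000, 0, 0, 0, 0, 0, 0, ⟨0, 0⟩, 0⟩ 0 0) (.pos 5 .pm ⟨0, 0, 167772160000, 0, 0, 0, 0, 0, 0, ⟨0, 0⟩, 0⟩ 0 0))) (.cut .l 467351 (.cut .v 4194304 (.pos 4 .pm ⟨0, 0, 167772160000, 0, 0, 0, 0, 0, 0, ⟨0, 0⟩, 0⟩ 0 0) (.pos 5 .pm ⟨0, 0, 167772160000, 0, 0, 0, 0, 0, 0, ⟨0, 0⟩, 0⟩ 0 0)) (.cut .v 4194304 (.pos 4 .pm ⟨0, 0, 167772160000, 0, 0, 0, 0, 0, 0, ⟨0, 0⟩, 0⟩ 0 0) (.pos 5 .pm ⟨0, 0, 167772160000, 0, 0, 0, 0, 0,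 0, ⟨0, 0⟩, 0⟩ 0 0)))) (.cut .l 473987 (.cut .l 471775 (.cut .v 4194304 (.pos 4 .pm ⟨0, 0, 167772160000, 0, 0, 0, 0, 0, 0, ⟨0, 0⟩, 0⟩ 0 0) (.pos 5 .pm ⟨0, 0, 167772160000, 0, 0, 0, 0, 0, 0, ⟨0, 0⟩, 0⟩ 0 0)) (.cut .v 4194304 (.pos 4 .pm ⟨0, 0, 167772160000, 0, 0, 0, 0, 0, 0, ⟨0, 0⟩, 0⟩ 0 0) (.pos 5 .pm ⟨0, 0, 167772160000, 0, 0, 0, 0, 0, 0, ⟨0, 0⟩, 0⟩ 0 0))) (.cut .l 476199 (.cut .v 4194304 (.pos 4 .pm ⟨0, 0, 167772160000, 0, 0, 0, 0, 0, 0, ⟨0, 0⟩, 0⟩ 0 0) (.pos 5 .pm ⟨0, 0, 167772160000, 0, 0, 0, 0, 0, 0, ⟨0, 0⟩, 0⟩ 0 0)) (.cut .v 4194304 (.pos 4 .pm ⟨0, 0, 167772160000, 0, 0, 0, 0, 0, 0, ⟨0, 0⟩, 0⟩ 0 0) (.pos 5 .pm ⟨0, 0, 167772160000, 0, 0, 0, 0, 0, 0, ⟨0,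 0⟩, 0⟩ 0 0)))))) (.cut .l 496106 (.cut .l 487258 (.cut .l 482834 (.cut .l 480622 (.cut .v 4194304 (.pos 4 .pm ⟨0, 0, 167772160000, 0, 0, 0, 0, 0, 0, ⟨0, 0⟩, 0⟩ 0 0) (.pos 5 .pm ⟨0, 0, 167772160000, 0, 0, 0, 0, 0, 0, ⟨0, 0⟩, 0⟩ 0 0)) (.cut .v 4194304 (.pos 4 .pm ⟨0, 0, 167772160000, 0, 0, 0, 0, 0, 0, ⟨0, 0⟩, 0⟩ 0 0) (.pos 5 .pm ⟨0, 0, 167772160000, 0, 0, 0, 0, 0, 0, ⟨0, 0⟩, 0⟩ 0 0))) (.cut .l 485046 (.cut .v 4194304 (.pos 4 .pm ⟨0, 0, 167772160000, 0, 0, 0, 0, 0, 0, ⟨0, 0⟩, 0⟩ 0 0) (.pos 5 .pm ⟨0, 0, 167772160000, 0, 0, 0, 0, 0, 0, ⟨0, 0⟩, 0⟩ 0 0)) (.cut .v 4194304 (.pos 4 .pm ⟨0, 0, 167772160000, 0, 0, 0, 0, 0, 0, ⟨0, 0⟩, 0⟩ 0 0) (.pos 5 .pm ⟨0, 0, 167772160000,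 0, 0, 0, 0, 0, 0, ⟨0, 0⟩, 0⟩ 0 0)))) (.cut .l 491682 (.cut .l 489470 (.cut .v 4194304 (.pos 4 .pm ⟨0, 0, 167772160000, 0, 0, 0, 0, 0, 0, ⟨0, 0⟩, 0⟩ 0 0) (.pos 5 .pm ⟨0, 0, 167772160000, 0, 0, 0, 0, 0, 0, ⟨0, 0⟩, 0⟩ 0 0)) (.cut .v 4194304 (.pos 4 .pm ⟨0, 0, 167772160000, 0, 0, 0, 0, 0, 0, ⟨0, 0⟩, 0⟩ 0 0) (.pos 5 .pm ⟨0, 0, 167772160000, 0, 0, 0, 0, 0, 0, ⟨0, 0⟩, 0⟩ 0 0))) (.cut .l 493894 (.cut .v 4194304 (.pos 4 .pm ⟨0, 0, 167772160000, 0, 0, 0, 0, 0, 0, ⟨0, 0⟩, 0⟩ 0 0) (.pos 5 .pm ⟨0, 0, 167772160000, 0, 0, 0, 0, 0, 0, ⟨0, 0⟩, 0⟩ 0 0)) (.cut .v 4194304 (.pos 4 .pm ⟨0, 0, 167772160000, 0, 0, 0, 0, 0, 0, ⟨0, 0⟩, 0⟩ 0 0) (.pos 5 .pm ⟨0, 0, 167772160000, 0, 0,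 0, 0, 0, 0, ⟨0, 0⟩, 0⟩ 0 0))))) (.cut .l 504953 (.cut .l 500529 (.cut .l 498317 (.cut .v 4194304 (.pos 4 .pm ⟨0, 0, 167772160000, 0, 0, 0, 0, 0, 0, ⟨0, 0⟩, 0⟩ 0 0) (.pos 5 .pm ⟨0, 0, 167772160000, 0, 0, 0, 0, 0, 0, ⟨0, 0⟩, 0⟩ 0 0)) (.cut .v 4194304 (.pos 4 .pm ⟨0, 0, 167772160000, 0, 0, 0, 0, 0, 0, ⟨0, 0⟩, 0⟩ 0 0) (.pos 5 .pm ⟨0, 0, 167772160000, 0, 0, 0, 0, 0, 0, ⟨0, 0⟩, 0⟩ 0 0))) (.cut .l 502741 (.cut .v 4194304 (.pos 4 .pm ⟨0, 0, 167772160000, 0, 0, 0, 0, 0, 0, ⟨0, 0⟩, 0⟩ 0 0) (.pos 5 .pm ⟨0, 0, 167772160000, 0, 0, 0, 0, 0, 0, ⟨0, 0⟩, 0⟩ 0 0)) (.cut .v 4194304 (.pos 4 .pm ⟨0, 0, 167772160000, 0, 0, 0, 0, 0, 0, ⟨0, 0⟩, 0⟩ 0 0) (.pos 5 .pm ⟨0, 0, 167772160000,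 0, 0, 0, 0, 0, 0, ⟨0, 0⟩, 0⟩ 0 0)))) (.cut .l 509377 (.cut .l 507165 (.cut .v 4194304 (.pos 4 .pm ⟨0, 0, 167772160000, 0, 0, 0, 0, 0, 0, ⟨0, 0⟩, 0⟩ 0 0) (.pos 5 .pm ⟨0, 0, 167772160000, 0, 0, 0, 0, 0, 0, ⟨0, 0⟩, 0⟩ 0 0)) (.cut .v 4194304 (.pos 4 .pm ⟨0, 0, 167772160000, 0, 0, 0, 0, 0, 0, ⟨0, 0⟩, 0⟩ 0 0) (.pos 5 .pm ⟨0, 0, 167772160000, 0, 0, 0, 0, 0, 0, ⟨0, 0⟩, 0⟩ 0 0))) (.cut .l 511589 (.cut .v 4194304 (.pos 4 .pm ⟨0, 0, 167772160000, 0, 0, 0, 0, 0, 0, ⟨0, 0⟩, 0⟩ 0 0) (.pos 5 .pm ⟨0, 0, 167772160000, 0, 0, 0, 0, 0, 0, ⟨0, 0⟩, 0⟩ 0 0)) (.cut .v 4194304 (.pos 4 .pm ⟨0, 0, 167772160000, 0, 0, 0, 0, 0, 0, ⟨0, 0⟩, 0⟩ 0 0) (.pos 5 .pm ⟨0, 0, 167772160000, 0, 0,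 0, 0, 0, 0, ⟨0, 0⟩, 0⟩ 0 0))))))))) (.cut .l 655359 (.cut .l 584580 (.cut .l 549190 (.cut .l 531495 (.cut .l 522648 (.cut .l 518224 (.cut .l 516012 (.cut .v 4194304 (.pos 4 .pm ⟨0, 0, 167772160000, 0, 0, 0, 0, 0, 0, ⟨0, 0⟩, 0⟩ 0 0) (.pos 5 .pm ⟨0, 0, 167772160000, 0, 0, 0, 0, 0, 0, ⟨0, 0⟩, 0⟩ 0 0)) (.cut .v 4194304 (.pos 4 .pm ⟨0, 0, 167772160000, 0, 0, 0, 0, 0, 0, ⟨0, 0⟩, 0⟩ 0 0) (.pos 5 .pm ⟨0, 0, 167772160000, 0, 0, 0, 0, 0, 0, ⟨0, 0⟩, 0⟩ 0 0))) (.cut .l 520436 (.cut .v 4194304 (.pos 4 .pm ⟨0, 0, 167772160000, 0, 0, 0, 0, 0, 0, ⟨0, 0⟩, 0⟩ 0 0) (.pos 5 .pm ⟨0, 0, 167772160000, 0, 0, 0, 0, 0, 0, ⟨0, 0⟩, 0⟩ 0 0)) (.cut .v 4194304 (.pos 4 .pm ⟨0, 0, 167772160000,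 0, 0, 0, 0, 0, 0, ⟨0, 0⟩, 0⟩ 0 0) (.pos 5 .pm ⟨0, 0, 167772160000, 0, 0, 0, 0, 0, 0, ⟨0, 0⟩, 0⟩ 0 0)))) (.cut .l 527071 (.cut .l 524859 (.cut .v 4194304 (.pos 4 .pm ⟨0, 0, 167772160000, 0, 0, 0, 0, 0, 0, ⟨0, 0⟩, 0⟩ 0 0) (.pos 5 .pm ⟨0, 0, 167772160000, 0, 0, 0, 0, 0, 0, ⟨0, 0⟩, 0⟩ 0 0)) (.cut .v 4194304 (.pos 4 .pm ⟨0, 0, 167772160000, 0, 0, 0, 0, 0, 0, ⟨0, 0⟩, 0⟩ 0 0) (.pos 5 .pm ⟨0, 0, 167772160000, 0, 0, 0, 0, 0, 0, ⟨0, 0⟩, 0⟩ 0 0))) (.cut .l 529283 (.cut .v 4194304 (.pos 4 .pm ⟨0, 0, 167772160000, 0, 0, 0, 0, 0, 0, ⟨0, 0⟩, 0⟩ 0 0) (.pos 5 .pm ⟨0, 0, 167772160000, 0, 0, 0, 0, 0, 0, ⟨0, 0⟩, 0⟩ 0 0)) (.cut .v 4194304 (.pos 4 .pm ⟨0, 0, 167772160000, 0, 0,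 0, 0, 0, 0, ⟨0, 0⟩, 0⟩ 0 0) (.pos 5 .pm ⟨0, 0, 167772160000, 0, 0, 0, 0, 0, 0, ⟨0, 0⟩, 0⟩ 0 0))))) (.cut .l 540342 (.cut .l 535918 (.cut .l 533706 (.cut .v 4194304 (.pos 4 .pm ⟨0, 0, 167772160000, 0, 0, 0, 0, 0, 0, ⟨0, 0⟩, 0⟩ 0 0) (.pos 5 .pm ⟨0, 0, 167772160000, 0, 0, 0, 0, 0, 0, ⟨0, 0⟩, 0⟩ 0 0)) (.cut .v 4194304 (.pos 4 .pm ⟨0, 0, 167772160000, 0, 0, 0, 0, 0, 0, ⟨0, 0⟩, 0⟩ 0 0) (.pos 5 .pm ⟨0, 0, 167772160000, 0, 0, 0, 0, 0, 0, ⟨0, 0⟩, 0⟩ 0 0))) (.cut .l 538130 (.cut .v 4194304 (.pos 4 .pm ⟨0, 0, 167772160000, 0, 0, 0, 0, 0, 0, ⟨0, 0⟩, 0⟩ 0 0) (.pos 5 .pm ⟨0, 0, 167772160000, 0, 0, 0, 0, 0, 0, ⟨0, 0⟩, 0⟩ 0 0)) (.cut .v 4194304 (.pos 4 .pm ⟨0, 0, 167772160000,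 0, 0, 0, 0, 0, 0, ⟨0, 0⟩, 0⟩ 0 0) (.pos 5 .pm ⟨0, 0, 167772160000, 0, 0, 0, 0, 0, 0, ⟨0, 0⟩, 0⟩ 0 0)))) (.cut .l 544766 (.cut .l 542554 (.cut .v 4194304 (.pos 4 .pm ⟨0, 0, 167772160000, 0, 0, 0, 0, 0, 0, ⟨0, 0⟩, 0⟩ 0 0) (.pos 5 .pm ⟨0, 0, 167772160000, 0, 0, 0, 0, 0, 0, ⟨0, 0⟩, 0⟩ 0 0)) (.cut .v 4194304 (.pos 4 .pm ⟨0, 0, 167772160000, 0, 0, 0, 0, 0, 0, ⟨0, 0⟩, 0⟩ 0 0) (.pos 5 .pm ⟨0, 0, 167772160000, 0, 0, 0, 0, 0, 0, ⟨0, 0⟩, 0⟩ 0 0))) (.cut .l 546978 (.cut .v 4194304 (.pos 4 .pm ⟨0, 0, 167772160000, 0, 0, 0, 0, 0, 0, ⟨0, 0⟩, 0⟩ 0 0) (.pos 5 .pm ⟨0, 0, 167772160000, 0, 0, 0, 0, 0, 0, ⟨0, 0⟩, 0⟩ 0 0)) (.cut .v 4194304 (.pos 4 .pm ⟨0, 0, 167772160000, 0, 0,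 0, 0, 0, 0, ⟨0, 0⟩, 0⟩ 0 0) (.pos 5 .pm ⟨0, 0, 167772160000, 0, 0, 0, 0, 0, 0, ⟨0, 0⟩, 0⟩ 0 0)))))) (.cut .l 566885 (.cut .l 558037 (.cut .l 553613 (.cut .l 551401 (.cut .v 4194304 (.pos 4 .pm ⟨0, 0, 167772160000, 0, 0, 0, 0, 0, 0, ⟨0, 0⟩, 0⟩ 0 0) (.pos 5 .pm ⟨0, 0, 167772160000, 0, 0, 0, 0, 0, 0, ⟨0, 0⟩, 0⟩ 0 0)) (.cut .v 4194304 (.pos 4 .pm ⟨0, 0, 167772160000, 0, 0, 0, 0, 0, 0, ⟨0, 0⟩, 0⟩ 0 0) (.pos 5 .pm ⟨0, 0, 167772160000, 0, 0, 0, 0, 0, 0, ⟨0, 0⟩, 0⟩ 0 0))) (.cut .l 555825 (.cut .v 4194304 (.pos 4 .pm ⟨0, 0, 167772160000, 0, 0, 0, 0, 0, 0, ⟨0, 0⟩, 0⟩ 0 0) (.pos 5 .pm ⟨0, 0, 167772160000, 0, 0, 0, 0, 0, 0, ⟨0, 0⟩, 0⟩ 0 0)) (.cut .v 4194304 (.pos 4 .pm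 ⟨0, 0, 167772160000, 0, 0, 0, 0, 0, 0, ⟨0, 0⟩, 0⟩ 0 0) (.pos 5 .pm ⟨0, 0, 167772160000, 0, 0, 0, 0, 0, 0, ⟨0, 0⟩, 0⟩ 0 0)))) (.cut .l 562461 (.cut .l 560249 (.cut .v 4194304 (.pos 4 .pm ⟨0, 0, 167772160000, 0, 0, 0, 0, 0, 0, ⟨0, 0⟩, 0⟩ 0 0) (.pos 5 .pm ⟨0, 0, 167772160000, 0, 0, 0, 0, 0, 0, ⟨0, 0⟩, 0⟩ 0 0)) (.cut .v 4194304 (.pos 4 .pm ⟨0, 0, 167772160000, 0, 0, 0, 0, 0, 0, ⟨0, 0⟩, 0⟩ 0 0) (.pos 5 .pm ⟨0, 0, 167772160000, 0, 0, 0, 0, 0, 0, ⟨0, 0⟩, 0⟩ 0 0))) (.cut .l 564673 (.cut .v 4194304 (.pos 4 .pm ⟨0, 0, 167772160000, 0, 0, 0, 0, 0, 0, ⟨0, 0⟩, 0⟩ 0 0) (.pos 5 .pm ⟨0, 0, 167772160000, 0, 0, 0, 0, 0, 0, ⟨0, 0⟩, 0⟩ 0 0)) (.cut .v 4194304 (.pos 4 .pm ⟨0, 0,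 167772160000, 0, 0, 0, 0, 0, 0, ⟨0, 0⟩, 0⟩ 0 0) (.pos 5 .pm ⟨0, 0, 167772160000, 0, 0, 0, 0, 0, 0, ⟨0, 0⟩, 0⟩ 0 0))))) (.cut .l 575732 (.cut .l 571308 (.cut .l 569096 (.cut .v 4194304 (.pos 4 .pm ⟨0, 0, 167772160000, 0, 0, 0, 0, 0, 0, ⟨0, 0⟩, 0⟩ 0 0) (.pos 5 .pm ⟨0, 0, 167772160000, 0, 0, 0, 0, 0, 0, ⟨0, 0⟩, 0⟩ 0 0)) (.cut .v 4194304 (.pos 4 .pm ⟨0, 0, 167772160000, 0, 0, 0, 0, 0, 0, ⟨0, 0⟩, 0⟩ 0 0) (.pos 5 .pm ⟨0, 0, 167772160000, 0, 0, 0, 0, 0, 0, ⟨0, 0⟩, 0⟩ 0 0))) (.cut .l 573520 (.cut .v 4194304 (.pos 4 .pm ⟨0, 0, 167772160000, 0, 0, 0, 0, 0, 0, ⟨0, 0⟩, 0⟩ 0 0) (.pos 5 .pm ⟨0, 0, 167772160000, 0, 0, 0, 0, 0, 0, ⟨0, 0⟩, 0⟩ 0 0)) (.cut .v 4194304 (.pos 4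 .pm ⟨0, 0, 167772160000, 0, 0, 0, 0, 0, 0, ⟨0, 0⟩, 0⟩ 0 0) (.pos 5 .pm ⟨0, 0, 167772160000, 0, 0, 0, 0, 0, 0, ⟨0, 0⟩, 0⟩ 0 0)))) (.cut .l 580156 (.cut .l 577944 (.cut .v 4194304 (.pos 4 .pm ⟨0, 0, 167772160000, 0, 0, 0, 0, 0, 0, ⟨0, 0⟩, 0⟩ 0 0) (.pos 5 .pm ⟨0, 0, 167772160000, 0, 0, 0, 0, 0, 0, ⟨0, 0⟩, 0⟩ 0 0)) (.cut .v 4194304 (.pos 4 .pm ⟨0, 0, 167772160000, 0, 0, 0, 0, 0, 0, ⟨0, 0⟩, 0⟩ 0 0) (.pos 5 .pm ⟨0, 0, 167772160000, 0, 0, 0, 0, 0, 0, ⟨0, 0⟩, 0⟩ 0 0))) (.cut .l 582368 (.cut .v 4194304 (.pos 4 .pm ⟨0, 0, 167772160000, 0, 0, 0, 0, 0, 0, ⟨0, 0⟩, 0⟩ 0 0) (.pos 5 .pm ⟨0, 0, 167772160000, 0, 0, 0, 0, 0, 0, ⟨0, 0⟩, 0⟩ 0 0)) (.cut .v 4194304 (.pos 4 .pm ⟨0,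 0, 167772160000, 0, 0, 0, 0, 0, 0, ⟨0, 0⟩, 0⟩ 0 0) (.pos 5 .pm ⟨0, 0, 167772160000, 0, 0, 0, 0, 0, 0, ⟨0, 0⟩, 0⟩ 0 0))))))) (.cut .l 619969 (.cut .l 602274 (.cut .l 593427 (.cut .l 589003 (.cut .l 586791 (.cut .v 4194304 (.pos 4 .pm ⟨0, 0, 167772160000, 0, 0, 0, 0, 0, 0, ⟨0, 0⟩, 0⟩ 0 0) (.pos 5 .pm ⟨0, 0, 167772160000, 0, 0, 0, 0, 0, 0, ⟨0, 0⟩, 0⟩ 0 0)) (.cut .v 4194304 (.pos 4 .pm ⟨0, 0, 167772160000, 0, 0, 0, 0, 0, 0, ⟨0, 0⟩, 0⟩ 0 0) (.pos 5 .pm ⟨0, 0, 167772160000, 0, 0, 0, 0, 0, 0, ⟨0, 0⟩, 0⟩ 0 0))) (.cut .l 591215 (.cut .v 4194304 (.pos 4 .pm ⟨0, 0, 167772160000, 0, 0, 0, 0, 0, 0, ⟨0, 0⟩, 0⟩ 0 0) (.pos 5 .pm ⟨0, 0, 167772160000, 0, 0, 0, 0, 0, 0, ⟨0,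 0⟩, 0⟩ 0 0)) (.cut .v 4194304 (.pos 4 .pm ⟨0, 0, 167772160000, 0, 0, 0, 0, 0, 0, ⟨0, 0⟩, 0⟩ 0 0) (.pos 5 .pm ⟨0, 0, 167772160000, 0, 0, 0, 0, 0, 0, ⟨0, 0⟩, 0⟩ 0 0)))) (.cut .l 597850 (.cut .l 595638 (.cut .v 4194304 (.pos 4 .pm ⟨0, 0, 167772160000, 0, 0, 0, 0, 0, 0, ⟨0, 0⟩, 0⟩ 0 0) (.pos 5 .pm ⟨0, 0, 167772160000, 0, 0, 0, 0, 0, 0, ⟨0, 0⟩, 0⟩ 0 0)) (.cut .v 4194304 (.pos 4 .pm ⟨0, 0, 167772160000, 0, 0, 0, 0, 0, 0, ⟨0, 0⟩, 0⟩ 0 0) (.pos 5 .pm ⟨0, 0, 167772160000, 0, 0, 0, 0, 0, 0, ⟨0, 0⟩, 0⟩ 0 0))) (.cut .l 600062 (.cut .v 4194304 (.pos 4 .pm ⟨0, 0, 167772160000, 0, 0, 0, 0, 0, 0, ⟨0, 0⟩, 0⟩ 0 0) (.pos 5 .pm ⟨0, 0, 167772160000, 0, 0, 0, 0, 0, 0, ⟨0, 0⟩, 0⟩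 0 0)) (.cut .v 4194304 (.pos 4 .pm ⟨0, 0, 167772160000, 0, 0, 0, 0, 0, 0, ⟨0, 0⟩, 0⟩ 0 0) (.pos 5 .pm ⟨0, 0, 167772160000, 0, 0, 0, 0, 0, 0, ⟨0, 0⟩, 0⟩ 0 0))))) (.cut .l 611121 (.cut .l 606697 (.cut .l 604485 (.cut .v 4194304 (.pos 4 .pm ⟨0, 0, 167772160000, 0, 0, 0, 0, 0, 0, ⟨0, 0⟩, 0⟩ 0 0) (.pos 5 .pm ⟨0, 0, 167772160000, 0, 0, 0, 0, 0, 0, ⟨0, 0⟩, 0⟩ 0 0)) (.cut .v 4194304 (.pos 4 .pm ⟨0, 0, 167772160000, 0, 0, 0, 0, 0, 0, ⟨0, 0⟩, 0⟩ 0 0) (.pos 5 .pm ⟨0, 0, 167772160000, 0, 0, 0, 0, 0, 0, ⟨0, 0⟩, 0⟩ 0 0))) (.cut .l 608909 (.cut .v 4194304 (.pos 4 .pm ⟨0, 0, 167772160000, 0, 0, 0, 0, 0, 0, ⟨0, 0⟩, 0⟩ 0 0) (.pos 5 .pm ⟨0, 0, 167772160000, 0, 0, 0, 0, 0, 0,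 ⟨0, 0⟩, 0⟩ 0 0)) (.cut .v 4194304 (.pos 4 .pm ⟨0, 0, 167772160000, 0, 0, 0, 0, 0, 0, ⟨0, 0⟩, 0⟩ 0 0) (.pos 5 .pm ⟨0, 0, 167772160000, 0, 0, 0, 0, 0, 0, ⟨0, 0⟩, 0⟩ 0 0)))) (.cut .l 615545 (.cut .l 613333 (.cut .v 4194304 (.pos 4 .pm ⟨0, 0, 167772160000, 0, 0, 0, 0, 0, 0, ⟨0, 0⟩, 0⟩ 0 0) (.pos 5 .pm ⟨0, 0, 167772160000, 0, 0, 0, 0, 0, 0, ⟨0, 0⟩, 0⟩ 0 0)) (.cut .v 4194304 (.pos 4 .pm ⟨0, 0, 167772160000, 0, 0, 0, 0, 0, 0, ⟨0, 0⟩, 0⟩ 0 0) (.pos 5 .pm ⟨0, 0, 167772160000, 0, 0, 0, 0, 0, 0, ⟨0, 0⟩, 0⟩ 0 0))) (.cut .l 617757 (.cut .v 4194304 (.pos 4 .pm ⟨0, 0, 167772160000, 0, 0, 0, 0, 0, 0, ⟨0, 0⟩, 0⟩ 0 0) (.pos 5 .pm ⟨0, 0, 167772160000, 0, 0, 0, 0, 0, 0, ⟨0, 0⟩,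 0⟩ 0 0)) (.cut .v 4194304 (.pos 4 .pm ⟨0, 0, 167772160000, 0, 0, 0, 0, 0, 0, ⟨0, 0⟩, 0⟩ 0 0) (.pos 5 .pm ⟨0, 0, 167772160000, 0, 0, 0, 0, 0, 0, ⟨0, 0⟩, 0⟩ 0 0)))))) (.cut .l 637664 (.cut .l 628816 (.cut .l 624392 (.cut .l 622180 (.cut .v 4194304 (.pos 4 .pm ⟨0, 0, 167772160000, 0, 0, 0, 0, 0, 0, ⟨0, 0⟩, 0⟩ 0 0) (.pos 5 .pm ⟨0, 0, 167772160000, 0, 0, 0, 0, 0, 0, ⟨0, 0⟩, 0⟩ 0 0)) (.cut .v 4194304 (.pos 4 .pm ⟨0, 0, 167772160000, 0, 0, 0, 0, 0, 0, ⟨0, 0⟩, 0⟩ 0 0) (.pos 5 .pm ⟨0, 0, 167772160000, 0, 0, 0, 0, 0, 0, ⟨0, 0⟩, 0⟩ 0 0))) (.cut .l 626604 (.cut .v 4194304 (.pos 4 .pm ⟨0, 0, 167772160000, 0, 0, 0, 0, 0, 0, ⟨0, 0⟩, 0⟩ 0 0) (.pos 5 .pm ⟨0, 0, 167772160000,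 0, 0, 0, 0, 0, 0, ⟨0, 0⟩, 0⟩ 0 0)) (.cut .v 4194304 (.pos 4 .pm ⟨0, 0, 167772160000, 0, 0, 0, 0, 0, 0, ⟨0, 0⟩, 0⟩ 0 0) (.pos 5 .pm ⟨0, 0, 167772160000, 0, 0, 0, 0, 0, 0, ⟨0, 0⟩, 0⟩ 0 0)))) (.cut .l 633240 (.cut .l 631028 (.cut .v 4194304 (.pos 4 .pm ⟨0, 0, 167772160000, 0, 0, 0, 0, 0, 0, ⟨0, 0⟩, 0⟩ 0 0) (.pos 5 .pm ⟨0, 0, 167772160000, 0, 0, 0, 0, 0, 0, ⟨0, 0⟩, 0⟩ 0 0)) (.cut .v 4194304 (.pos 4 .pm ⟨0, 0, 167772160000, 0, 0, 0, 0, 0, 0, ⟨0, 0⟩, 0⟩ 0 0) (.pos 5 .pm ⟨0, 0, 167772160000, 0, 0, 0, 0, 0, 0, ⟨0, 0⟩, 0⟩ 0 0))) (.cut .l 635452 (.cut .v 4194304 (.pos 4 .pm ⟨0, 0, 167772160000, 0, 0, 0, 0, 0, 0, ⟨0, 0⟩, 0⟩ 0 0) (.pos 5 .pm ⟨0, 0, 167772160000, 0, 0,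 0, 0, 0, 0, ⟨0, 0⟩, 0⟩ 0 0)) (.cut .v 4194304 (.pos 4 .pm ⟨0, 0, 167772160000, 0, 0, 0, 0, 0, 0, ⟨0, 0⟩, 0⟩ 0 0) (.pos 5 .pm ⟨0, 0, 167772160000, 0, 0, 0, 0, 0, 0, ⟨0, 0⟩, 0⟩ 0 0))))) (.cut .l 646511 (.cut .l 642087 (.cut .l 639875 (.cut .v 4194304 (.pos 4 .pm ⟨0, 0, 167772160000, 0, 0, 0, 0, 0, 0, ⟨0, 0⟩, 0⟩ 0 0) (.pos 5 .pm ⟨0, 0, 167772160000, 0, 0, 0, 0, 0, 0, ⟨0, 0⟩, 0⟩ 0 0)) (.cut .v 4194304 (.pos 4 .pm ⟨0, 0, 167772160000, 0, 0, 0, 0, 0, 0, ⟨0, 0⟩, 0⟩ 0 0) (.pos 5 .pm ⟨0, 0, 167772160000, 0, 0, 0, 0, 0, 0, ⟨0, 0⟩, 0⟩ 0 0))) (.cut .l 644299 (.cut .v 4194304 (.pos 4 .pm ⟨0, 0, 167772160000, 0, 0, 0, 0, 0, 0, ⟨0, 0⟩, 0⟩ 0 0) (.pos 5 .pm ⟨0, 0, 167772160000,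 0, 0, 0, 0, 0, 0, ⟨0, 0⟩, 0⟩ 0 0)) (.cut .v 4194304 (.pos 4 .pm ⟨0, 0, 167772160000, 0, 0, 0, 0, 0, 0, ⟨0, 0⟩, 0⟩ 0 0) (.pos 5 .pm ⟨0, 0, 167772160000, 0, 0, 0, 0, 0, 0, ⟨0, 0⟩, 0⟩ 0 0)))) (.cut .l 650935 (.cut .l 648723 (.cut .v 4194304 (.pos 4 .pm ⟨0, 0, 167772160000, 0, 0, 0, 0, 0, 0, ⟨0, 0⟩, 0⟩ 0 0) (.pos 5 .pm ⟨0, 0, 167772160000, 0, 0, 0, 0, 0, 0, ⟨0, 0⟩, 0⟩ 0 0)) (.cut .v 4194304 (.pos 4 .pm ⟨0, 0, 167772160000, 0, 0, 0, 0, 0, 0, ⟨0, 0⟩, 0⟩ 0 0) (.pos 5 .pm ⟨0, 0, 167772160000, 0, 0, 0, 0, 0, 0, ⟨0, 0⟩, 0⟩ 0 0))) (.cut .l 653147 (.cut .v 4194304 (.pos 4 .pm ⟨0, 0, 167772160000, 0, 0, 0, 0, 0, 0, ⟨0, 0⟩, 0⟩ 0 0) (.pos 5 .pm ⟨0, 0, 167772160000, 0, 0,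 0, 0, 0, 0, ⟨0, 0⟩, 0⟩ 0 0)) (.cut .v 4194304 (.pos 4 .pm ⟨0, 0, 167772160000, 0, 0, 0, 0, 0, 0, ⟨0, 0⟩, 0⟩ 0 0) (.pos 5 .pm ⟨0, 0, 167772160000, 0, 0, 0, 0, 0, 0, ⟨0, 0⟩, 0⟩ 0 0)))))))) (.cut .l 726138 (.cut .l 690748 (.cut .l 673053 (.cut .l 664206 (.cut .l 659782 (.cut .l 657570 (.cut .v 4194304 (.pos 4 .pm ⟨0, 0, 167772160000, 0, 0, 0, 0, 0, 0, ⟨0, 0⟩, 0⟩ 0 0) (.pos 5 .pm ⟨0, 0, 167772160000, 0, 0, 0, 0, 0, 0, ⟨0, 0⟩, 0⟩ 0 0)) (.cut .v 4194304 (.pos 4 .pm ⟨0, 0, 167772160000, 0, 0, 0, 0, 0, 0, ⟨0, 0⟩, 0⟩ 0 0) (.pos 5 .pm ⟨0, 0, 167772160000, 0, 0, 0, 0, 0, 0, ⟨0, 0⟩, 0⟩ 0 0))) (.cut .l 661994 (.cut .v 4194304 (.pos 4 .pm ⟨0, 0, 167772160000, 0, 0, 0, 0,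 0, 0, ⟨0, 0⟩, 0⟩ 0 0) (.pos 5 .pm ⟨0, 0, 167772160000, 0, 0, 0, 0, 0, 0, ⟨0, 0⟩, 0⟩ 0 0)) (.cut .v 4194304 (.pos 4 .pm ⟨0, 0, 167772160000, 0, 0, 0, 0, 0, 0, ⟨0, 0⟩, 0⟩ 0 0) (.pos 5 .pm ⟨0, 0, 167772160000, 0, 0, 0, 0, 0, 0, ⟨0, 0⟩, 0⟩ 0 0)))) (.cut .l 668629 (.cut .v 4194304 (.pos 4 .pm ⟨0, 0, 167772160000, 0, 0, 0, 0, 0, 0, ⟨0, 0⟩, 0⟩ 0 0) (.pos 5 .pm ⟨0, 0, 167772160000, 0, 0, 0, 0, 0, 0, ⟨0, 0⟩, 0⟩ 0 0)) (.cut .v 4194304 (.pos 4 .pm ⟨0, 0, 167772160000, 0, 0, 0, 0, 0, 0, ⟨0, 0⟩, 0⟩ 0 0) (.pos 5 .pm ⟨0, 0, 167772160000, 0, 0, 0, 0, 0, 0, ⟨0, 0⟩, 0⟩ 0 0)))) (.cut .l 681900 (.cut .l 677476 (.cut .v 4194304 (.pos 4 .pm ⟨0, 0, 167772160000, 0, 0, 0, 0, 0, 0,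 ⟨0, 0⟩, 0⟩ 0 0) (.pos 5 .pm ⟨0, 0, 167772160000, 0, 0, 0, 0, 0, 0, ⟨0, 0⟩, 0⟩ 0 0)) (.cut .v 4194304 (.pos 4 .pm ⟨0, 0, 167772160000, 0, 0, 0, 0, 0, 0, ⟨0, 0⟩, 0⟩ 0 0) (.pos 5 .pm ⟨0, 0, 167772160000, 0, 0, 0, 0, 0, 0, ⟨0, 0⟩, 0⟩ 0 0))) (.cut .l 686324 (.cut .v 4194304 (.pos 4 .pm ⟨0, 0, 167772160000, 0, 0, 0, 0, 0, 0, ⟨0, 0⟩, 0⟩ 0 0) (.pos 5 .pm ⟨0, 0, 167772160000, 0, 0, 0, 0, 0, 0, ⟨0, 0⟩, 0⟩ 0 0)) (.cut .v 4194304 (.pos 4 .pm ⟨0, 0, 167772160000, 0, 0, 0, 0, 0, 0, ⟨0, 0⟩, 0⟩ 0 0) (.pos 5 .pm ⟨0, 0, 167772160000, 0, 0, 0, 0, 0, 0, ⟨0, 0⟩, 0⟩ 0 0))))) (.cut .l 708443 (.cut .l 699595 (.cut .l 695171 (.cut .v 4194304 (.pos 4 .pm ⟨0, 0, 167772160000, 0, 0,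 0, 0, 0, 0, ⟨0, 0⟩, 0⟩ 0 0) (.pos 5 .pm ⟨0, 0, 167772160000, 0, 0, 0, 0, 0, 0, ⟨0, 0⟩, 0⟩ 0 0)) (.cut .v 4194304 (.pos 4 .pm ⟨0, 0, 167772160000, 0, 0, 0, 0, 0, 0, ⟨0, 0⟩, 0⟩ 0 0) (.pos 5 .pm ⟨0, 0, 167772160000, 0, 0, 0, 0, 0, 0, ⟨0, 0⟩, 0⟩ 0 0))) (.cut .l 704019 (.cut .v 4194304 (.pos 4 .pm ⟨0, 0, 167772160000, 0, 0, 0, 0, 0, 0, ⟨0, 0⟩, 0⟩ 0 0) (.pos 5 .pm ⟨0, 0, 167772160000, 0, 0, 0, 0, 0, 0, ⟨0, 0⟩, 0⟩ 0 0)) (.cut .v 4194304 (.pos 4 .pm ⟨0, 0, 167772160000, 0, 0, 0, 0, 0, 0, ⟨0, 0⟩, 0⟩ 0 0) (.pos 5 .pm ⟨0, 0, 167772160000, 0, 0, 0, 0, 0, 0, ⟨0, 0⟩, 0⟩ 0 0)))) (.cut .l 717290 (.cut .l 712866 (.cut .v 4194304 (.pos 4 .pm ⟨0, 0, 167772160000, 0, 0, 0, 0,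 0, 0, ⟨0, 0⟩, 0⟩ 0 0) (.pos 5 .pm ⟨0, 0, 167772160000, 0, 0, 0, 0, 0, 0, ⟨0, 0⟩, 0⟩ 0 0)) (.cut .v 4194304 (.pos 4 .pm ⟨0, 0, 167772160000, 0, 0, 0, 0, 0, 0, ⟨0, 0⟩, 0⟩ 0 0) (.pos 5 .pm ⟨0, 0, 167772160000, 0, 0, 0, 0, 0, 0, ⟨0, 0⟩, 0⟩ 0 0))) (.cut .l 721714 (.cut .v 4194304 (.pos 4 .pm ⟨0, 0, 167772160000, 0, 0, 0, 0, 0, 0, ⟨0, 0⟩, 0⟩ 0 0) (.pos 5 .pm ⟨0, 0, 167772160000, 0, 0, 0, 0, 0, 0, ⟨0, 0⟩, 0⟩ 0 0)) (.cut .v 4194304 (.pos 4 .pm ⟨0, 0, 167772160000, 0, 0, 0, 0, 0, 0, ⟨0, 0⟩, 0⟩ 0 0) (.pos 5 .pm ⟨0, 0, 167772160000, 0, 0, 0, 0, 0, 0, ⟨0, 0⟩, 0⟩ 0 0)))))) (.cut .l 761527 (.cut .l 743832 (.cut .l 734985 (.cut .l 730561 (.cut .v 4194304 (.pos 4 .pm ⟨0,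 0, 167772160000, 0, 0, 0, 0, 0, 0, ⟨0, 0⟩, 0⟩ 0 0) (.pos 5 .pm ⟨0, 0, 167772160000, 0, 0, 0, 0, 0, 0, ⟨0, 0⟩, 0⟩ 0 0)) (.cut .v 4194304 (.pos 4 .pm ⟨0, 0, 167772160000, 0, 0, 0, 0, 0, 0, ⟨0, 0⟩, 0⟩ 0 0) (.pos 5 .pm ⟨0, 0, 167772160000, 0, 0, 0, 0, 0, 0, ⟨0, 0⟩, 0⟩ 0 0))) (.cut .l 739408 (.cut .v 4194304 (.pos 4 .pm ⟨0, 0, 167772160000, 0, 0, 0, 0, 0, 0, ⟨0, 0⟩, 0⟩ 0 0) (.pos 5 .pm ⟨0, 0, 167772160000, 0, 0, 0, 0, 0, 0, ⟨0, 0⟩, 0⟩ 0 0)) (.cut .v 4194304 (.pos 4 .pm ⟨0, 0, 167772160000, 0, 0, 0, 0, 0, 0, ⟨0, 0⟩, 0⟩ 0 0) (.pos 5 .pm ⟨0, 0, 167772160000, 0, 0, 0, 0, 0, 0, ⟨0, 0⟩, 0⟩ 0 0)))) (.cut .l 752679 (.cut .l 748255 (.cut .v 4194304 (.pos 4 .pm ⟨0, 0, 167772160000,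 0, 0, 0, 0, 0, 0, ⟨0, 0⟩, 0⟩ 0 0) (.pos 5 .pm ⟨0, 0, 167772160000, 0, 0, 0, 0, 0, 0, ⟨0, 0⟩, 0⟩ 0 0)) (.cut .v 4194304 (.pos 4 .pm ⟨0, 0, 167772160000, 0, 0, 0, 0, 0, 0, ⟨0, 0⟩, 0⟩ 0 0) (.pos 5 .pm ⟨0, 0, 167772160000, 0, 0, 0, 0, 0, 0, ⟨0, 0⟩, 0⟩ 0 0))) (.cut .l 757103 (.cut .v 4194304 (.pos 4 .pm ⟨0, 0, 167772160000, 0, 0, 0, 0, 0, 0, ⟨0, 0⟩, 0⟩ 0 0) (.pos 5 .pm ⟨0, 0, 167772160000, 0, 0, 0, 0, 0, 0, ⟨0, 0⟩, 0⟩ 0 0)) (.cut .v 4194304 (.pos 4 .pm ⟨0, 0, 167772160000, 0, 0, 0, 0, 0, 0, ⟨0, 0⟩, 0⟩ 0 0) (.pos 5 .pm ⟨0, 0, 167772160000, 0, 0, 0, 0, 0, 0, ⟨0, 0⟩, 0⟩ 0 0))))) (.cut .l 779222 (.cut .l 770374 (.cut .l 765950 (.cut .v 4194304 (.pos 4 .pm ⟨0, 0, 167772160000,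 0, 0, 0, 0, 0, 0, ⟨0, 0⟩, 0⟩ 0 0) (.pos 5 .pm ⟨0, 0, 167772160000, 0, 0, 0, 0, 0, 0, ⟨0, 0⟩, 0⟩ 0 0)) (.cut .v 4194304 (.pos 4 .pm ⟨0, 0, 167772160000, 0, 0, 0, 0, 0, 0, ⟨0, 0⟩, 0⟩ 0 0) (.pos 5 .pm ⟨0, 0, 167772160000, 0, 0, 0, 0, 0, 0, ⟨0, 0⟩, 0⟩ 0 0))) (.cut .l 774798 (.cut .v 4194304 (.pos 4 .pm ⟨0, 0, 167772160000, 0, 0, 0, 0, 0, 0, ⟨0, 0⟩, 0⟩ 0 0) (.pos 5 .pm ⟨0, 0, 167772160000, 0, 0, 0, 0, 0, 0, ⟨0, 0⟩, 0⟩ 0 0)) (.cut .v 4194304 (.pos 4 .pm ⟨0, 0, 167772160000, 0, 0, 0, 0, 0, 0, ⟨0, 0⟩, 0⟩ 0 0) (.pos 5 .pm ⟨0, 0, 167772160000, 0, 0, 0, 0, 0, 0, ⟨0, 0⟩, 0⟩ 0 0)))) (.cut .l 788069 (.cut .l 783645 (.cut .v 4194304 (.pos 4 .pm ⟨0, 0, 167772160000, 0, 0,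 0, 0, 0, 0, ⟨0, 0⟩, 0⟩ 0 0) (.pos 5 .pm ⟨0, 0, 167772160000, 0, 0, 0, 0, 0, 0, ⟨0, 0⟩, 0⟩ 0 0)) (.cut .v 4194304 (.pos 4 .pm ⟨0, 0, 167772160000, 0, 0, 0, 0, 0, 0, ⟨0, 0⟩, 0⟩ 0 0) (.pos 5 .pm ⟨0, 0, 167772160000, 0, 0, 0, 0, 0, 0, ⟨0, 0⟩, 0⟩ 0 0))) (.cut .l 792493 (.cut .v 4194304 (.pos 4 .pm ⟨0, 0, 167772160000, 0, 0, 0, 0, 0, 0, ⟨0, 0⟩, 0⟩ 0 0) (.pos 5 .pm ⟨0, 0, 167772160000, 0, 0, 0, 0, 0, 0, ⟨0, 0⟩, 0⟩ 0 0)) (.cut .v 4194304 (.pos 4 .pm ⟨0, 0, 167772160000, 0, 0, 0, 0, 0, 0, ⟨0, 0⟩, 0⟩ 0 0) (.pos 5 .pm ⟨0, 0, 167772160000, 0, 0, 0, 0, 0, 0, ⟨0, 0⟩, 0⟩ 0 0))))))))) (.cut .l 1080033 (.cut .l 938475 (.cut .l 867696 (.cut .l 832306 (.cut .l 814611 (.cut .l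 805764 (.cut .l 801340 (.cut .v 4194304 (.pos 4 .pm ⟨0, 0, 167772160000, 0, 0, 0, 0, 0, 0, ⟨0, 0⟩, 0⟩ 0 0) (.pos 5 .pm ⟨0, 0, 167772160000, 0, 0, 0, 0, 0, 0, ⟨0, 0⟩, 0⟩ 0 0)) (.cut .v 4194304 (.pos 4 .pm ⟨0, 0, 167772160000, 0, 0, 0, 0, 0, 0, ⟨0, 0⟩, 0⟩ 0 0) (.pos 5 .pm ⟨0, 0, 167772160000, 0, 0, 0, 0, 0, 0, ⟨0, 0⟩, 0⟩ 0 0))) (.cut .l 810187 (.cut .v 4194304 (.pos 4 .pm ⟨0, 0, 167772160000, 0, 0, 0, 0, 0, 0, ⟨0, 0⟩, 0⟩ 0 0) (.pos 5 .pm ⟨0, 0, 167772160000, 0, 0, 0, 0, 0, 0, ⟨0, 0⟩, 0⟩ 0 0)) (.cut .v 4194304 (.pos 4 .pm ⟨0, 0, 167772160000, 0, 0, 0, 0, 0, 0, ⟨0, 0⟩, 0⟩ 0 0) (.pos 5 .pm ⟨0, 0, 167772160000, 0, 0, 0, 0, 0, 0, ⟨0, 0⟩, 0⟩ 0 0)))) (.cut .l 823458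 (.cut .l 819034 (.cut .v 4194304 (.pos 4 .pm ⟨0, 0, 167772160000, 0, 0, 0, 0, 0, 0, ⟨0, 0⟩, 0⟩ 0 0) (.pos 5 .pm ⟨0, 0, 167772160000, 0, 0, 0, 0, 0, 0, ⟨0, 0⟩, 0⟩ 0 0)) (.cut .v 4194304 (.pos 4 .pm ⟨0, 0, 167772160000, 0, 0, 0, 0, 0, 0, ⟨0, 0⟩, 0⟩ 0 0) (.pos 5 .pm ⟨0, 0, 167772160000, 0, 0, 0, 0, 0, 0, ⟨0, 0⟩, 0⟩ 0 0))) (.cut .l 827882 (.cut .v 4194304 (.pos 4 .pm ⟨0, 0, 167772160000, 0, 0, 0, 0, 0, 0, ⟨0, 0⟩, 0⟩ 0 0) (.pos 5 .pm ⟨0, 0, 167772160000, 0, 0, 0, 0, 0, 0, ⟨0, 0⟩, 0⟩ 0 0)) (.cut .v 4194304 (.pos 4 .pm ⟨0, 0, 167772160000, 0, 0, 0, 0, 0, 0, ⟨0, 0⟩, 0⟩ 0 0) (.pos 5 .pm ⟨0, 0, 167772160000, 0, 0, 0, 0, 0, 0, ⟨0, 0⟩, 0⟩ 0 0))))) (.cut .l 850001 (.cut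 .l 841153 (.cut .l 836729 (.cut .v 4194304 (.pos 4 .pm ⟨0, 0, 167772160000, 0, 0, 0, 0, 0, 0, ⟨0, 0⟩, 0⟩ 0 0) (.pos 5 .pm ⟨0, 0, 167772160000, 0, 0, 0, 0, 0, 0, ⟨0, 0⟩, 0⟩ 0 0)) (.cut .v 4194304 (.pos 4 .pm ⟨0, 0, 167772160000, 0, 0, 0, 0, 0, 0, ⟨0, 0⟩, 0⟩ 0 0) (.pos 5 .pm ⟨0, 0, 167772160000, 0, 0, 0, 0, 0, 0, ⟨0, 0⟩, 0⟩ 0 0))) (.cut .l 845577 (.cut .v 4194304 (.pos 4 .pm ⟨0, 0, 167772160000, 0, 0, 0, 0, 0, 0, ⟨0, 0⟩, 0⟩ 0 0) (.pos 5 .pm ⟨0, 0, 167772160000, 0, 0, 0, 0, 0, 0, ⟨0, 0⟩, 0⟩ 0 0)) (.cut .v 4194304 (.pos 4 .pm ⟨0, 0, 167772160000, 0, 0, 0, 0, 0, 0, ⟨0, 0⟩, 0⟩ 0 0) (.pos 5 .pm ⟨0, 0, 167772160000, 0, 0, 0, 0, 0, 0, ⟨0, 0⟩, 0⟩ 0 0)))) (.cut .l 858848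 (.cut .l 854424 (.cut .v 4194304 (.pos 4 .pm ⟨0, 0, 167772160000, 0, 0, 0, 0, 0, 0, ⟨0, 0⟩, 0⟩ 0 0) (.pos 5 .pm ⟨0, 0, 167772160000, 0, 0, 0, 0, 0, 0, ⟨0, 0⟩, 0⟩ 0 0)) (.cut .v 4194304 (.pos 4 .pm ⟨0, 0, 167772160000, 0, 0, 0, 0, 0, 0, ⟨0, 0⟩, 0⟩ 0 0) (.pos 5 .pm ⟨0, 0, 167772160000, 0, 0, 0, 0, 0, 0, ⟨0, 0⟩, 0⟩ 0 0))) (.cut .l 863272 (.cut .v 4194304 (.pos 4 .pm ⟨0, 0, 167772160000, 0, 0, 0, 0, 0, 0, ⟨0, 0⟩, 0⟩ 0 0) (.pos 5 .pm ⟨0, 0, 167772160000, 0, 0, 0, 0, 0, 0, ⟨0, 0⟩, 0⟩ 0 0)) (.cut .v 4194304 (.pos 4 .pm ⟨0, 0, 167772160000, 0, 0, 0, 0, 0, 0, ⟨0, 0⟩, 0⟩ 0 0) (.pos 5 .pm ⟨0, 0, 167772160000, 0, 0, 0, 0, 0, 0, ⟨0, 0⟩, 0⟩ 0 0)))))) (.cut .l 903085 (.cut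 .l 885390 (.cut .l 876543 (.cut .l 872119 (.cut .v 4194304 (.pos 4 .pm ⟨0, 0, 167772160000, 0, 0, 0, 0, 0, 0, ⟨0, 0⟩, 0⟩ 0 0) (.pos 5 .pm ⟨0, 0, 167772160000, 0, 0, 0, 0, 0, 0, ⟨0, 0⟩, 0⟩ 0 0)) (.cut .v 4194304 (.pos 4 .pm ⟨0, 0, 167772160000, 0, 0, 0, 0, 0, 0, ⟨0, 0⟩, 0⟩ 0 0) (.pos 5 .pm ⟨0, 0, 167772160000, 0, 0, 0, 0, 0, 0, ⟨0, 0⟩, 0⟩ 0 0))) (.cut .l 880966 (.cut .v 4194304 (.pos 4 .pm ⟨0, 0, 167772160000, 0, 0, 0, 0, 0, 0, ⟨0, 0⟩, 0⟩ 0 0) (.pos 5 .pm ⟨0, 0, 167772160000, 0, 0, 0, 0, 0, 0, ⟨0, 0⟩, 0⟩ 0 0)) (.cut .v 4194304 (.pos 4 .pm ⟨0, 0, 167772160000, 0, 0, 0, 0, 0, 0, ⟨0, 0⟩, 0⟩ 0 0) (.pos 5 .pm ⟨0, 0, 167772160000, 0, 0, 0, 0, 0, 0, ⟨0, 0⟩, 0⟩ 0 0))))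 (.cut .l 894237 (.cut .l 889813 (.cut .v 4194304 (.pos 4 .pm ⟨0, 0, 167772160000, 0, 0, 0, 0, 0, 0, ⟨0, 0⟩, 0⟩ 0 0) (.pos 5 .pm ⟨0, 0, 167772160000, 0, 0, 0, 0, 0, 0, ⟨0, 0⟩, 0⟩ 0 0)) (.cut .v 4194304 (.pos 4 .pm ⟨0, 0, 167772160000, 0, 0, 0, 0, 0, 0, ⟨0, 0⟩, 0⟩ 0 0) (.pos 5 .pm ⟨0, 0, 167772160000, 0, 0, 0, 0, 0, 0, ⟨0, 0⟩, 0⟩ 0 0))) (.cut .l 898661 (.cut .v 4194304 (.pos 4 .pm ⟨0, 0, 167772160000, 0, 0, 0, 0, 0, 0, ⟨0, 0⟩, 0⟩ 0 0) (.pos 5 .pm ⟨0, 0, 167772160000, 0, 0, 0, 0, 0, 0, ⟨0, 0⟩, 0⟩ 0 0)) (.cut .v 4194304 (.pos 4 .pm ⟨0, 0, 167772160000, 0, 0, 0, 0, 0, 0, ⟨0, 0⟩, 0⟩ 0 0) (.pos 5 .pm ⟨0, 0, 167772160000, 0, 0, 0, 0, 0, 0, ⟨0, 0⟩, 0⟩ 0 0))))) (.cut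 .l 920780 (.cut .l 911932 (.cut .l 907508 (.cut .v 4194304 (.pos 4 .pm ⟨0, 0, 167772160000, 0, 0, 0, 0, 0, 0, ⟨0, 0⟩, 0⟩ 0 0) (.pos 5 .pm ⟨0, 0, 167772160000, 0, 0, 0, 0, 0, 0, ⟨0, 0⟩, 0⟩ 0 0)) (.cut .v 4194304 (.pos 4 .pm ⟨0, 0, 167772160000, 0, 0, 0, 0, 0, 0, ⟨0, 0⟩, 0⟩ 0 0) (.pos 5 .pm ⟨0, 0, 167772160000, 0, 0, 0, 0, 0, 0, ⟨0, 0⟩, 0⟩ 0 0))) (.cut .l 916356 (.cut .v 4194304 (.pos 4 .pm ⟨0, 0, 167772160000, 0, 0, 0, 0, 0, 0, ⟨0, 0⟩, 0⟩ 0 0) (.pos 5 .pm ⟨0, 0, 167772160000, 0, 0, 0, 0, 0, 0, ⟨0, 0⟩, 0⟩ 0 0)) (.cut .v 4194304 (.pos 4 .pm ⟨0, 0, 167772160000, 0, 0, 0, 0, 0, 0, ⟨0, 0⟩, 0⟩ 0 0) (.pos 5 .pm ⟨0, 0, 167772160000, 0, 0, 0, 0, 0, 0, ⟨0, 0⟩, 0⟩ 0 0))))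 (.cut .l 929627 (.cut .l 925203 (.cut .v 4194304 (.pos 4 .pm ⟨0, 0, 167772160000, 0, 0, 0, 0, 0, 0, ⟨0, 0⟩, 0⟩ 0 0) (.pos 5 .pm ⟨0, 0, 167772160000, 0, 0, 0, 0, 0, 0, ⟨0, 0⟩, 0⟩ 0 0)) (.cut .v 4194304 (.pos 4 .pm ⟨0, 0, 167772160000, 0, 0, 0, 0, 0, 0, ⟨0, 0⟩, 0⟩ 0 0) (.pos 5 .pm ⟨0, 0, 167772160000, 0, 0, 0, 0, 0, 0, ⟨0, 0⟩, 0⟩ 0 0))) (.cut .l 934051 (.cut .v 4194304 (.pos 4 .pm ⟨0, 0, 167772160000, 0, 0, 0, 0, 0, 0, ⟨0, 0⟩, 0⟩ 0 0) (.pos 5 .pm ⟨0, 0, 167772160000, 0, 0, 0, 0, 0, 0, ⟨0, 0⟩, 0⟩ 0 0)) (.cut .v 4194304 (.pos 4 .pm ⟨0, 0, 167772160000, 0, 0, 0, 0, 0, 0, ⟨0, 0⟩, 0⟩ 0 0) (.pos 5 .pm ⟨0, 0, 167772160000, 0, 0, 0, 0, 0, 0, ⟨0, 0⟩, 0⟩ 0 0))))))) (.cut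 .l 1009254 (.cut .l 973864 (.cut .l 956169 (.cut .l 947322 (.cut .l 942898 (.cut .v 4194304 (.pos 4 .pm ⟨0, 0, 167772160000, 0, 0, 0, 0, 0, 0, ⟨0, 0⟩, 0⟩ 0 0) (.pos 5 .pm ⟨0, 0, 167772160000, 0, 0, 0, 0, 0, 0, ⟨0, 0⟩, 0⟩ 0 0)) (.cut .v 4194304 (.pos 4 .pm ⟨0, 0, 167772160000, 0, 0, 0, 0, 0, 0, ⟨0, 0⟩, 0⟩ 0 0) (.pos 5 .pm ⟨0, 0, 167772160000, 0, 0, 0, 0, 0, 0, ⟨0, 0⟩, 0⟩ 0 0))) (.cut .l 951745 (.cut .v 4194304 (.pos 4 .pm ⟨0, 0, 167772160000, 0, 0, 0, 0, 0, 0, ⟨0, 0⟩, 0⟩ 0 0) (.pos 5 .pm ⟨0, 0, 167772160000, 0, 0, 0, 0, 0, 0, ⟨0, 0⟩, 0⟩ 0 0)) (.cut .v 4194304 (.pos 4 .pm ⟨0, 0, 167772160000, 0, 0, 0, 0, 0, 0, ⟨0, 0⟩, 0⟩ 0 0) (.pos 5 .pm ⟨0, 0, 167772160000,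 0, 0, 0, 0, 0, 0, ⟨0, 0⟩, 0⟩ 0 0)))) (.cut .l 965016 (.cut .l 960592 (.cut .v 4194304 (.pos 4 .pm ⟨0, 0, 167772160000, 0, 0, 0, 0, 0, 0, ⟨0, 0⟩, 0⟩ 0 0) (.pos 5 .pm ⟨0, 0, 167772160000, 0, 0, 0, 0, 0, 0, ⟨0, 0⟩, 0⟩ 0 0)) (.cut .v 4194304 (.pos 4 .pm ⟨0, 0, 167772160000, 0, 0, 0, 0, 0, 0, ⟨0, 0⟩, 0⟩ 0 0) (.pos 5 .pm ⟨0, 0, 167772160000, 0, 0, 0, 0, 0, 0, ⟨0, 0⟩, 0⟩ 0 0))) (.cut .l 969440 (.cut .v 4194304 (.pos 4 .pm ⟨0, 0, 167772160000, 0, 0, 0, 0, 0, 0, ⟨0, 0⟩, 0⟩ 0 0) (.pos 5 .pm ⟨0, 0, 167772160000, 0, 0, 0, 0, 0, 0, ⟨0, 0⟩, 0⟩ 0 0)) (.cut .v 4194304 (.pos 4 .pm ⟨0, 0, 167772160000, 0, 0, 0, 0, 0, 0, ⟨0, 0⟩, 0⟩ 0 0) (.pos 5 .pm ⟨0, 0, 167772160000, 0, 0,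 0, 0, 0, 0, ⟨0, 0⟩, 0⟩ 0 0))))) (.cut .l 991559 (.cut .l 982711 (.cut .l 978287 (.cut .v 4194304 (.pos 4 .pm ⟨0, 0, 167772160000, 0, 0, 0, 0, 0, 0, ⟨0, 0⟩, 0⟩ 0 0) (.pos 5 .pm ⟨0, 0, 167772160000, 0, 0, 0, 0, 0, 0, ⟨0, 0⟩, 0⟩ 0 0)) (.cut .v 4194304 (.pos 4 .pm ⟨0, 0, 167772160000, 0, 0, 0, 0, 0, 0, ⟨0, 0⟩, 0⟩ 0 0) (.pos 5 .pm ⟨0, 0, 167772160000, 0, 0, 0, 0, 0, 0, ⟨0, 0⟩, 0⟩ 0 0))) (.cut .l 987135 (.cut .v 4194304 (.pos 4 .pm ⟨0, 0, 167772160000, 0, 0, 0, 0, 0, 0, ⟨0, 0⟩, 0⟩ 0 0) (.pos 5 .pm ⟨0, 0, 167772160000, 0, 0, 0, 0, 0, 0, ⟨0, 0⟩, 0⟩ 0 0)) (.cut .v 4194304 (.pos 4 .pm ⟨0, 0, 167772160000, 0, 0, 0, 0, 0, 0, ⟨0, 0⟩, 0⟩ 0 0) (.pos 5 .pm ⟨0, 0, 167772160000,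 0, 0, 0, 0, 0, 0, ⟨0, 0⟩, 0⟩ 0 0)))) (.cut .l 1000406 (.cut .l 995982 (.cut .v 4194304 (.pos 4 .pm ⟨0, 0, 167772160000, 0, 0, 0, 0, 0, 0, ⟨0, 0⟩, 0⟩ 0 0) (.pos 5 .pm ⟨0, 0, 167772160000, 0, 0, 0, 0, 0, 0, ⟨0, 0⟩, 0⟩ 0 0)) (.cut .v 4194304 (.pos 4 .pm ⟨0, 0, 167772160000, 0, 0, 0, 0, 0, 0, ⟨0, 0⟩, 0⟩ 0 0) (.pos 5 .pm ⟨0, 0, 167772160000, 0, 0, 0, 0, 0, 0, ⟨0, 0⟩, 0⟩ 0 0))) (.cut .l 1004830 (.cut .v 4194304 (.pos 4 .pm ⟨0, 0, 167772160000, 0, 0, 0, 0, 0, 0, ⟨0, 0⟩, 0⟩ 0 0) (.pos 5 .pm ⟨0, 0, 167772160000, 0, 0, 0, 0, 0, 0, ⟨0, 0⟩, 0⟩ 0 0)) (.cut .v 4194304 (.pos 4 .pm ⟨0, 0, 167772160000, 0, 0, 0, 0, 0, 0, ⟨0, 0⟩, 0⟩ 0 0) (.pos 5 .pm ⟨0, 0, 167772160000, 0,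 0, 0, 0, 0, 0, ⟨0, 0⟩, 0⟩ 0 0)))))) (.cut .l 1044643 (.cut .l 1026948 (.cut .l 1018101 (.cut .l 1013677 (.cut .v 4194304 (.pos 4 .pm ⟨0, 0, 167772160000, 0, 0, 0, 0, 0, 0, ⟨0, 0⟩, 0⟩ 0 0) (.pos 5 .pm ⟨0, 0, 167772160000, 0, 0, 0, 0, 0, 0, ⟨0, 0⟩, 0⟩ 0 0)) (.cut .v 4194304 (.pos 4 .pm ⟨0, 0, 167772160000, 0, 0, 0, 0, 0, 0, ⟨0, 0⟩, 0⟩ 0 0) (.pos 5 .pm ⟨0, 0, 167772160000, 0, 0, 0, 0, 0, 0, ⟨0, 0⟩, 0⟩ 0 0))) (.cut .l 1022524 (.cut .v 4194304 (.pos 4 .pm ⟨0, 0, 167772160000, 0, 0, 0, 0, 0, 0, ⟨0, 0⟩, 0⟩ 0 0) (.pos 5 .pm ⟨0, 0, 167772160000, 0, 0, 0, 0, 0, 0, ⟨0, 0⟩, 0⟩ 0 0)) (.cut .v 4194304 (.pos 4 .pm ⟨0, 0, 167772160000, 0, 0, 0, 0, 0, 0, ⟨0, 0⟩, 0⟩ 0 0) (.pos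 5 .pm ⟨0, 0, 167772160000, 0, 0, 0, 0, 0, 0, ⟨0, 0⟩, 0⟩ 0 0)))) (.cut .l 1035795 (.cut .l 1031371 (.cut .v 4194304 (.pos 4 .pm ⟨0, 0, 167772160000, 0, 0, 0, 0, 0, 0, ⟨0, 0⟩, 0⟩ 0 0) (.pos 5 .pm ⟨0, 0, 167772160000, 0, 0, 0, 0, 0, 0, ⟨0, 0⟩, 0⟩ 0 0)) (.cut .v 4194304 (.pos 4 .pm ⟨0, 0, 167772160000, 0, 0, 0, 0, 0, 0, ⟨0, 0⟩, 0⟩ 0 0) (.pos 5 .pm ⟨0, 0, 167772160000, 0, 0, 0, 0, 0, 0, ⟨0, 0⟩, 0⟩ 0 0))) (.cut .l 1040219 (.cut .v 4194304 (.pos 4 .pm ⟨0, 0, 167772160000, 0, 0, 0, 0, 0, 0, ⟨0, 0⟩, 0⟩ 0 0) (.pos 5 .pm ⟨0, 0, 167772160000, 0, 0, 0, 0, 0, 0, ⟨0, 0⟩, 0⟩ 0 0)) (.cut .v 4194304 (.pos 4 .pm ⟨0, 0, 167772160000, 0, 0, 0, 0, 0, 0, ⟨0, 0⟩, 0⟩ 0 0) (.pos 5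 .pm ⟨0, 0, 167772160000, 0, 0, 0, 0, 0, 0, ⟨0, 0⟩, 0⟩ 0 0))))) (.cut .l 1062338 (.cut .l 1053490 (.cut .l 1049066 (.cut .v 4194304 (.pos 4 .pm ⟨0, 0, 167772160000, 0, 0, 0, 0, 0, 0, ⟨0, 0⟩, 0⟩ 0 0) (.pos 5 .pm ⟨0, 0, 167772160000, 0, 0, 0, 0, 0, 0, ⟨0, 0⟩, 0⟩ 0 0)) (.cut .v 4194304 (.pos 4 .pm ⟨0, 0, 167772160000, 0, 0, 0, 0, 0, 0, ⟨0, 0⟩, 0⟩ 0 0) (.pos 5 .pm ⟨0, 0, 167772160000, 0, 0, 0, 0, 0, 0, ⟨0, 0⟩, 0⟩ 0 0))) (.cut .l 1057914 (.cut .v 4194304 (.pos 4 .pm ⟨0, 0, 167772160000, 0, 0, 0, 0, 0, 0, ⟨0, 0⟩, 0⟩ 0 0) (.pos 5 .pm ⟨0, 0, 167772160000, 0, 0, 0, 0, 0, 0, ⟨0, 0⟩, 0⟩ 0 0)) (.cut .v 4194304 (.pos 4 .pm ⟨0, 0, 167772160000, 0, 0, 0, 0, 0, 0, ⟨0, 0⟩,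 0⟩ 0 0) (.pos 5 .pm ⟨0, 0, 167772160000, 0, 0, 0, 0, 0, 0, ⟨0, 0⟩, 0⟩ 0 0)))) (.cut .l 1071185 (.cut .l 1066761 (.cut .v 4194304 (.pos 4 .pm ⟨0, 0, 167772160000, 0, 0, 0, 0, 0, 0, ⟨0, 0⟩, 0⟩ 0 0) (.pos 5 .pm ⟨0, 0, 167772160000, 0, 0, 0, 0, 0, 0, ⟨0, 0⟩, 0⟩ 0 0)) (.cut .v 4194304 (.pos 4 .pm ⟨0, 0, 167772160000, 0, 0, 0, 0, 0, 0, ⟨0, 0⟩, 0⟩ 0 0) (.pos 5 .pm ⟨0, 0, 167772160000, 0, 0, 0, 0, 0, 0, ⟨0, 0⟩, 0⟩ 0 0))) (.cut .l 1075609 (.cut .v 4194304 (.pos 4 .pm ⟨0, 0, 167772160000, 0, 0, 0, 0, 0, 0, ⟨0, 0⟩, 0⟩ 0 0) (.pos 5 .pm ⟨0, 0, 167772160000, 0, 0, 0, 0, 0, 0, ⟨0, 0⟩, 0⟩ 0 0)) (.cut .v 4194304 (.pos 4 .pm ⟨0, 0, 167772160000, 0, 0, 0, 0, 0, 0, ⟨0, 0⟩, 0⟩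 0 0) (.pos 5 .pm ⟨0, 0, 167772160000, 0, 0, 0, 0, 0, 0, ⟨0, 0⟩, 0⟩ 0 0)))))))) (.cut .v 4194304 (.pos 4 .pm ⟨0, 0, 167772160000, 0, 0, 0, 0, 0, 0, ⟨0, 0⟩, 0⟩ 0 0) (.pos 5 .pm ⟨0, 0, 167772160000, 0, 0, 0, 0, 0, 0, ⟨0, 0⟩, 0⟩ 0 0)))) (.cut .v 4194304 (.cut .v 2097152 (.cut .v 1048576 (.cut .v 524288 (.cut .v 262144 (.cut .v 131072 (.cut .v 65536 (.pos 156 .pm ⟨0, 0, 196313071, 0, 0, 0, 0, 0, 0, ⟨0, 0⟩, 0⟩ 0 0) (.pos 157 .pm ⟨0, 0, 805603983, 0, 0, 0, 0, 0, 0, ⟨0, 0⟩, 0⟩ 0 0)) (.pos 151 .pm ⟨0, 0, 1595734183, 0, 0, 0, 0, 0, 0, ⟨0, 0⟩, 0⟩ 0 0)) (.pos 147 .pm ⟨0, 0, 3176062803, 0, 0, 0, 0, 0, 0, ⟨0, 0⟩, 0⟩ 0 0)) (.pos 127 .pm ⟨0, 0, 6336992926, 0, 0, 0, 0, 0,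 0, ⟨0, 0⟩, 0⟩ 0 0)) (.pos 107 .pm ⟨0, 0, 12659944706, 0, 0, 0, 0, 0, 0, ⟨0, 0⟩, 0⟩ 0 0)) (.pos 7 .pm ⟨0, 0, 25310214400, 0, 0, 0, 0, 0, 0, ⟨0, 0⟩, 0⟩ 0 0)) (.pos 5 .pm ⟨0, 0, 50628218328, 0, 0, 0, 0, 0, 0, ⟨0, 0⟩, 0⟩ 0 0))) (.pos 3 .pm ⟨0, 0, 102029605994, 0, 0, 0, 0, 0, 0, ⟨0, 0⟩, 0⟩ 0 0)) (.cut .v 4294967296 (.cut .v 268435456 (.pos 73 .pp ⟨155661856363, 0, 0, 12110303637, 0, 0, 0, 0, 0, ⟨0, 0⟩, 0⟩ 0 0) (.void 103 ⟨0, 0, 0, 100000, 0, 0, 0, 0, 0, ⟨0, 0⟩, 0⟩ 0 0)) (.void 160 ⟨0, 0, 0, 100000, 0, 0, 0, 0, 0, ⟨0, 0⟩, 0⟩ 0 0)))),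
    by decide +kernel⟩

def covers40 : cell.Covers table row40.1 :=
  ⟨(.cut .d 0 (.cut .v 16777216 (.cut .d (-8388608) (.void 1 ⟨0, 0, 100000, 0, 0, 0, 0, 0, 0, ⟨0, 0⟩, 0⟩ 0 0) (.cut .d (-4194304) (.void 1 ⟨0, 0, 0, 0, 0, 100000, 0, 0, 0, ⟨0, 0⟩, 0⟩ 0 0) (.cut .d (-2097152) (.void 1 ⟨0, 0, 100000, 0, 0, 0, 0, 0, 0, ⟨0, 0⟩, 0⟩ 0 0) (.cut .d (-1048576) (.void 1 ⟨0, 0, 100000, 0, 0, 0, 0, 0, 0, ⟨0, 0⟩, 0⟩ 0 0) (.cut .d (-524288) (.void 1 ⟨0, 0, 100000, 0, 0, 0, 0, 0, 0, ⟨0, 0⟩, 0⟩ 0 0) (.cut .d (-262144) (.void 1 ⟨0, 0, 100000, 0, 0, 0, 0, 0, 0, ⟨0, 0⟩, 0⟩ 0 0) (.cut .d (-131072) (.void 1 ⟨0, 0, 100000, 0, 0, 0, 0, 0, 0, ⟨0, 0⟩, 0⟩ 0 0) (.cut .v 8388608 (.pos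 2 .mm ⟨0, 0, 167772160000, 0, 0, 0, 0, 0, 0, ⟨0, 0⟩, 0⟩ 0 0) (.pos 3 .mm ⟨152777436533, 0, 0, 0, 0, 14994723467, 0, 0, 0, ⟨0, 0⟩, 0⟩ 0 0))))))))) (.cut .v 4294967296 (.cut .d (-8388608) (.void 102 ⟨1000000000, 0, 0, 0, 0, 0, 0, 0, 0, ⟨0, 0⟩, 0⟩ 0 0) (.cut .v 268435456 (.cut .d (-4194304) (.void 73 ⟨1000000000, 0, 0, 0, 0, 0, 0, 0, 0, ⟨0, 0⟩, 0⟩ 0 0) (.cut .v 67108864 (.cut .d (-2097152) (.void 62 ⟨1000000000, 0, 0, 0, 0, 0, 0, 0, 0, ⟨0, 0⟩, 0⟩ 0 0) (.cut .v 33554432 (.cut .d (-1048576) (.void 30 ⟨1000000000, 0, 0, 0, 0, 0, 0, 0, 0, ⟨0, 0⟩, 0⟩ 0 0) (.cut .d (-524288) (.void 30 ⟨1000000000, 0, 0, 0, 0, 0, 0, 0, 0, ⟨0, 0⟩, 0⟩ 0 0) (.cut .d (-262144) (.void 30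 ⟨1000000000, 0, 0, 0, 0, 0, 0, 0, 0, ⟨0, 0⟩, 0⟩ 0 0) (.cut .d (-131072) (.void 30 ⟨1000000000, 0, 0, 0, 0, 0, 0, 0, 0, ⟨0, 0⟩, 0⟩ 0 0) (.cut .d (-65536) (.void 30 ⟨1000000000, 0, 0, 0, 0, 0, 0, 0, 0, ⟨0, 0⟩, 0⟩ 0 0) (.pos 30 .mp ⟨167772160000, 0, 0, 0, 0, 0, 0, 0, 0, ⟨0, 0⟩, 0⟩ 0 0)))))) (.void 63 ⟨1000000000, 0, 0, 0, 0, 0, 0, 0, 0, ⟨0, 0⟩, 0⟩ 0 0))) (.void 74 ⟨100000, 0, 0, 0, 0, 0, 0, 0, 0, ⟨0, 0⟩, 0⟩ 0 0))) (.void 103 ⟨100000, 0, 0, 0, 0, 0, 0, 0, 0, ⟨0, 0⟩, 0⟩ 0 0))) (.void 160 ⟨100000, 0, 0, 0, 0, 0, 0, 0, 0, ⟨0, 0⟩, 0⟩ 0 0))) (.cut .v 16777216 (.cut .v 8388608 (.cut .v 4194304 (.cut .v 2097152 (.cut .v 1048576 (.cut .v 524288 (.cut .v 262144 (.cut .v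 131072 (.cut .v 65536 (.cut .v 32768 (.cut .v 16384 (.pos 165 .pm ⟨0, 0, 120156603, 0, 0, 0, 0, 0, 0, ⟨0, 0⟩, 0⟩ 0 0) (.pos 166 .pm ⟨0, 0, 418577957, 0, 0, 0, 0, 0, 0, ⟨0, 0⟩, 0⟩ 0 0)) (.pos 164 .pm ⟨0, 0, 804338884, 0, 0, 0, 0, 0, 0, ⟨0, 0⟩, 0⟩ 0 0)) (.pos 157 .pm ⟨0, 0, 1555259553, 0, 0, 0, 0, 0, 0, ⟨0, 0⟩, 0⟩ 0 0)) (.pos 151 .pm ⟨0, 0, 3030193220, 0, 0, 0, 0, 0, 0, ⟨0, 0⟩, 0⟩ 0 0)) (.pos 147 .pm ⟨0, 0, 5914412297, 0, 0, 0, 0, 0, 0, ⟨0, 0⟩, 0⟩ 0 0)) (.pos 127 .pm ⟨0, 0, 11509876459, 0, 0, 0, 0, 0, 0, ⟨0, 0⟩, 0⟩ 0 0)) (.pos 107 .pm ⟨0, 0, 22206887460, 0, 0, 0, 0, 0, 0, ⟨0, 0⟩, 0⟩ 0 0)) (.pos 7 .pm ⟨0, 0, 42104702854, 0, 0, 0, 0, 0, 0, ⟨0, 0⟩, 0⟩ 0 0)) (.pos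 5 .pm ⟨0, 0, 77317683646, 0, 0, 0, 0, 0, 0, ⟨0, 0⟩, 0⟩ 0 0)) (.pos 3 .pm ⟨0, 0, 146431317572, 0, 0, 0, 0, 0, 0, ⟨0, 0⟩, 0⟩ 0 0)) (.cut .v 4294967296 (.cut .v 268435456 (.cut .v 67108864 (.pos 62 .pp ⟨0, 0, 0, 0, 0, 0, 0, 0, 0, ⟨0, 0⟩, 0⟩ 0 0) (.pos 74 .pp ⟨44822912578, 0, 0, 122949247422, 0, 0, 0, 0, 0, ⟨0, 0⟩, 0⟩ 0 0)) (.void 103 ⟨267165378, 0, 0, 732834622, 0, 0, 0, 0, 0, ⟨0, 0⟩, 0⟩ 0 0)) (.void 160 ⟨267165378, 0, 0, 732834622, 0, 0, 0, 0, 0, ⟨0, 0⟩, 0⟩ 0 0)))),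
    by decide +kernel⟩

def covers41 : cell.Covers table row41.1 :=
  ⟨(.cut .d 0 (.cut .v 16777216 (.cut .d (-8388608) (.void 1 ⟨0, 0, 3164, 0, 0, 96836, 0, 0, 0, ⟨0, 0⟩, 0⟩ 0 0) (.cut .d (-4194304) (.void 1 ⟨0, 0, 1613, 0, 0, 98387, 0, 0, 0, ⟨0, 0⟩, 0⟩ 0 0) (.cut .d (-2097152) (.void 1 ⟨0, 0, 837, 0, 0, 99163, 0, 0, 0, ⟨0, 0⟩, 0⟩ 0 0) (.cut .d (-1048576) (.void 1 ⟨0, 0, 0, 0, 0, 100000, 0, 0, 0, ⟨0, 0⟩, 0⟩ 0 0) (.cut .d (-524288) (.void 1 ⟨0, 0, 0, 0, 0, 100000, 0, 0, 0, ⟨0, 0⟩, 0⟩ 0 0) (.cut .d (-262144) (.void 1 ⟨0, 0, 159, 0, 0, 99841, 0, 0, 0, ⟨0, 0⟩, 0⟩ 0 0) (.cut .d (-131072) (.void 1 ⟨0, 0, 1, 0, 0, 99999, 0, 0, 0, ⟨0, 0⟩, 0⟩ 0 0) (.cut .d (-65536)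 (.void 1 ⟨0, 0, 0, 0, 0, 100000, 0, 0, 0, ⟨0, 0⟩, 0⟩ 0 0) (.cut .v 8388608 (.void 2 ⟨0, 0, 100000, 0, 0, 0, 0, 0, 0, ⟨0, 0⟩, 0⟩ 0 0) (.cut .d (-32768) (.void 3 ⟨100000, 0, 0, 0, 0, 0, 0, 0, 0, ⟨0, 0⟩, 0⟩ 0 0) (.cut .d (-16384) (.void 3 ⟨100000, 0, 0, 0, 0, 0, 0, 0, 0, ⟨0, 0⟩, 0⟩ 0 0) (.pos 3 .mm ⟨167772160000, 0, 0, 0, 0, 0, 0, 0, 0, ⟨0, 0⟩, 0⟩ 0 0)))))))))))) (.cut .v 4294967296 (.cut .v 268435456 (.cut .v 67108864 (.cut .d (-8388608) (.void 62 ⟨100000, 0, 0, 0, 0, 0, 0, 0, 0, ⟨0, 0⟩, 0⟩ 0 0) (.cut .d (-4194304) (.void 62 ⟨100000, 0, 0, 0, 0, 0, 0, 0, 0, ⟨0, 0⟩, 0⟩ 0 0) (.cut .d (-2097152) (.void 62 ⟨100000, 0, 0, 0, 0, 0, 0, 0, 0, ⟨0, 0⟩, 0⟩ 0 0) (.cut .d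 (-1048576) (.void 62 ⟨100000, 0, 0, 0, 0, 0, 0, 0, 0, ⟨0, 0⟩, 0⟩ 0 0) (.cut .v 33554432 (.cut .d (-524288) (.void 30 ⟨100000, 0, 0, 0, 0, 0, 0, 0, 0, ⟨0, 0⟩, 0⟩ 0 0) (.cut .d (-262144) (.void 30 ⟨100000, 0, 0, 0, 0, 0, 0, 0, 0, ⟨0, 0⟩, 0⟩ 0 0) (.cut .d (-131072) (.void 30 ⟨100000, 0, 0, 0, 0, 0, 0, 0, 0, ⟨0, 0⟩, 0⟩ 0 0) (.cut .d (-65536) (.void 30 ⟨100000, 0, 0, 0, 0, 0, 0, 0, 0, ⟨0, 0⟩, 0⟩ 0 0) (.cut .d (-32768) (.void 30 ⟨100000, 0, 0, 0, 0, 0, 0, 0, 0, ⟨0, 0⟩, 0⟩ 0 0) (.cut .d (-16384) (.void 30 ⟨100000, 0, 0, 0, 0, 0, 0, 0, 0, ⟨0, 0⟩, 0⟩ 0 0) (.pos 30 .mp ⟨167772160000, 0, 0, 0, 0, 0, 0, 0, 0, ⟨0, 0⟩, 0⟩ 0 0))))))) (.void 63 ⟨100000, 0, 0, 0, 0, 0, 0,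 0, 0, ⟨0, 0⟩, 0⟩ 0 0)))))) (.void 74 ⟨100000, 0, 0, 0, 0, 0, 0, 0, 0, ⟨0, 0⟩, 0⟩ 0 0)) (.void 103 ⟨94457, 0, 0, 5543, 0, 0, 0, 0, 0, ⟨0, 0⟩, 0⟩ 0 0)) (.void 160 ⟨94416, 0, 0, 5544, 0, 0, 0, 0, 0, ⟨0, 0⟩, 0⟩ 0 0))) (.cut .v 16777216 (.cut .v 8388608 (.cut .v 4194304 (.cut .v 2097152 (.cut .v 1048576 (.cut .v 524288 (.cut .v 262144 (.cut .v 131072 (.cut .v 65536 (.cut .v 32768 (.cut .v 16384 (.cut .v 8192 (.cut .v 4096 (.cut .v 2048 (.pos 171 .pm ⟨0, 0, 62280314, 0, 0, 0, 0, 0, 0, ⟨0, 0⟩, 0⟩ 0 0) (.pos 172 .pm ⟨0, 0, 146600225, 0, 0, 0, 0, 0, 0, ⟨0, 0⟩, 0⟩ 0 0)) (.pos 170 .pm ⟨0, 0, 267494505, 0, 0, 0, 0, 0, 0, ⟨0, 0⟩, 0⟩ 0 0)) (.pos 168 .pm ⟨0, 0, 498080827,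 0, 0, 0, 0, 0, 0, ⟨0, 0⟩, 0⟩ 0 0)) (.pos 166 .pm ⟨0, 0, 936011487, 0, 0, 0, 0, 0, 0, ⟨0, 0⟩, 0⟩ 0 0)) (.pos 164 .pm ⟨0, 0, 1771721449, 0, 0, 0, 0, 0, 0, ⟨0, 0⟩, 0⟩ 0 0)) (.pos 157 .pm ⟨0, 0, 3468865569, 0, 0, 0, 0, 0, 0, ⟨0, 0⟩, 0⟩ 0 0)) (.pos 151 .pm ⟨0, 0, 6922354390, 0, 0, 0, 0, 0, 0, ⟨0, 0⟩, 0⟩ 0 0)) (.pos 147 .pm ⟨0, 0, 13829401160, 0, 0, 0, 0, 0, 0, ⟨0, 0⟩, 0⟩ 0 0)) (.pos 127 .pm ⟨0, 0, 27643771211, 0, 0, 0, 0, 0, 0, ⟨0, 0⟩, 0⟩ 0 0)) (.pos 107 .pm ⟨0, 0, 55273617354, 0, 0, 0, 0, 0, 0, ⟨0, 0⟩, 0⟩ 0 0)) (.pos 7 .pm ⟨0, 0, 110537733809, 0, 0, 0, 0, 0, 0, ⟨0, 0⟩, 0⟩ 0 0)) (.pos 5 .pm ⟨0, 0, 167772160000, 0, 0, 0, 0, 0, 0, ⟨0, 0⟩, 0⟩ 0 0)) (.pos 3 .pm ⟨0,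 0, 167772160000, 0, 0, 0, 0, 0, 0, ⟨0, 0⟩, 0⟩ 0 0)) (.cut .v 4294967296 (.cut .v 268435456 (.cut .v 67108864 (.pos 62 .pp ⟨0, 0, 0, 0, 0, 0, 0, 0, 0, ⟨0, 0⟩, 0⟩ 0 0) (.cut .v 134217728 (.cut .s 16736256 (.pos 75 .pp ⟨167772160000, 0, 0, 0, 0, 0, 0, 0, 0, ⟨0, 0⟩, 0⟩ 0 0) (.cut .s 16740352 (.pos 75 .pp ⟨167772160000, 0, 0, 0, 0, 0, 0, 0, 0, ⟨0, 0⟩, 0⟩ 0 0) (.cut .s 16742400 (.pos 75 .pp ⟨167772160000, 0, 0, 0, 0, 0, 0, 0, 0, ⟨0, 0⟩, 0⟩ 0 0) (.cut .d 24649 (.cut .d 12324 (.cut .d 6162 (.cut .d 3081 (.void 75 ⟨1000000000, 0, 0, 0, 0, 0, 0, 0, 0, ⟨0, 0⟩, 0⟩ 0 0) (.pos 75 .pp ⟨0, 0, 0, 167772160000, 0, 0, 0, 0, 0, ⟨0, 0⟩, 0⟩ 0 0)) (.pos 75 .pp ⟨3775375467, 0, 0,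 163996784533, 0, 0, 0, 0, 0, ⟨0, 0⟩, 0⟩ 0 0)) (.pos 75 .pp ⟨0, 0, 0, 79920720870, 0, 0, 0, 0, 0, ⟨0, 0⟩, 0⟩ 0 0)) (.void 75 ⟨0, 0, 0, 100000, 0, 0, 0, 0, 0, ⟨0, 0⟩, 0⟩ 0 0))))) (.void 76 ⟨89483, 0, 0, 10517, 0, 0, 0, 0, 0, ⟨0, 0⟩, 0⟩ 0 0))) (.void 103 ⟨0, 0, 0, 100000, 0, 0, 0, 0, 0, ⟨0, 0⟩, 0⟩ 0 0)) (.void 160 ⟨0, 0, 50238, 49762, 0, 0, 0, 0, 0, ⟨0, 0⟩, 0⟩ 0 0)))),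
    by decide +kernel⟩

def covers42 : cell.Covers table row42.1 :=
  ⟨(.cut .d 0 (.cut .v 16777216 (.cut .d (-8388608) (.void 1 ⟨0, 0, 100000, 0, 0, 0, 0, 0, 0, ⟨0, 0⟩, 0⟩ 0 0) (.cut .d (-4194304) (.void 1 ⟨0, 0, 0, 0, 0, 100000, 0, 0, 0, ⟨0, 0⟩, 0⟩ 0 0) (.cut .d (-2097152) (.void 1 ⟨0, 0, 0, 0, 0, 100000, 0, 0, 0, ⟨0, 0⟩, 0⟩ 0 0) (.cut .d (-1048576) (.void 1 ⟨0, 0, 0, 0, 0, 100000, 0, 0, 0, ⟨0, 0⟩, 0⟩ 0 0) (.cut .d (-524288) (.void 1 ⟨0, 0, 0, 0, 0, 100000, 0, 0, 0, ⟨0, 0⟩, 0⟩ 0 0) (.cut .d (-262144) (.void 1 ⟨0, 0, 0, 0, 0, 100000, 0, 0, 0, ⟨0, 0⟩, 0⟩ 0 0) (.cut .d (-131072) (.void 1 ⟨0, 0, 0, 0, 0, 100000, 0, 0, 0, ⟨0, 0⟩, 0⟩ 0 0) (.cut .d (-65536) (.void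 1 ⟨0, 0, 100000, 0, 0, 0, 0, 0, 0, ⟨0, 0⟩, 0⟩ 0 0) (.cut .d (-32768) (.void 1 ⟨0, 0, 100000, 0, 0, 0, 0, 0, 0, ⟨0, 0⟩, 0⟩ 0 0) (.cut .v 8388608 (.void 2 ⟨0, 0, 100000, 0, 0, 0, 0, 0, 0, ⟨0, 0⟩, 0⟩ 0 0) (.cut .d (-16384) (.void 3 ⟨1000000000, 0, 0, 0, 0, 0, 0, 0, 0, ⟨0, 0⟩, 0⟩ 0 0) (.pos 3 .mm ⟨167772160000, 0, 0, 0, 0, 0, 0, 0, 0, ⟨0, 0⟩, 0⟩ 0 0)))))))))))) (.cut .v 4294967296 (.cut .d (-8388608) (.void 102 ⟨97105, 0, 0, 2294, 0, 0, 0, 0, 0, ⟨0, 0⟩, 0⟩ 0 0) (.cut .d (-4194304) (.void 102 ⟨1000000000, 0, 0, 0, 0, 0, 0, 0, 0, ⟨0, 0⟩, 0⟩ 0 0) (.cut .v 268435456 (.cut .v 67108864 (.cut .d (-2097152) (.void 62 ⟨1000000000, 0, 0, 0, 0, 0, 0, 0, 0, ⟨0, 0⟩, 0⟩ 0 0)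 (.cut .d (-1048576) (.void 62 ⟨1000000000, 0, 0, 0, 0, 0, 0, 0, 0, ⟨0, 0⟩, 0⟩ 0 0) (.cut .d (-524288) (.void 62 ⟨1000000000, 0, 0, 0, 0, 0, 0, 0, 0, ⟨0, 0⟩, 0⟩ 0 0) (.cut .d (-262144) (.void 62 ⟨1000000000, 0, 0, 0, 0, 0, 0, 0, 0, ⟨0, 0⟩, 0⟩ 0 0) (.cut .d (-131072) (.void 62 ⟨1000000000, 0, 0, 0, 0, 0, 0, 0, 0, ⟨0, 0⟩, 0⟩ 0 0) (.cut .d (-65536) (.void 62 ⟨1000000000, 0, 0, 0, 0, 0, 0, 0, 0, ⟨0, 0⟩, 0⟩ 0 0) (.cut .d (-32768) (.void 62 ⟨1000000000, 0, 0, 0, 0, 0, 0, 0, 0, ⟨0, 0⟩, 0⟩ 0 0) (.cut .d (-16384) (.void 62 ⟨1000000000, 0, 0, 0, 0, 0, 0, 0, 0, ⟨0, 0⟩, 0⟩ 0 0) (.cut .d (-8192) (.void 62 ⟨1000000000, 0, 0, 0, 0, 0, 0, 0, 0, ⟨0, 0⟩, 0⟩ 0 0) (.pos 62 .mp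 ⟨167772160000, 0, 0, 0, 0, 0, 0, 0, 0, ⟨0, 0⟩, 0⟩ 0 0)))))))))) (.void 74 ⟨1000000000, 0, 0, 0, 0, 0, 0, 0, 0, ⟨0, 0⟩, 0⟩ 0 0)) (.void 103 ⟨1000000000, 0, 0, 0, 0, 0, 0, 0, 0, ⟨0, 0⟩, 0⟩ 0 0)))) (.void 160 ⟨100000, 0, 0, 0, 0, 0, 0, 0, 0, ⟨0, 0⟩, 0⟩ 0 0))) (.cut .v 16777216 (.cut .v 8388608 (.cut .v 4194304 (.cut .v 2097152 (.cut .v 1048576 (.cut .v 524288 (.cut .v 262144 (.cut .v 131072 (.cut .v 65536 (.cut .v 32768 (.cut .v 16384 (.cut .v 8192 (.cut .v 4096 (.cut .v 2048 (.pos 171 .pm ⟨0, 0, 62243155, 0, 0, 0, 0, 0, 0, ⟨0, 0⟩, 0⟩ 0 0) (.pos 172 .pm ⟨0, 0, 156821847, 0, 0, 0, 0, 0, 0, ⟨0, 0⟩, 0⟩ 0 0)) (.pos 170 .pm ⟨0, 0, 282788817, 0, 0, 0, 0, 0, 0, ⟨0,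 0⟩, 0⟩ 0 0)) (.pos 168 .pm ⟨0, 0, 517888748, 0, 0, 0, 0, 0, 0, ⟨0, 0⟩, 0⟩ 0 0)) (.pos 166 .pm ⟨0, 0, 953148884, 0, 0, 0, 0, 0, 0, ⟨0, 0⟩, 0⟩ 0 0)) (.pos 164 .pm ⟨0, 0, 1762630052, 0, 0, 0, 0, 0, 0, ⟨0, 0⟩, 0⟩ 0 0)) (.pos 157 .pm ⟨0, 0, 3420350052, 0, 0, 0, 0, 0, 0, ⟨0, 0⟩, 0⟩ 0 0)) (.pos 151 .pm ⟨0, 0, 6825354950, 0, 0, 0, 0, 0, 0, ⟨0, 0⟩, 0⟩ 0 0)) (.pos 147 .pm ⟨0, 0, 13635433873, 0, 0, 0, 0, 0, 0, ⟨0, 0⟩, 0⟩ 0 0)) (.pos 127 .pm ⟨0, 0, 27255868229, 0, 0, 0, 0, 0, 0, ⟨0, 0⟩, 0⟩ 0 0)) (.pos 107 .pm ⟨0, 0, 54497842983, 0, 0, 0, 0, 0, 0, ⟨0, 0⟩, 0⟩ 0 0)) (.pos 7 .pm ⟨0, 0, 108986216659, 0, 0, 0, 0, 0, 0, ⟨0, 0⟩, 0⟩ 0 0)) (.pos 5 .pm ⟨0, 0, 167772160000, 0, 0,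 0, 0, 0, 0, ⟨0, 0⟩, 0⟩ 0 0)) (.pos 3 .pm ⟨0, 0, 167772160000, 0, 0, 0, 0, 0, 0, ⟨0, 0⟩, 0⟩ 0 0)) (.cut .v 4294967296 (.cut .v 268435456 (.cut .v 67108864 (.pos 62 .pp ⟨0, 0, 0, 0, 0, 0, 0, 0, 0, ⟨0, 0⟩, 0⟩ 0 0) (.cut .v 134217728 (.cut .s 16750592 (.cut .s 16747520 (.cut .s 16745984 (.cut .d 16417 (.cut .d 8208 (.cut .d 4104 (.void 75 ⟨1000000000, 0, 0, 0, 0, 0, 0, 0, 0, ⟨0, 0⟩, 0⟩ 0 0) (.pos 75 .pp ⟨0, 0, 0, 167772160000, 0, 0, 0, 0, 0, ⟨0, 0⟩, 0⟩ 0 0)) (.pos 75 .pp ⟨0, 0, 0, 138446306914, 0, 0, 0, 0, 0, ⟨0, 0⟩, 0⟩ 0 0)) (.pos 75 .pp ⟨0, 0, 0, 28144967508, 0, 0, 0, 0, 0, ⟨0, 0⟩, 0⟩ 0 0)) (.pos 75 .pp ⟨167772160000, 0, 0, 0, 0, 0, 0, 0, 0, ⟨0, 0⟩, 0⟩ 0 0))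 (.pos 75 .pp ⟨167772160000, 0, 0, 0, 0, 0, 0, 0, 0, ⟨0, 0⟩, 0⟩ 0 0)) (.pos 75 .pp ⟨167772160000, 0, 0, 0, 0, 0, 0, 0, 0, ⟨0, 0⟩, 0⟩ 0 0)) (.cut .v 201326592 (.cut .d 16417 (.void 173 ⟨89488, 0, 0, 10521, 0, 0, 0, 0, 0, ⟨0, 0⟩, 0⟩ 0 0) (.void 173 ⟨0, 0, 0, 100000, 0, 0, 0, 0, 0, ⟨0, 0⟩, 0⟩ 0 0)) (.void 174 ⟨0, 0, 0, 100000, 0, 0, 0, 0, 0, ⟨0, 0⟩, 0⟩ 0 0)))) (.void 103 ⟨0, 0, 0, 100000, 0, 0, 0, 0, 0, ⟨0, 0⟩, 0⟩ 0 0)) (.void 160 ⟨0, 0, 0, 100000, 0, 0, 0, 0, 0, ⟨0, 0⟩, 0⟩ 0 0)))),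
    by decide +kernel⟩

def covers43 : cell.Covers table row43.1 :=
  ⟨(.cut .d 0 (.cut .v 16777216 (.cut .d (-8388608) (.void 1 ⟨0, 0, 0, 0, 0, 100000, 0, 0, 0, ⟨0, 0⟩, 0⟩ 0 0) (.cut .d (-4194304) (.void 1 ⟨0, 0, 100000, 0, 0, 0, 0, 0, 0, ⟨0, 0⟩, 0⟩ 0 0) (.cut .d (-2097152) (.void 1 ⟨0, 0, 0, 0, 0, 1000000000, 0, 0, 0, ⟨0, 0⟩, 0⟩ 0 0) (.cut .d (-1048576) (.void 1 ⟨0, 0, 0, 0, 0, 1000000000, 0, 0, 0, ⟨0, 0⟩, 0⟩ 0 0) (.cut .d (-524288) (.void 1 ⟨0, 0, 0, 0, 0, 1000000000, 0, 0, 0, ⟨0, 0⟩, 0⟩ 0 0) (.cut .d (-262144) (.void 1 ⟨0, 0, 0, 0, 0, 1000000000, 0, 0, 0, ⟨0, 0⟩, 0⟩ 0 0) (.cut .d (-131072) (.void 1 ⟨0, 0, 0, 0, 0, 1000000000, 0, 0, 0, ⟨0, 0⟩, 0⟩ 0 0) (.cut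 .d (-65536) (.void 1 ⟨0, 0, 0, 0, 0, 1000000000, 0, 0, 0, ⟨0, 0⟩, 0⟩ 0 0) (.cut .d (-32768) (.void 1 ⟨0, 0, 100000, 0, 0, 0, 0, 0, 0, ⟨0, 0⟩, 0⟩ 0 0) (.cut .d (-16384) (.void 1 ⟨0, 0, 0, 0, 0, 100000, 0, 0, 0, ⟨0, 0⟩, 0⟩ 0 0) (.cut .v 8388608 (.void 2 ⟨0, 0, 100000, 0, 0, 0, 0, 0, 0, ⟨0, 0⟩, 0⟩ 0 0) (.pos 3 .mm ⟨167772160000, 0, 0, 0, 0, 0, 0, 0, 0, ⟨0, 0⟩, 0⟩ 0 0)))))))))))) (.cut .v 4294967296 (.cut .d (-8388608) (.void 102 ⟨1000000000, 0, 0, 0, 0, 0, 0, 0, 0, ⟨0, 0⟩, 0⟩ 0 0) (.cut .v 268435456 (.cut .d (-4194304) (.void 73 ⟨1000000000, 0, 0, 0, 0, 0, 0, 0, 0, ⟨0, 0⟩, 0⟩ 0 0) (.cut .v 67108864 (.cut .d (-2097152) (.void 62 ⟨1000000000, 0, 0, 0, 0, 0, 0,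 0, 0, ⟨0, 0⟩, 0⟩ 0 0) (.cut .d (-1048576) (.void 62 ⟨1000000000, 0, 0, 0, 0, 0, 0, 0, 0, ⟨0, 0⟩, 0⟩ 0 0) (.cut .d (-524288) (.void 62 ⟨1000000000, 0, 0, 0, 0, 0, 0, 0, 0, ⟨0, 0⟩, 0⟩ 0 0) (.cut .d (-262144) (.void 62 ⟨1000000000, 0, 0, 0, 0, 0, 0, 0, 0, ⟨0, 0⟩, 0⟩ 0 0) (.cut .d (-131072) (.void 62 ⟨1000000000, 0, 0, 0, 0, 0, 0, 0, 0, ⟨0, 0⟩, 0⟩ 0 0) (.cut .d (-65536) (.void 62 ⟨1000000000, 0, 0, 0, 0, 0, 0, 0, 0, ⟨0, 0⟩, 0⟩ 0 0) (.cut .d (-32768) (.void 62 ⟨1000000000, 0, 0, 0, 0, 0, 0, 0, 0, ⟨0, 0⟩, 0⟩ 0 0) (.cut .d (-16384) (.void 62 ⟨1000000000, 0, 0, 0, 0, 0, 0, 0, 0, ⟨0, 0⟩, 0⟩ 0 0) (.pos 62 .mp ⟨167772160000, 0, 0, 0, 0, 0, 0, 0, 0, ⟨0, 0⟩, 0⟩ 0 0)))))))))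 (.void 74 ⟨1000000000, 0, 0, 0, 0, 0, 0, 0, 0, ⟨0, 0⟩, 0⟩ 0 0))) (.void 103 ⟨1000000000, 0, 0, 0, 0, 0, 0, 0, 0, ⟨0, 0⟩, 0⟩ 0 0))) (.void 160 ⟨1000000000, 0, 0, 0, 0, 0, 0, 0, 0, ⟨0, 0⟩, 0⟩ 0 0))) (.cut .v 16777216 (.cut .v 8388608 (.cut .v 4194304 (.cut .v 2097152 (.cut .d 10254 (.pos 6 .pm ⟨0, 0, 167772160000, 0, 0, 0, 0, 0, 0, ⟨0, 0⟩, 0⟩ 0 0) (.cut .v 1048576 (.cut .v 524288 (.cut .v 262144 (.cut .v 131072 (.cut .v 65536 (.cut .v 32768 (.cut .v 16384 (.cut .s 16760832 (.pos 165 .pm ⟨0, 0, 128833925, 0, 0, 0, 0, 0, 0, ⟨0, 0⟩, 0⟩ 0 0) (.pos 165 .pm ⟨0, 0, 15363311, 0, 0, 0, 0, 0, 0, ⟨0, 0⟩, 0⟩ 0 0)) (.pos 166 .pm ⟨0, 0, 1784641189, 0, 0, 0, 0, 0, 0, ⟨0, 0⟩,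 0⟩ 0 0)) (.pos 164 .pm ⟨0, 0, 3553908328, 0, 0, 0, 0, 0, 0, ⟨0, 0⟩, 0⟩ 0 0)) (.pos 157 .pm ⟨0, 0, 7092446940, 0, 0, 0, 0, 0, 0, ⟨0, 0⟩, 0⟩ 0 0)) (.pos 151 .pm ⟨0, 0, 14169541505, 0, 0, 0, 0, 0, 0, ⟨0, 0⟩, 0⟩ 0 0)) (.pos 147 .pm ⟨0, 0, 28323799989, 0, 0, 0, 0, 0, 0, ⟨0, 0⟩, 0⟩ 0 0)) (.pos 127 .pm ⟨0, 0, 56632594381, 0, 0, 0, 0, 0, 0, ⟨0, 0⟩, 0⟩ 0 0)) (.pos 107 .pm ⟨0, 0, 113251292856, 0, 0, 0, 0, 0, 0, ⟨0, 0⟩, 0⟩ 0 0))) (.pos 7 .pm ⟨0, 0, 167772160000, 0, 0, 0, 0, 0, 0, ⟨0, 0⟩, 0⟩ 0 0)) (.pos 5 .pm ⟨0, 0, 167772160000, 0, 0, 0, 0, 0, 0, ⟨0, 0⟩, 0⟩ 0 0)) (.pos 3 .pm ⟨0, 0, 167772160000, 0, 0, 0, 0, 0, 0, ⟨0, 0⟩, 0⟩ 0 0)) (.cut .v 4294967296 (.cut .v 268435456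 (.cut .s 16760832 (.pos 73 .pp ⟨21935921051, 0, 0, 145836238949, 0, 0, 0, 0, 0, ⟨0, 0⟩, 0⟩ 0 0) (.cut .d 10254 (.cut .d 5127 (.cut .d 2563 (.cut .d 1281 (.cut .v 67108864 (.pos 62 .pp ⟨0, 0, 0, 0, 0, 0, 0, 0, 0, ⟨0, 0⟩, 0⟩ 0 0) (.cut .v 134217728 (.void 75 ⟨100000, 0, 0, 0, 0, 0, 0, 0, 0, ⟨0, 0⟩, 0⟩ 0 0) (.void 76 ⟨100000, 0, 0, 0, 0, 0, 0, 0, 0, ⟨0, 0⟩, 0⟩ 0 0))) (.pos 73 .pp ⟨0, 0, 0, 167772160000, 0, 0, 0, 0, 0, ⟨0, 0⟩, 0⟩ 0 0)) (.pos 73 .pp ⟨0, 0, 0, 0, 0, 0, 0, 0, 0, ⟨0, 0⟩, 0⟩ 0 0)) (.pos 73 .pp ⟨0, 0, 0, 0, 0, 0, 0, 0, 0, ⟨0, 0⟩, 0⟩ 0 0)) (.pos 73 .pp ⟨0, 0, 0, 0, 0, 0, 0, 0, 0, ⟨0, 0⟩, 0⟩ 0 0))) (.cut .s 16760832 (.void 103 ⟨0, 0, 0, 1000000000, 0,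 0, 0, 0, 0, ⟨0, 0⟩, 0⟩ 0 0) (.void 103 ⟨0, 0, 0, 100000, 0, 0, 0, 0, 0, ⟨0, 0⟩, 0⟩ 0 0))) (.void 160 ⟨0, 0, 0, 100000, 0, 0, 0, 0, 0, ⟨0, 0⟩, 0⟩ 0 0)))),
    by decide +kernel⟩

def covers44 : cell.Covers table row44.1 :=
  ⟨(.cut .d 0 (.cut .v 16777216 (.cut .d (-8388608) (.void 1 ⟨0, 0, 100000, 0, 0, 0, 0, 0, 0, ⟨0, 0⟩, 0⟩ 0 0) (.cut .d (-4194304) (.void 1 ⟨0, 0, 100000, 0, 0, 0, 0, 0, 0, ⟨0, 0⟩, 0⟩ 0 0) (.cut .d (-2097152) (.void 1 ⟨0, 0, 100000, 0, 0, 0, 0, 0, 0, ⟨0, 0⟩, 0⟩ 0 0) (.cut .d (-1048576) (.void 1 ⟨0, 0, 100000, 0, 0, 0, 0, 0, 0, ⟨0, 0⟩, 0⟩ 0 0) (.cut .d (-524288) (.void 1 ⟨0, 0, 100000, 0, 0, 0, 0, 0, 0, ⟨0, 0⟩, 0⟩ 0 0) (.cut .d (-262144) (.void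 1 ⟨0, 0, 100000, 0, 0, 0, 0, 0, 0, ⟨0, 0⟩, 0⟩ 0 0) (.cut .d (-131072) (.void 1 ⟨0, 0, 100000, 0, 0, 0, 0, 0, 0, ⟨0, 0⟩, 0⟩ 0 0) (.cut .d (-65536) (.void 1 ⟨0, 0, 100000, 0, 0, 0, 0, 0, 0, ⟨0, 0⟩, 0⟩ 0 0) (.cut .d (-32768) (.void 1 ⟨0, 0, 100000, 0, 0, 0, 0, 0, 0, ⟨0, 0⟩, 0⟩ 0 0) (.cut .d (-16384) (.void 1 ⟨0, 0, 100000, 0, 0, 0, 0, 0, 0, ⟨0, 0⟩, 0⟩ 0 0) (.cut .v 8388608 (.void 2 ⟨0, 0, 1000000000, 0, 0, 0, 0, 0, 0, ⟨0, 0⟩, 0⟩ 0 0) (.pos 3 .mm ⟨167772160000, 0, 0, 0, 0, 0, 0, 0, 0, ⟨0, 0⟩, 0⟩ 0 0)))))))))))) (.cut .v 4294967296 (.cut .d (-8388608) (.void 102 ⟨1000000000, 0, 0, 0, 0, 0, 0, 0, 0, ⟨0, 0⟩, 0⟩ 0 0) (.cut .d (-4194304) (.void 102 ⟨1000000000, 0,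 0, 0, 0, 0, 0, 0, 0, ⟨0, 0⟩, 0⟩ 0 0) (.cut .v 268435456 (.cut .v 67108864 (.cut .d (-2097152) (.void 62 ⟨1000000000, 0, 0, 0, 0, 0, 0, 0, 0, ⟨0, 0⟩, 0⟩ 0 0) (.cut .d (-1048576) (.void 62 ⟨1000000000, 0, 0, 0, 0, 0, 0, 0, 0, ⟨0, 0⟩, 0⟩ 0 0) (.cut .d (-524288) (.void 62 ⟨1000000000, 0, 0, 0, 0, 0, 0, 0, 0, ⟨0, 0⟩, 0⟩ 0 0) (.cut .d (-262144) (.void 62 ⟨1000000000, 0, 0, 0, 0, 0, 0, 0, 0, ⟨0, 0⟩, 0⟩ 0 0) (.cut .d (-131072) (.void 62 ⟨1000000000, 0, 0, 0, 0, 0, 0, 0, 0, ⟨0, 0⟩, 0⟩ 0 0) (.cut .d (-65536) (.void 62 ⟨1000000000, 0, 0, 0, 0, 0, 0, 0, 0, ⟨0, 0⟩, 0⟩ 0 0) (.cut .d (-32768) (.void 62 ⟨1000000000, 0, 0, 0, 0, 0, 0, 0, 0, ⟨0, 0⟩, 0⟩ 0 0) (.cut .d (-16384)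 (.void 62 ⟨1000000000, 0, 0, 0, 0, 0, 0, 0, 0, ⟨0, 0⟩, 0⟩ 0 0) (.pos 62 .mp ⟨167772160000, 0, 0, 0, 0, 0, 0, 0, 0, ⟨0, 0⟩, 0⟩ 0 0))))))))) (.void 74 ⟨1000000000, 0, 0, 0, 0, 0, 0, 0, 0, ⟨0, 0⟩, 0⟩ 0 0)) (.void 103 ⟨1000000000, 0, 0, 0, 0, 0, 0, 0, 0, ⟨0, 0⟩, 0⟩ 0 0)))) (.void 160 ⟨1000000000, 0, 0, 0, 0, 0, 0, 0, 0, ⟨0, 0⟩, 0⟩ 0 0))) (.cut .v 16777216 (.cut .v 8388608 (.cut .v 4194304 (.cut .v 2097152 (.cut .d 6150 (.void 6 ⟨0, 0, 100000, 0, 0, 0, 0, 0, 0, ⟨0, 0⟩, 0⟩ 0 0) (.cut .d 9225 (.cut .s 16766976 (.pos 6 .pm ⟨0, 0, 167772160000, 0, 0, 0, 0, 0, 0, ⟨0, 0⟩, 0⟩ 0 0) (.pos 6 .pm ⟨0, 0, 15363110, 0, 0, 0, 0, 0, 0, ⟨0, 0⟩, 0⟩ 0 0)) (.pos 6 .pm ⟨0, 0, 0, 1987469,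 0, 0, 0, 0, 0, ⟨0, 0⟩, 0⟩ 0 0))) (.pos 7 .pm ⟨0, 0, 167772160000, 0, 0, 0, 0, 0, 0, ⟨0, 0⟩, 0⟩ 0 0)) (.pos 5 .pm ⟨0, 0, 167772160000, 0, 0, 0, 0, 0, 0, ⟨0, 0⟩, 0⟩ 0 0)) (.pos 3 .pm ⟨0, 0, 167772160000, 0, 0, 0, 0, 0, 0, ⟨0, 0⟩, 0⟩ 0 0)) (.cut .v 4294967296 (.cut .v 268435456 (.cut .s 16766976 (.cut .s 16765952 (.cut .s 16765440 (.cut .s 16765184 (.cut .s 16765056 (.cut .d 6150 (.cut .d 3075 (.cut .d 1537 (.cut .d 768 (.cut .v 67108864 (.pos 62 .pp ⟨0, 0, 0, 0, 0, 0, 0, 0, 0, ⟨0, 0⟩, 0⟩ 0 0) (.cut .v 134217728 (.void 75 ⟨1000000000, 0, 0, 0, 0, 0, 0, 0, 0, ⟨0, 0⟩, 0⟩ 0 0) (.void 76 ⟨1000000000, 0, 0, 0, 0, 0, 0, 0, 0, ⟨0, 0⟩, 0⟩ 0 0))) (.pos 73 .pp ⟨0, 0, 0,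 167772160000, 0, 0, 0, 0, 0, ⟨0, 0⟩, 0⟩ 0 0)) (.pos 73 .pp ⟨0, 0, 0, 167772160000, 0, 0, 0, 0, 0, ⟨0, 0⟩, 0⟩ 0 0)) (.pos 73 .pp ⟨0, 0, 0, 0, 0, 0, 0, 0, 0, ⟨0, 0⟩, 0⟩ 0 0)) (.pos 73 .pp ⟨0, 0, 0, 0, 0, 0, 0, 0, 0, ⟨0, 0⟩, 0⟩ 0 0)) (.pos 73 .pp ⟨0, 0, 0, 167772160000, 0, 0, 0, 0, 0, ⟨0, 0⟩, 0⟩ 0 0)) (.pos 73 .pp ⟨0, 0, 0, 0, 0, 0, 0, 0, 0, ⟨0, 0⟩, 0⟩ 0 0)) (.pos 73 .pp ⟨0, 0, 0, 0, 0, 0, 0, 0, 0, ⟨0, 0⟩, 0⟩ 0 0)) (.pos 73 .pp ⟨0, 0, 0, 0, 0, 0, 0, 0, 0, ⟨0, 0⟩, 0⟩ 0 0)) (.pos 73 .pp ⟨0, 0, 0, 0, 0, 0, 0, 0, 0, ⟨0, 0⟩, 0⟩ 0 0)) (.void 103 ⟨0, 0, 0, 100000, 0, 0, 0, 0, 0, ⟨0, 0⟩, 0⟩ 0 0)) (.void 160 ⟨0, 0, 0, 100000, 0, 0, 0, 0, 0, ⟨0, 0⟩, 0⟩ 0 0)))),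
    by decide +kernel⟩

def covers45 : cell.Covers table row45.1 :=
  ⟨(.cut .d 0 (.cut .v 16777216 (.cut .d (-8388608) (.void 1 ⟨0, 0, 0, 0, 0, 1000000000, 0, 0, 0, ⟨0, 0⟩, 0⟩ 0 0) (.cut .d (-4194304) (.cut .s 16771072 (.void 1 ⟨0, 0, 100000, 0, 0, 0, 0, 0, 0, ⟨0, 0⟩, 0⟩ 0 0) (.void 1 ⟨0, 0, 100000, 0, 0, 0, 0, 0, 0, ⟨0, 0⟩, 0⟩ 0 0)) (.cut .d (-2097152) (.void 1 ⟨0, 0, 0, 0, 0, 1000000000, 0, 0, 0, ⟨0, 0⟩, 0⟩ 0 0) (.cut .d (-1048576) (.void 1 ⟨0, 0, 0, 0, 0, 1000000000, 0, 0, 0, ⟨0, 0⟩, 0⟩ 0 0) (.cut .d (-524288) (.void 1 ⟨0, 0, 0, 0, 0, 1000000000, 0, 0, 0, ⟨0, 0⟩, 0⟩ 0 0) (.cut .d (-262144) (.void 1 ⟨0, 0, 0, 0, 0, 1000000000, 0, 0, 0, ⟨0, 0⟩, 0⟩ 0 0) (.cut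 .d (-131072) (.void 1 ⟨0, 0, 0, 0, 0, 1000000000, 0, 0, 0, ⟨0, 0⟩, 0⟩ 0 0) (.cut .v 8388608 (.void 2 ⟨0, 0, 100000, 0, 0, 0, 0, 0, 0, ⟨0, 0⟩, 0⟩ 0 0) (.cut .d (-65536) (.void 3 ⟨1000000000, 0, 0, 0, 0, 0, 0, 0, 0, ⟨0, 0⟩, 0⟩ 0 0) (.cut .d (-32768) (.void 3 ⟨1000000000, 0, 0, 0, 0, 0, 0, 0, 0, ⟨0, 0⟩, 0⟩ 0 0) (.cut .d (-16384) (.void 3 ⟨1000000000, 0, 0, 0, 0, 0, 0, 0, 0, ⟨0, 0⟩, 0⟩ 0 0) (.cut .d (-8192) (.void 3 ⟨1000000000, 0, 0, 0, 0, 0, 0, 0, 0, ⟨0, 0⟩, 0⟩ 0 0) (.pos 3 .mm ⟨167772160000, 0, 0, 0, 0, 0, 0, 0, 0, ⟨0, 0⟩, 0⟩ 0 0))))))))))))) (.cut .v 4294967296 (.cut .d (-8388608) (.void 102 ⟨1000000000, 0, 0, 0, 0, 0, 0, 0, 0, ⟨0, 0⟩, 0⟩ 0 0) (.cut .v 268435456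 (.cut .v 67108864 (.cut .d (-4194304) (.void 62 ⟨1000000000, 0, 0, 0, 0, 0, 0, 0, 0, ⟨0, 0⟩, 0⟩ 0 0) (.cut .d (-2097152) (.void 62 ⟨1000000000, 0, 0, 0, 0, 0, 0, 0, 0, ⟨0, 0⟩, 0⟩ 0 0) (.cut .d (-1048576) (.void 62 ⟨1000000000, 0, 0, 0, 0, 0, 0, 0, 0, ⟨0, 0⟩, 0⟩ 0 0) (.cut .d (-524288) (.void 62 ⟨1000000000, 0, 0, 0, 0, 0, 0, 0, 0, ⟨0, 0⟩, 0⟩ 0 0) (.cut .d (-262144) (.void 62 ⟨1000000000, 0, 0, 0, 0, 0, 0, 0, 0, ⟨0, 0⟩, 0⟩ 0 0) (.cut .d (-131072) (.void 62 ⟨1000000000, 0, 0, 0, 0, 0, 0, 0, 0, ⟨0, 0⟩, 0⟩ 0 0) (.cut .d (-65536) (.void 62 ⟨1000000000, 0, 0, 0, 0, 0, 0, 0, 0, ⟨0, 0⟩, 0⟩ 0 0) (.cut .d (-32768) (.void 62 ⟨1000000000, 0, 0, 0, 0, 0, 0, 0, 0, ⟨0, 0⟩,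 0⟩ 0 0) (.cut .d (-16384) (.void 62 ⟨1000000000, 0, 0, 0, 0, 0, 0, 0, 0, ⟨0, 0⟩, 0⟩ 0 0) (.cut .d (-8192) (.void 62 ⟨1000000000, 0, 0, 0, 0, 0, 0, 0, 0, ⟨0, 0⟩, 0⟩ 0 0) (.pos 62 .mp ⟨167772160000, 0, 0, 0, 0, 0, 0, 0, 0, ⟨0, 0⟩, 0⟩ 0 0))))))))))) (.void 74 ⟨1000000000, 0, 0, 0, 0, 0, 0, 0, 0, ⟨0, 0⟩, 0⟩ 0 0)) (.void 103 ⟨1000000000, 0, 0, 0, 0, 0, 0, 0, 0, ⟨0, 0⟩, 0⟩ 0 0))) (.void 160 ⟨1000000000, 0, 0, 0, 0, 0, 0, 0, 0, ⟨0, 0⟩, 0⟩ 0 0))) (.cut .v 16777216 (.pos 1 .pm ⟨0, 0, 15331398, 0, 0, 0, 0, 0, 0, ⟨0, 0⟩, 0⟩ 0 0) (.cut .v 4294967296 (.cut .v 268435456 (.pos 73 .pp ⟨0, 0, 0, 0, 0, 0, 0, 0, 0, ⟨0, 0⟩, 0⟩ 0 0) (.cut .s 16771072 (.void 103 ⟨0, 0, 0, 100000,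 0, 0, 0, 0, 0, ⟨0, 0⟩, 0⟩ 0 0) (.void 103 ⟨0, 0, 0, 100000, 0, 0, 0, 0, 0, ⟨0, 0⟩, 0⟩ 0 0))) (.void 160 ⟨0, 0, 0, 100000, 0, 0, 0, 0, 0, ⟨0, 0⟩, 0⟩ 0 0)))),
    by decide +kernel⟩

end Vale.Agent.P237.Petty.Cor.Grid.N16.Low
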